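import Vale.Agent.P183.Closure

/-!
# Catalyst closure systems are congruence lattices

`S` and `W` are finite, `R ⊆ S × W × W`.  A pair `(s, w)` is closed when `a ∈ s`, `i ∈ w` and
`(a, i, j) ∈ R` force `j ∈ w`.  The closed pairs form the congruence lattice of a finite unary
algebra on `V × K`, where `V = (ZMod 3)^W` and `K` is generated inside
`Finset S → GL(V) × ZMod 3` by elements which are trivial at the coordinates not containing
their index; forgetting coordinates retracts `K` on each standard subgroup.
-/

namespace Vale.Agent.P183.Catalyst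

open scoped Classical

variable {S W : Type} [Fintype S] [Fintype W]

set_option linter.unusedSectionVars false

/-- The vector space. -/
abbrev V (W : Type) := W → ZMod 3

/-- Linear automorphisms. -/
abbrev LAut (W : Type) := V W ≃ₗ[ZMod 3] V W

/-- The transvection `v ↦ v + c * v i • e j` for `i ≠ j`, the identity for `i = j`. -/
noncomputable def shear (i j : W) (c : ZMod 3) : LAut W :=
  { toFun := fun v => if i = j then v else v + Pi.single j (c * v i)
    invFun := fun v => if i = j then v else v - Pi.single j (c * v i)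
    left_inv := fun v => by
      by_cases h : i = j
      · simp [h]
      · simp [h]
    right_inv := fun v => by
      by_cases h : i = j
      · simp [h]
      · simp [h]
    map_add' := fun u v => by
      by_cases h : i = j
      · simp [h]
      · simp only [h, if_false, Pi.add_apply, mul_add, Pi.single_add]
        abel
    map_smul' := fun d v => by
      by_cases h : i = j
      · simp [h]
      · simp only [h, if_false, Pi.smul_apply, smul_eq_mul, RingHom.id_apply, smul_add]
        rw [← Pi.single_smul', smul_eq_mul, mul_left_comm] }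

theorem shear_apply {i j : W} (h : i ≠ j) (c : ZMod 3) (v : V W) :
    shear i j c v = v + Pi.single j (c * v i) := by
  simp [shear, h]

theorem shear_self (i : W) (c : ZMod 3) (v : V W) : shear i i c v = v := by
  simp [shear]

/-- Negation of one coordinate. -/
noncomputable def flip (i : W) : LAut W :=
  { toFun := fun v k => if k = i then -v k else v k
    invFun := fun v k => if k = i then -v k else v k
    left_inv := fun v => funext fun k => by by_cases h : k = i <;> simp [h]
    right_inv := fun v => funext fun k => by by_cases h : k = i <;> simp [h]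
    map_add' := fun u v => funext fun k => by
      by_cases h : k = i
      · simp [h, add_comm]
      · simp [h]
    map_smul' := fun d v => funext fun k => by by_cases h : k = i <;> simp [h] }

theorem flip_apply (i : W) (v : V W) (k : W) : flip i v k = if k = i then -v k else v k := rfl

theorem flip_shear (l i j : W) (c : ZMod 3) :
    ∃ c', flip l * shear i j c * (flip l)⁻¹ = shear i j c' := by
  by_cases hij : i = j
  · subst hij
    refine ⟨c, ?_⟩
    ext v k
    show flip l (shear i i c ((flip l).symm v)) k = _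
    rw [shear_self, shear_self, LinearEquiv.apply_symm_apply]
  · have hs : (flip l).symm = (flip l : LAut W) := rfl
    refine ⟨(if i = l then -1 else 1) * (if j = l then -1 else 1) * c, ?_⟩
    ext v k
    show flip l (shear i j c ((flip l).symm v)) k = _
    rw [hs, shear_apply hij, shear_apply hij]
    simp only [flip_apply, Pi.add_apply]
    by_cases hk : k = j
    · subst hk
      by_cases h1 : i = l <;> by_cases h2 : k = l <;> simp [flip_apply, h1, h2] <;> ring
    · by_cases h2 : k = l
      · subst h2
        simp [hk]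
      · simp [hk, h2]

/-- The coordinate group. -/
abbrev M (W : Type) := LAut W × Multiplicative (ZMod 3)

/-- Ambient group. -/
abbrev Amb (S W : Type) := Finset S → M W

/-- Generators attached to `a`. -/
noncomputable def gen (a : S) (γ : M W) : Amb S W := fun I => if a ∈ I then γ else 1

/-- The allowed values at `a`. -/
def vals (R : Set (S × W × W)) (a : S) : Set (M W) :=
  {γ | γ.1 = 1 ∨ ∃ i j c, (a, i, j) ∈ R ∧ γ.1 = shear i j c}

/-- The standard subgroup of a set of indices. -/
noncomputable def std (R : Set (S × W × W)) (s : Finset S) : Subgroup (Amb S W) :=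
  Subgroup.closure {g | ∃ a ∈ s, ∃ γ ∈ vals R a, g = gen a γ}

theorem gen_mem {R : Set (S × W × W)} {s : Finset S} {a : S} (ha : a ∈ s) {γ : M W}
    (hγ : γ ∈ vals R a) : gen a γ ∈ std R s :=
  Subgroup.subset_closure ⟨a, ha, γ, hγ, rfl⟩

theorem std_mono {R : Set (S × W × W)} {s t : Finset S} (h : s ⊆ t) : std R s ≤ std R t :=
  Subgroup.closure_mono fun _ ⟨a, ha, r⟩ => ⟨a, h ha, r⟩

/-- Forget the indices outside `J`. -/
noncomputable def retr (J : Finset S) : Amb S W →* Amb S W where
  toFun k := fun I => k (I ∩ J)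
  map_one' := rfl
  map_mul' _ _ := rfl

theorem retr_gen (J : Finset S) (a : S) (γ : M W) :
    retr J (gen a γ) = if a ∈ J then gen a γ else 1 := by
  funext I
  by_cases h : a ∈ J
  · simp [retr, gen, h]
  · simp [retr, gen, h]

theorem retr_mem {R : Set (S × W × W)} {s J : Finset S} {k : Amb S W} (hk : k ∈ std R s) :
    retr J k ∈ std R (s ∩ J) := by
  have h : std R s ≤ (std R (s ∩ J)).comap (retr J) := by
    refine (Subgroup.closure_le _).2 ?_
    rintro g ⟨a, ha, γ, hγ, rfl⟩
    rw [SetLike.mem_coe, Subgroup.mem_comap, retr_gen]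
    by_cases h : a ∈ J
    · rw [if_pos h]
      exact gen_mem (Finset.mem_inter.2 ⟨ha, h⟩) hγ
    · rw [if_neg h]
      exact one_mem _
  exact h hk

theorem retr_eq {R : Set (S × W × W)} {J : Finset S} {k : Amb S W} (hk : k ∈ std R J) :
    retr J k = k := by
  refine MonoidHom.eqOn_closure (f := retr J) (g := MonoidHom.id _) ?_ hk
  rintro g ⟨a, ha, γ, -, rfl⟩
  simp [retr_gen, ha]

theorem mem_std_inter {R : Set (S × W × W)} {s J : Finset S} {k : Amb S W} (h1 : k ∈ std R s)
    (h2 : k ∈ std R J) : k ∈ std R (s ∩ J) := by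
  rw [← retr_eq h2]
  exact retr_mem h1

/-- An element of every `std (univ \ {a})`, `a ∉ s`, lies in `std s`. -/
theorem mem_std_of_forall {R : Set (S × W × W)} (s : Finset S) {k : Amb S W}
    (hk : k ∈ std R Finset.univ) (h : ∀ a, a ∉ s → k ∈ std R (Finset.univ.erase a)) :
    k ∈ std R s := by
  have key : ∀ D : Finset S, Disjoint D s → k ∈ std R (Finset.univ \ D) := by
    intro D
    induction D using Finset.induction_on with
    | empty => intro _; simpa using hk
    | @insert a D _ ih =>
      intro hd
      rw [Finset.disjoint_insert_left] at hd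
      have := mem_std_inter (ih hd.2) (h a hd.1)
      refine std_mono ?_ this
      intro b hb
      simp only [Finset.mem_inter, Finset.mem_sdiff, Finset.mem_univ, true_and, Finset.mem_erase,
        and_true] at hb
      simp [hb.1, hb.2]
  refine std_mono ?_ (key (Finset.univ \ s) (Finset.sdiff_disjoint))
  intro b hb
  simpa using hb

/-- A set of coordinates closed for the rules of the indices in `s`. -/
def Closed (R : Set (S × W × W)) (s : Set S) (w : Set W) : Prop :=
  ∀ a i j, (a, i, j) ∈ R → a ∈ s → i ∈ w → j ∈ w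

/-- Vectors supported on `w`. -/
def span (w : Set W) : AddSubgroup (V W) where
  carrier := {v | ∀ i, i ∉ w → v i = 0}
  add_mem' := fun hu hv i hi => by simp [hu i hi, hv i hi]
  zero_mem' := fun i _ => rfl
  neg_mem' := fun hu i hi => by simp [hu i hi]

/-- The top coordinate of `k`. -/
noncomputable def act (k : Amb S W) : LAut W := (k Finset.univ).1

theorem act_mul (g h : Amb S W) (x : V W) : act (g * h) x = act g (act h x) := rfl

theorem act_one (x : V W) : act (1 : Amb S W) x = x := rfl

theorem act_inv (g : Amb S W) (x : V W) : act g⁻¹ (act g x) = x := by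
  rw [← act_mul, inv_mul_cancel, act_one]

theorem act_gen (a : S) (γ : M W) : act (gen a γ) = γ.1 := by
  simp [act, gen]

theorem act_mem_span {R : Set (S × W × W)} {s : Finset S} {w : Set W}
    (hw : Closed R s w) {g : Amb S W} (hg : g ∈ std R s) :
    ∀ v, v ∈ span w → act g v ∈ span w := by
  have hsh : ∀ a ∈ s, ∀ γ ∈ vals R a, ∀ v, v ∈ span w → γ.1 v ∈ span w := by
    rintro a ha γ (h | ⟨i, j, c, hR, h⟩) v hv
    · rw [h]; exact hv
    · rw [h]
      by_cases hij : i = j
      · subst hij; rw [shear_self]; exact hv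
      · rw [shear_apply hij]
        intro l hl
        have hv' := hv l hl
        by_cases hlj : l = j
        · subst hlj
          by_cases hi : i ∈ w
          · exact absurd (hw a i l hR ha hi) hl
          · simp [hv', hv i hi]
        · simp [hv', hlj]
  induction hg using Subgroup.closure_induction with
  | mem g hg =>
    obtain ⟨a, ha, γ, hγ, rfl⟩ := hg
    rw [act_gen]
    exact hsh a ha γ hγ
  | one => exact fun v hv => hv
  | mul g h _ _ ihg ihh => exact fun v hv => ihg _ (ihh v hv)
  | inv g _ ih =>
    intro v hv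
    have hsurj : Function.Surjective
        (fun u : span w => (⟨act g u.1, ih u.1 u.2⟩ : span w)) :=
      Finite.injective_iff_surjective.1 fun u u' h =>
        Subtype.ext ((act g).injective (congrArg Subtype.val h))
    obtain ⟨u, hu⟩ := hsurj ⟨v, hv⟩
    have : act g u.1 = v := congrArg Subtype.val hu
    rw [← this, act_inv]
    exact u.2

/-- The carrier. -/
abbrev C (R : Set (S × W × W)) := V W × std R (Finset.univ : Finset S)

/-- The congruence of a closed pair. -/
noncomputable def theta (R : Set (S × W × W)) (s : Finset S) (w : Set W)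
    (hw : Closed R s w) : Setoid (C R) where
  r p q := ((p.2 : Amb S W)⁻¹ * (q.2 : Amb S W)) ∈ std R s ∧
    p.1 - act ((p.2 : Amb S W)⁻¹ * (q.2 : Amb S W)) q.1 ∈ span w
  iseqv := by
    refine ⟨fun p => ?_, fun {p q} h => ?_, fun {p q r} h h' => ?_⟩
    · simp [act_one]
    · obtain ⟨h1, h2⟩ := h
      have e : (q.2 : Amb S W)⁻¹ * (p.2 : Amb S W) = ((p.2 : Amb S W)⁻¹ * (q.2 : Amb S W))⁻¹ := by group
      refine ⟨e ▸ inv_mem h1, ?_⟩
      rw [e]
      have h3 := neg_mem (act_mem_span hw (inv_mem h1) _ h2)
      rw [map_sub, act_inv, neg_sub] at h3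
      exact h3
    · obtain ⟨h1, h2⟩ := h
      obtain ⟨h1', h2'⟩ := h'
      have e : (p.2 : Amb S W)⁻¹ * (r.2 : Amb S W) =
          ((p.2 : Amb S W)⁻¹ * (q.2 : Amb S W)) * ((q.2 : Amb S W)⁻¹ * (r.2 : Amb S W)) := by group
      refine ⟨e ▸ mul_mem h1 h1', ?_⟩
      rw [e, act_mul]
      have := add_mem h2 (act_mem_span hw h1 _ h2')
      rwa [map_sub, sub_add_sub_cancel] at this

theorem theta_iff {R : Set (S × W × W)} {s : Finset S} {w : Set W} {hw : Closed R s w}
    {p q : C R} : theta R s w hw p q ↔ ((p.2 : Amb S W)⁻¹ * (q.2 : Amb S W)) ∈ std R s ∧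
      p.1 - act ((p.2 : Amb S W)⁻¹ * (q.2 : Amb S W)) q.1 ∈ span w :=
  Iff.rfl

/-- Conjugation by a coordinate flip. -/
noncomputable def conjFlip (l : W) : Amb S W →* Amb S W where
  toFun k := fun I => (flip l * (k I).1 * (flip l)⁻¹, (k I).2)
  map_one' := by funext I; simp
  map_mul' g h := by
    funext I
    refine Prod.ext ?_ rfl
    show flip l * ((g I).1 * (h I).1) * (flip l)⁻¹ =
      (flip l * (g I).1 * (flip l)⁻¹) * (flip l * (h I).1 * (flip l)⁻¹)
    group

theorem conjFlip_mem {R : Set (S × W × W)} {s : Finset S} (l : W) {k : Amb S W}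
    (hk : k ∈ std R s) : conjFlip l k ∈ std R s := by
  have h : std R s ≤ (std R s).comap (conjFlip l) := by
    refine (Subgroup.closure_le _).2 ?_
    rintro g ⟨a, ha, γ, hγ, rfl⟩
    have e : conjFlip l (gen a γ) = gen a (flip l * γ.1 * (flip l)⁻¹, γ.2) := by
      funext I
      by_cases h : a ∈ I <;> simp [conjFlip, gen, h]
    rw [SetLike.mem_coe, Subgroup.mem_comap, e]
    refine gen_mem ha ?_
    rcases hγ with h | ⟨i, j, c, hR, h⟩
    · exact Or.inl (by rw [h]; simp)
    · obtain ⟨c', hc'⟩ := flip_shear l i j c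
      exact Or.inr ⟨i, j, c', hR, by rw [h]; exact hc'⟩
  exact h hk

/-- The operations: left translations, translations, flips, two-valued collapsing maps. -/
abbrev Op (R : Set (S × W × W)) :=
  (std R (Finset.univ : Finset S)) ⊕ V W ⊕ W ⊕ {t : S × M W // t.2 ∈ vals R t.1} × V W

/-- The unary operation of an index. -/
noncomputable def opFun {R : Set (S × W × W)} : Op R → C R → C R
  | Sum.inl h, p => (p.1, h * p.2)
  | Sum.inr (Sum.inl v), p => (p.1 + act (p.2 : Amb S W)⁻¹ v, p.2)
  | Sum.inr (Sum.inr (Sum.inl l)), p => (flip l p.1, ⟨conjFlip l p.2, conjFlip_mem l p.2.2⟩)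
  | Sum.inr (Sum.inr (Sum.inr (t, x))), p =>
    if (p.2 : Amb S W) ∈ std R (Finset.univ.erase t.1.1) then (t.1.2.1 x, 1)
    else (x, ⟨gen t.1.1 t.1.2, gen_mem (Finset.mem_univ _) t.2⟩)

theorem compat_translate {w : Set W} (x y v : V W)
    (k k' : Amb S W) (h : x - act (k⁻¹ * k') y ∈ span w) :
    (x + act k⁻¹ v) - act (k⁻¹ * k') (y + act k'⁻¹ v) ∈ span w := by
  have e : act (k⁻¹ * k') (act k'⁻¹ v) = act k⁻¹ v := by
    rw [← act_mul]
    exact congrArg (fun g => act g v) (by group)
  rw [map_add, e, add_sub_add_right_eq_sub]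
  exact h

theorem compat_flip {w : Set W} (l : W) (x y : V W) (g : Amb S W)
    (h : x - act g y ∈ span w) :
    flip l x - act (conjFlip l g) (flip l y) ∈ span w := by
  have e : act (conjFlip l g) (flip l y) = flip l (act g y) := by
    show flip l ((g Finset.univ).1 ((flip l).symm (flip l y))) = flip l ((g Finset.univ).1 y)
    rw [LinearEquiv.symm_apply_apply]
  rw [e]
  intro i hi
  have hh := h i hi
  simp only [Pi.sub_apply] at hh ⊢
  rw [flip_apply, flip_apply]
  by_cases hil : i = l
  · rw [if_pos hil, if_pos hil, ← neg_sub', hh, neg_zero]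
  · rw [if_neg hil, if_neg hil, hh]

theorem theta_compat (R : Set (S × W × W)) (s : Finset S) (w : Set W) (hw : Closed R s w)
    (o : Op R) (p q : C R) (h : theta R s w hw p q) :
    theta R s w hw (opFun o p) (opFun o q) := by
  obtain ⟨h1, h2⟩ := theta_iff.1 h
  rcases o with g | v | l | ⟨t, x⟩
  · refine theta_iff.2 ?_
    simp only [opFun, Subgroup.coe_mul, mul_inv_rev]
    have e : (p.2 : Amb S W)⁻¹ * (g : Amb S W)⁻¹ * ((g : Amb S W) * (q.2 : Amb S W)) =
        (p.2 : Amb S W)⁻¹ * (q.2 : Amb S W) := by group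
    rw [e]
    exact ⟨h1, h2⟩
  · refine theta_iff.2 ?_
    simp only [opFun]
    exact ⟨h1, compat_translate p.1 q.1 v (p.2 : Amb S W) (q.2 : Amb S W) h2⟩
  · refine theta_iff.2 ?_
    simp only [opFun]
    rw [← map_inv, ← map_mul]
    exact ⟨conjFlip_mem l h1, compat_flip l p.1 q.1 _ h2⟩
  · by_cases ha : t.1.1 ∈ s
    · have hpq : theta R s w hw ((t.1.2.1 x, 1) : C R)
          (x, ⟨gen t.1.1 t.1.2, gen_mem (Finset.mem_univ _) t.2⟩) := by
        refine theta_iff.2 ⟨by simpa using gen_mem ha t.2, ?_⟩
        simp [act_gen]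
      simp only [opFun]
      split_ifs
      · exact (theta R s w hw).refl _
      · exact hpq
      · exact (theta R s w hw).symm hpq
      · exact (theta R s w hw).refl _
    · have hsub : ((p.2 : Amb S W)⁻¹ * (q.2 : Amb S W)) ∈ std R (Finset.univ.erase t.1.1) :=
        std_mono (fun (b : S) hb => Finset.mem_erase.2
          ⟨fun (e : b = t.1.1) => ha (e ▸ hb : t.1.1 ∈ s), Finset.mem_univ b⟩) h1
      have hiff : (p.2 : Amb S W) ∈ std R (Finset.univ.erase t.1.1) ↔
          (q.2 : Amb S W) ∈ std R (Finset.univ.erase t.1.1) := by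
        constructor
        · intro hp
          have := mul_mem hp hsub
          rwa [mul_inv_cancel_left] at this
        · intro hq
          have := mul_mem hq (inv_mem hsub)
          rwa [mul_inv_rev, inv_inv, mul_inv_cancel_left] at this
      simp only [opFun, hiff]
      exact (theta R s w hw).refl _

/-- Every invariant equivalence is some `theta`. -/
theorem exists_theta (R : Set (S × W × W)) (θ : Setoid (C R))
    (hθ : ∀ o p q, θ p q → θ (opFun o p) (opFun o q)) :
    ∃ (s : Finset S) (w : Set W) (hw : Closed R s w), theta R s w hw = θ := by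
  let s : Finset S := Finset.univ.filter fun a => ∃ p q : C R, θ p q ∧
    ((p.2 : Amb S W)⁻¹ * q.2) ∉ std R (Finset.univ.erase a)
  let z : C R := (0, 1)
  let w : Set W := {i | θ (Pi.single i 1, 1) z}
  -- moving along the indices of `s`
  have hgen : ∀ a ∈ s, ∀ γ (hγ : γ ∈ vals R a) (x : V W),
      θ (γ.1 x, 1) (x, ⟨gen a γ, gen_mem (Finset.mem_univ _) hγ⟩) := by
    intro a ha γ hγ x
    obtain ⟨p, q, hpq, hnot⟩ := (Finset.mem_filter.1 ha).2
    have h1 := hθ (Sum.inl p.2⁻¹) p q hpq
    have h2 := hθ (Sum.inr (Sum.inr (Sum.inr (⟨(a, γ), hγ⟩, x)))) _ _ h1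
    simp only [opFun, inv_mul_cancel, OneMemClass.coe_one, one_mem, if_true,
      Subgroup.coe_mul, Subgroup.coe_inv, hnot, if_false] at h2
    exact h2
  have hF : ∀ g : Amb S W, g ∈ std R s → ∀ hg : g ∈ std R Finset.univ, ∀ x : V W,
      θ (act g x, 1) (x, ⟨g, hg⟩) := by
    intro g hg
    induction hg using Subgroup.closure_induction with
    | mem g hg =>
      obtain ⟨a, ha, γ, hγ, rfl⟩ := hg
      intro _ x
      rw [act_gen]
      exact hgen a ha γ hγ x
    | one => intro _ x; exact θ.refl _
    | mul g h hgm hhm ihg ihh =>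
      intro hgh x
      have hgu := std_mono (Finset.subset_univ s) hgm
      have hhu := std_mono (Finset.subset_univ s) hhm
      have h1 := ihg hgu (act h x)
      have h2 := hθ (Sum.inl ⟨g, hgu⟩) _ _ (ihh hhu x)
      simp only [opFun, mul_one] at h2
      exact θ.trans h1 h2
    | inv g hgm ih =>
      intro hgi x
      have hgu := std_mono (Finset.subset_univ s) hgm
      have h1 := hθ (Sum.inl ⟨g⁻¹, hgi⟩) _ _ (ih hgu (act g⁻¹ x))
      have e1 : act g (act g⁻¹ x) = x := by rw [← act_mul, mul_inv_cancel, act_one]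
      simp only [opFun, mul_one, e1] at h1
      have e2 : (⟨g⁻¹, hgi⟩ : std R (Finset.univ : Finset S)) * ⟨g, hgu⟩ = 1 := by
        ext1; simp
      rw [e2] at h1
      exact θ.symm h1
  -- the fibre over `1`
  have hN : ∀ x y : V W, θ (x, 1) (y, 1) → θ (x - y, 1) z := by
    intro x y h
    have := hθ (Sum.inr (Sum.inl (-y))) _ _ h
    simpa [opFun, act_one, ← sub_eq_add_neg] using this
  have hN' : ∀ x y : V W, θ (x - y, 1) z → θ (x, 1) (y, 1) := by
    intro x y h
    have := hθ (Sum.inr (Sum.inl y)) _ _ h
    simpa [opFun, act_one, z] using this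
  have hNadd : ∀ x y : V W, θ (x, 1) z → θ (y, 1) z → θ (x + y, 1) z := by
    intro x y hx hy
    have := hθ (Sum.inr (Sum.inl y)) _ _ hx
    simp only [opFun, z, OneMemClass.coe_one, inv_one, act_one, zero_add] at this
    exact θ.trans this hy
  have hflip : ∀ (l : W) (x : V W), θ (x, 1) z → θ (flip l x, 1) z := by
    intro l x hx
    have := hθ (Sum.inr (Sum.inr (Sum.inl l))) _ _ hx
    simp only [opFun, z, OneMemClass.coe_one, map_one, map_zero] at this
    exact this
  have hNneg : ∀ x : V W, θ (x, 1) z → θ (-x, 1) z := by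
    intro x hx
    have h3 := hNadd x x hx hx
    have e : x + x = -x := by
      funext k
      exact (by decide : ∀ c : ZMod 3, c + c = -c) _
    rwa [e] at h3
  have hcomp : ∀ (l : W) (x : V W), θ (x, 1) z → θ (Pi.single l (x l), 1) z := by
    intro l x hx
    have h3 := hNadd (flip l x) (-x) (hflip l x hx) (hNneg x hx)
    have e : flip l x + -x = Pi.single l (x l) := by
      funext k
      by_cases hk : k = l
      · subst hk
        simp [flip_apply]
        exact (by decide : ∀ c : ZMod 3, -c + -c = c) _
      · simp [flip_apply, hk]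
    rwa [e] at h3
  have hz : θ ((0 : V W), 1) z := θ.refl _
  have hmul : ∀ (l : W) (c d : ZMod 3), θ (Pi.single l d, 1) z → θ (Pi.single l (c * d), 1) z := by
    intro l c d h
    rcases (by decide : ∀ c : ZMod 3, c = 0 ∨ c = 1 ∨ c = -1) c with rfl | rfl | rfl
    · simpa using hz
    · simpa using h
    · simpa [Pi.single_neg] using hNneg _ h
  have hspan : ∀ x : V W, x ∈ span w ↔ θ (x, 1) z := by
    intro x
    constructor
    · intro hx
      have key : ∀ D : Finset W, θ (∑ l ∈ D, Pi.single l (x l), 1) z := by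
        intro D
        induction D using Finset.induction_on with
        | empty => simpa using hz
        | @insert l D hl ih =>
          rw [Finset.sum_insert hl]
          refine hNadd _ _ ?_ ih
          by_cases hlw : l ∈ w
          · simpa using hmul l (x l) 1 hlw
          · simpa [hx l hlw] using hz
      simpa [Finset.univ_sum_single x] using key Finset.univ
    · intro hx l hl
      by_contra h0
      apply hl
      have h := hmul l (x l) (x l) (hcomp l x hx)
      rwa [(by decide : ∀ c : ZMod 3, c ≠ 0 → c * c = 1) _ h0] at h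
  have hclosed : Closed R (s : Set S) w := by
    intro a i j hR ha hi
    by_cases hij : i = j
    · exact hij ▸ hi
    · let γ : M W := (shear i j 1, 1)
      have hγ : γ ∈ vals R a := Or.inr ⟨i, j, 1, hR, rfl⟩
      have hg : gen a γ ∈ std R (Finset.univ : Finset S) := gen_mem (Finset.mem_univ _) hγ
      have hgs : gen a γ ∈ std R s := gen_mem (Finset.mem_coe.1 ha) hγ
      have h1 := hθ (Sum.inl ⟨_, hg⟩) _ _ hi
      simp only [opFun, z, mul_one] at h1
      have h2 := hF _ hgs hg (Pi.single i 1)
      have h3 := hF _ hgs hg 0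
      rw [map_zero] at h3
      have h4 : θ (act (gen a γ) (Pi.single i 1), 1) z := θ.trans h2 (θ.trans h1 (θ.symm h3))
      rw [act_gen] at h4
      have h5 := hcomp j _ h4
      have e : γ.1 (Pi.single i 1 : V W) j = 1 := by
        simp [γ, shear_apply hij, Ne.symm hij]
      rwa [e] at h5
  refine ⟨s, w, hclosed, Setoid.ext fun p q => ?_⟩
  have hmove : ∀ (g : std R (Finset.univ : Finset S)), (g : Amb S W) ∈ std R s → ∀ x y : V W,
      (θ (x, 1) (y, g) ↔ x - act (g : Amb S W) y ∈ span w) := by
    intro g hg x y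
    rw [hspan]
    have h := hF _ hg g.2 y
    exact ⟨fun h' => hN _ _ (θ.trans h' (θ.symm h)), fun h' => θ.trans (hN' _ _ h') h⟩
  constructor
  · intro h0
    obtain ⟨h1, h2⟩ := theta_iff.1 h0
    have h3 := (hmove (p.2⁻¹ * q.2) (by simpa using h1) p.1 q.1).2 (by simpa using h2)
    have h4 := hθ (Sum.inl p.2) _ _ h3
    simpa [opFun] using h4
  · intro h
    have h1 : ((p.2 : Amb S W)⁻¹ * q.2) ∈ std R s := by
      refine mem_std_of_forall s (mul_mem (inv_mem p.2.2) q.2.2) fun a ha => ?_
      by_contra hc
      exact ha (Finset.mem_filter.2 ⟨Finset.mem_univ _, p, q, h, hc⟩)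
    refine theta_iff.2 ⟨h1, ?_⟩
    have h4 := hθ (Sum.inl p.2⁻¹) _ _ h
    simp only [opFun, inv_mul_cancel] at h4
    simpa using (hmove (p.2⁻¹ * q.2) (by simpa using h1) p.1 q.1).1 h4

theorem theta_le_iff (R : Set (S × W × W)) {s t : Finset S} {w u : Set W}
    (hw : Closed R s w) (hu : Closed R t u) :
    theta R s w hw ≤ theta R t u hu ↔ s ⊆ t ∧ w ⊆ u := by
  constructor
  · intro h
    constructor
    · intro a ha
      let γ : M W := (1, Multiplicative.ofAdd (1 : ZMod 3))
      have hγ : γ ∈ vals R a := Or.inl rfl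
      have hp : theta R s w hw ((0, 1) : C R) (0, ⟨gen a γ, gen_mem (Finset.mem_univ _) hγ⟩) := by
        exact theta_iff.2 ⟨by simpa using gen_mem ha hγ, by simp⟩
      have h1 : gen a γ ∈ std R t := by simpa using (theta_iff.1 (h hp)).1
      by_contra hat
      have h2 := congrFun (retr_eq h1) {a}
      simp [retr, gen, hat, γ, Finset.singleton_inter_of_notMem] at h2
      exact (by decide : (1 : ZMod 3) ≠ 0) (Multiplicative.ofAdd.injective ((Prod.ext_iff.1 h2).2).symm)
    · intro i hi
      have hp : theta R s w hw ((Pi.single i 1, 1) : C R) (0, 1) := by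
        refine theta_iff.2 ⟨by simp, ?_⟩
        intro l hl
        have : l ≠ i := fun e => hl (e ▸ hi)
        simp [this]
      have h1 := (theta_iff.1 (h hp)).2
      simp only [inv_one, mul_one, OneMemClass.coe_one, map_zero, sub_zero] at h1
      by_contra hiu
      simpa using h1 i hiu
  · rintro ⟨hst, hwu⟩ p q h0
    obtain ⟨h1, h2⟩ := theta_iff.1 h0
    exact theta_iff.2 ⟨std_mono hst h1, fun i hi => h2 i fun h => hi (hwu h)⟩

/-- The closed pairs form the whole congruence lattice of a finite algebra. -/
theorem isConLattice_pairs (R : Set (S × W × W)) :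
    IsConLattice (fun P Q : {P : Finset S × Set W // Closed R P.1 P.2} =>
      P.1.1 ⊆ Q.1.1 ∧ P.1.2 ⊆ Q.1.2) := by
  let op : ∀ _ : Op R, (Fin 1 → C R) → C R := fun o u => opFun o (u 0)
  let f : {P : Finset S × Set W // Closed R P.1 P.2} →
      {θ : Setoid (C R) // ∀ o a b, (∀ l, θ (a l) (b l)) → θ (op o a) (op o b)} :=
    fun P => ⟨theta R P.1.1 P.1.2 P.2, fun o a b h => theta_compat R _ _ P.2 o _ _ (h 0)⟩
  have hle : ∀ P Q, ((P.1.1 ⊆ Q.1.1 ∧ P.1.2 ⊆ Q.1.2) ↔ (f P).1 ≤ (f Q).1) := fun P Q =>
    (theta_le_iff R P.2 Q.2).symm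
  have hf : Function.Bijective f := by
    refine ⟨fun P Q h => ?_, fun θ => ?_⟩
    · have e : (f P).1 = (f Q).1 := congrArg Subtype.val h
      have h1 := (hle P Q).2 e.le
      have h2 := (hle Q P).2 e.ge
      exact Subtype.ext (Prod.ext (subset_antisymm h1.1 h2.1) (subset_antisymm h1.2 h2.2))
    · obtain ⟨s, w, hw, h⟩ := exists_theta R θ.1 fun o p q h =>
        θ.2 o (fun _ => p) (fun _ => q) (fun _ => h)
      exact ⟨⟨(s, w), hw⟩, Subtype.ext h⟩
  have : Finite (LAut W) :=
    Finite.of_injective (fun e : LAut W => (e : V W → V W)) DFunLike.coe_injective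
  have : Nonempty (C R) := ⟨(0, 1)⟩
  exact IsConLattice.of_ops (fun _ => 1) op (Equiv.ofBijective f hf) fun P Q => hle P Q

end Vale.Agent.P183.Catalyst
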