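import Vale.Agent.P183.Catalyst

/-!
# Closure systems with join-prime catalysts are representable

`U` holds the one-premise rules and `B` the two-premise rules, where the first premise of a
two-premise rule is join-prime: some closed set avoiding it contains all others avoiding it.
The closed sets are cut out of the lattice of `Catalyst.isConLattice_pairs`: two constants give
the one-premise consequences (a principal filter), and every join-prime item gets an index tied
to it by one filter-ideal step.
-/

namespace Vale.Agent.P183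

open scoped Classical

/-- A principal filter of a congruence lattice is a congruence lattice: pass to the quotient. -/
theorem principal_filter {ι : Type*} {R : ι → ι → Prop} (h : IsConLattice R) (x : ι) :
    IsConLattice (fun i j : {e : ι // R x e} => R i.1 j.1) := by
  obtain ⟨A, _, _, m, ar, op, e, he⟩ := h
  let α : Setoid A := (e x).1
  let op' : ∀ k, (Fin (ar k) → Quotient α) → Quotient α := fun k u =>
    Quotient.mk α (op k fun l => (u l).out)
  have hout : ∀ a : A, α (Quotient.mk α a).out a := fun a => Quotient.mk_out a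
  have down : ∀ i : {e : ι // R x e}, ∀ k a b, (∀ l, (e i.1).1 ((a l : Quotient α).out) (b l).out) →
      (e i.1).1 ((op' k a).out) ((op' k b).out) := by
    intro i k a b hab
    have hle : α ≤ (e i.1).1 := (he _ _).1 i.2
    exact (e i.1).1.trans (hle (hout _))
      ((e i.1).1.trans ((e i.1).2 k _ _ hab) ((e i.1).1.symm (hle (hout _))))
  let f : {e : ι // R x e} →
      {θ : Setoid (Quotient α) // ∀ k a b, (∀ l, θ (a l) (b l)) → θ (op' k a) (op' k b)} :=
    fun i => ⟨Setoid.comap Quotient.out (e i.1).1, down i⟩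
  have hle : ∀ i j, R i.1 j.1 ↔ (f i).1 ≤ (f j).1 := by
    intro i j
    rw [he]
    constructor
    · intro h p q hpq
      exact h hpq
    · intro h a b hab
      have hi : α ≤ (e i.1).1 := (he _ _).1 i.2
      have hj : α ≤ (e j.1).1 := (he _ _).1 j.2
      have h1 : (f i).1 (Quotient.mk α a) (Quotient.mk α b) :=
        (e i.1).1.trans (hi (hout a)) ((e i.1).1.trans hab ((e i.1).1.symm (hi (hout b))))
      exact (e j.1).1.trans ((e j.1).1.symm (hj (hout a)))
        ((e j.1).1.trans (h h1) (hj (hout b)))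
  have hbij : Function.Bijective f := by
    constructor
    · intro i j hij
      have h1 := (he _ _).1 ((hle i j).2 (congrArg Subtype.val hij).le)
      have h2 := (he _ _).1 ((hle j i).2 (congrArg Subtype.val hij).ge)
      exact Subtype.ext (e.injective (Subtype.ext (le_antisymm h1 h2)))
    · intro θ
      let β : Setoid A := Setoid.comap (Quotient.mk α) θ.1
      have hβ : ∀ k a b, (∀ l, β (a l) (b l)) → β (op k a) (op k b) := by
        intro k a b hab
        have e1 : ∀ c : Fin (ar k) → A,
            op' k (fun l => Quotient.mk α (c l)) = Quotient.mk α (op k c) := fun c =>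
          Quotient.sound ((e x).2 k _ _ fun l => hout (c l))
        show θ.1 (Quotient.mk α (op k a)) (Quotient.mk α (op k b))
        rw [← e1, ← e1]
        exact θ.2 k _ _ hab
      have hx : α ≤ β := by
        intro a b hab
        show θ.1 (Quotient.mk α a) (Quotient.mk α b)
        rw [show Quotient.mk α a = Quotient.mk α b from Quotient.sound hab]
      refine ⟨⟨e.symm ⟨β, hβ⟩, (he _ _).2 ?_⟩, Subtype.ext ?_⟩
      · rw [Equiv.apply_symm_apply]
        exact hx
      · simp only [f, Equiv.apply_symm_apply]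
        refine Setoid.ext fun p q => ?_
        show θ.1 (Quotient.mk α p.out) (Quotient.mk α q.out) ↔ θ.1 p q
        rw [Quotient.out_eq, Quotient.out_eq]
  exact ⟨Quotient α, Nonempty.map (Quotient.mk α) inferInstance, inferInstance, m, ar, op',
    Equiv.ofBijective f hbij, hle⟩

namespace Catalyst

variable {X : Type} (U : Set (X × X)) (B : Set (X × X × X))

/-- The closed sets of the rules. -/
def IsClosedSet (C : Set X) : Prop :=
  (∀ p q, (p, q) ∈ U → p ∈ C → q ∈ C) ∧ ∀ p q r, (p, q, r) ∈ B → p ∈ C → q ∈ C → r ∈ C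

/-- Some closed set avoiding `p` contains every closed set avoiding `p`. -/
def IsPrimeItem (p : X) : Prop :=
  ∃ C, IsClosedSet U B C ∧ p ∉ C ∧ ∀ C', IsClosedSet U B C' → p ∉ C' → C' ⊆ C

/-- The join-prime items, used as indices. -/
abbrev PrimeItem := {x : X // IsPrimeItem U B x}

/-- The rules on pairs. -/
inductive Rule : Option (PrimeItem U B) × Option X × Option X → Prop
  | twin (b : PrimeItem U B) : Rule (some b, none, some b.1)
  | unary {p q : X} : (∀ C, IsClosedSet U B C → p ∈ C → q ∈ C) → Rule (none, some p, some q)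
  | binary {p q r : X} (hp : IsPrimeItem U B p) : (p, q, r) ∈ B →
      Rule (some ⟨p, hp⟩, some q, some r)

/-- The rule set. -/
def rules : Set (Option (PrimeItem U B) × Option X × Option X) := {t | Rule U B t}

/-- All pairs containing both constants in which the items of `D` bring their indices. -/
def Good (D : Finset (PrimeItem U B)) (P : Finset (Option (PrimeItem U B)) × Set (Option X)) :
    Prop :=
  Closed (rules U B) P.1 P.2 ∧ none ∈ P.1 ∧ none ∈ P.2 ∧
    ∀ b ∈ D, some b.1 ∈ P.2 → some b ∈ P.1

/-- The family of good pairs. -/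
abbrev GoodPairs (D : Finset (PrimeItem U B)) :=
  {P : Finset (Option (PrimeItem U B)) × Set (Option X) // Good U B D P}

/-- Inclusion of pairs. -/
def PLe (D : Finset (PrimeItem U B)) (P Q : GoodPairs U B D) : Prop :=
  P.1.1 ⊆ Q.1.1 ∧ P.1.2 ⊆ Q.1.2

variable [Fintype X]

theorem good_empty : IsConLattice (PLe U B ∅) := by
  have h := isConLattice_pairs (rules U B)
  let m : {P : Finset (Option (PrimeItem U B)) × Set (Option X) //
      Closed (rules U B) P.1 P.2} :=
    ⟨({none}, {i | ∀ w : Set (Option X),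
      (∀ i j, (none, i, j) ∈ rules U B → i ∈ w → j ∈ w) → none ∈ w → i ∈ w}),
      fun a i j hr ha hi w hw h0 => hw i j
        ((show a = none by simpa using ha) ▸ hr) (hi w hw h0)⟩
  let f : GoodPairs U B ∅ ≃ {P : {P : Finset (Option (PrimeItem U B)) × Set (Option X) //
      Closed (rules U B) P.1 P.2} // m.1.1 ⊆ P.1.1 ∧ m.1.2 ⊆ P.1.2} :=
    { toFun := fun P => ⟨⟨P.1, P.2.1⟩, Finset.singleton_subset_iff.2 P.2.2.1, fun i hi =>
        hi P.1.2 (fun i j hr => P.2.1 none i j hr (Finset.mem_coe.2 P.2.2.1)) P.2.2.2.1⟩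
      invFun := fun P => ⟨P.1.1, P.1.2, Finset.singleton_subset_iff.1 P.2.1,
        P.2.2 (fun w _ h0 => h0), by simp⟩
      left_inv := fun P => rfl
      right_inv := fun P => rfl }
  exact (principal_filter h m).congr f fun P Q => Iff.rfl

theorem good_insert {D : Finset (PrimeItem U B)} {b : PrimeItem U B}
    (h : IsConLattice (PLe U B D)) : IsConLattice (PLe U B (insert b D)) := by
  obtain ⟨Cb, hCb, hbC, hmax⟩ := b.2
  -- the top pair avoiding `b`
  let c : GoodPairs U B D := ⟨(Finset.univ.filter fun a => ∀ d, a = some d → d.1 ∈ Cb,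
      {i | ∀ x, i = some x → x ∈ Cb}), by
    refine ⟨?_, by simp, by simp, fun d _ hd => ?_⟩
    · intro a i j hr ha hi
      cases hr with
      | twin d =>
        intro x hx
        exact Option.some.inj hx ▸ (Finset.mem_filter.1 (Finset.mem_coe.1 ha)).2 d rfl
      | @unary p q hU =>
        intro x hx
        exact Option.some.inj hx ▸ hU Cb hCb (hi p rfl)
      | @binary p q r hp hB =>
        intro x hx
        exact Option.some.inj hx ▸ hCb.2 p q r hB
          ((Finset.mem_filter.1 (Finset.mem_coe.1 ha)).2 ⟨p, hp⟩ rfl) (hi q rfl)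
    · exact Finset.mem_filter.2 ⟨Finset.mem_univ _, fun e he =>
        Option.some.inj he ▸ hd d.1 rfl⟩⟩
  -- the least pair containing the index of `b`
  let P₀ : Finset (Option (PrimeItem U B)) × Set (Option X) :=
    (Finset.univ.filter fun a => ∀ P : GoodPairs U B D, some b ∈ P.1.1 → a ∈ P.1.1,
      {i | ∀ P : GoodPairs U B D, some b ∈ P.1.1 → i ∈ P.1.2})
  have mem₀ : ∀ a, a ∈ P₀.1 ↔ ∀ P : GoodPairs U B D, some b ∈ P.1.1 → a ∈ P.1.1 := by
    simp [P₀]
  let j : GoodPairs U B D := ⟨P₀, fun a i k hr ha hi P hP =>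
      P.2.1 a i k hr (Finset.mem_coe.2 ((mem₀ a).1 (Finset.mem_coe.1 ha) P hP)) (hi P hP),
    (mem₀ _).2 fun P _ => P.2.2.1, fun P _ => P.2.2.2.1,
    fun d hd hi => (mem₀ _).2 fun P hP => P.2.2.2.2 d hd (hi P hP)⟩
  let f : GoodPairs U B (insert b D) ≃
      {P : GoodPairs U B D // PLe U B D j P ∨ PLe U B D P c} :=
    { toFun := fun P => ⟨⟨P.1, P.2.1, P.2.2.1, P.2.2.2.1,
          fun d hd => P.2.2.2.2 d (Finset.mem_insert_of_mem hd)⟩, by
        let P' : GoodPairs U B D := ⟨P.1, P.2.1, P.2.2.1, P.2.2.2.1,
          fun d hd => P.2.2.2.2 d (Finset.mem_insert_of_mem hd)⟩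
        by_cases hbs : some b ∈ P.1.1
        · left
          exact ⟨fun a ha => (mem₀ a).1 ha P' hbs, fun i hi => hi P' hbs⟩
        · right
          have hin : ∀ x, some x ∈ P.1.2 → x ∈ Cb := by
            intro x hx
            by_contra hxC
            apply hbs
            apply P.2.2.2.2 b (Finset.mem_insert_self _ _)
            refine P.2.1 none (some x) (some b.1) (Rule.unary fun C hC hxc => ?_)
              (Finset.mem_coe.2 P.2.2.1) hx
            by_contra hbc
            exact hxC (hmax C hC hbc hxc)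
          refine ⟨fun a ha => Finset.mem_filter.2 ⟨Finset.mem_univ _, fun d hd => ?_⟩,
            fun i hi x hx => hin x (hx ▸ hi)⟩
          exact hin d.1 (P.2.1 _ _ _ (Rule.twin d) (Finset.mem_coe.2 (hd ▸ ha)) P.2.2.2.1)⟩
      invFun := fun P => ⟨P.1.1, P.1.2.1, P.1.2.2.1, P.1.2.2.2.1, by
        intro d hd hi
        rcases Finset.mem_insert.1 hd with rfl | hd
        · rcases P.2 with h1 | h1
          · exact h1.1 ((mem₀ _).2 fun _ hP => hP)
          · exact absurd (h1.2 hi _ rfl) hbC
        · exact P.1.2.2.2.2 d hd hi⟩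
      left_inv := fun P => rfl
      right_inv := fun P => rfl }
  exact (filter_ideal h j c).congr f fun P Q => Iff.rfl

theorem isConLattice_closedSets (hB : ∀ t ∈ B, IsPrimeItem U B t.1) :
    IsConLattice (fun P Q : {C : Set X // IsClosedSet U B C} => P.1 ⊆ Q.1) := by
  have hall : ∀ D : Finset (PrimeItem U B), IsConLattice (PLe U B D) := fun D => by
    induction D using Finset.induction_on with
    | empty => exact good_empty U B
    | @insert b D _ ih => exact good_insert U B ih
  have key : ∀ (P : GoodPairs U B Finset.univ) (b : PrimeItem U B),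
      some b ∈ P.1.1 ↔ some b.1 ∈ P.1.2 := fun P b =>
    ⟨fun h => P.2.1 _ _ _ (Rule.twin b) (Finset.mem_coe.2 h) P.2.2.2.1,
      P.2.2.2.2 b (Finset.mem_univ b)⟩
  let back : GoodPairs U B Finset.univ → {C : Set X // IsClosedSet U B C} := fun P =>
    ⟨{x | some x ∈ P.1.2}, fun p q h hp => P.2.1 _ _ _
      (Rule.unary fun C hC => hC.1 p q h) (Finset.mem_coe.2 P.2.2.1) hp,
      fun p q r h hp hq => P.2.1 _ _ _ (Rule.binary (hB _ h) h)
        (Finset.mem_coe.2 ((key P _).2 hp)) hq⟩
  let forth : {C : Set X // IsClosedSet U B C} → GoodPairs U B Finset.univ := fun C =>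
    ⟨(Finset.univ.filter fun a => ∀ b, a = some b → b.1 ∈ C.1,
      {i | ∀ x, i = some x → x ∈ C.1}), by
      refine ⟨?_, by simp, by simp, fun b _ hb => ?_⟩
      · intro a i j hr ha hi
        cases hr with
        | twin b =>
          intro x hx
          exact Option.some.inj hx ▸ (Finset.mem_filter.1 (Finset.mem_coe.1 ha)).2 b rfl
        | @unary p q hU =>
          intro x hx
          exact Option.some.inj hx ▸ hU C.1 C.2 (hi p rfl)
        | @binary p q r hp hBm =>
          intro x hx
          exact Option.some.inj hx ▸ C.2.2 p q r hBm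
            ((Finset.mem_filter.1 (Finset.mem_coe.1 ha)).2 ⟨p, hp⟩ rfl) (hi q rfl)
      · exact Finset.mem_filter.2 ⟨Finset.mem_univ _, fun e he =>
          Option.some.inj he ▸ hb b.1 rfl⟩⟩
  have hsub : ∀ P Q : GoodPairs U B Finset.univ,
      ((back P).1 ⊆ (back Q).1 ↔ PLe U B Finset.univ P Q) := by
    intro P Q
    refine ⟨fun h => ?_, fun h x hx => h.2 hx⟩
    have h2 : P.1.2 ⊆ Q.1.2 := by
      intro i hi
      cases i with
      | none => exact Q.2.2.2.1
      | some x => exact h hi
    refine ⟨fun a ha => ?_, h2⟩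
    cases a with
    | none => exact Q.2.2.1
    | some b => exact (key Q b).2 (h2 ((key P b).1 ha))
  have hmain : Function.Bijective back := by
    constructor
    · intro P Q h
      have e : (back P).1 = (back Q).1 := congrArg Subtype.val h
      have h1 := (hsub P Q).1 e.le
      have h2 := (hsub Q P).1 e.ge
      exact Subtype.ext (Prod.ext (subset_antisymm h1.1 h2.1) (subset_antisymm h1.2 h2.2))
    · intro C
      refine ⟨forth C, Subtype.ext (Set.ext fun x => ?_)⟩
      exact ⟨fun h => h x rfl, fun h y hy => Option.some.inj hy ▸ h⟩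
  refine (hall Finset.univ).congr (Equiv.ofBijective back hmain).symm fun C C' => ?_
  obtain ⟨P, rfl⟩ := hmain.2 C
  obtain ⟨Q, rfl⟩ := hmain.2 C'
  rw [show (Equiv.ofBijective back hmain).symm (back P) = P from
      (Equiv.ofBijective back hmain).symm_apply_apply P,
    show (Equiv.ofBijective back hmain).symm (back Q) = Q from
      (Equiv.ofBijective back hmain).symm_apply_apply Q]
  exact hsub P Q

end Catalyst

/-- A lattice in which every join cover `k ≤ ⊔ A` of a join-irreducible `k` refines to one by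
join-irreducibles with at most one member that is not join-prime is representable. -/
theorem isConLattice_of_covers (L : Type) [Lattice L] [OrderBot L] [Fintype L]
    (hP : ∀ k : L, SupIrred k → ∀ A : Finset L, k ≤ A.sup id → ∃ B : Finset L,
      (∀ b ∈ B, SupIrred b ∧ ∃ a ∈ A, b ≤ a) ∧ k ≤ B.sup id ∧
      ∀ b ∈ B, ∀ b' ∈ B, ¬SupPrime b → ¬SupPrime b' → b = b') :
    IsConLattice (fun a b : L => a ≤ b) := by
  classical
  -- items: a set of join-primes together with one join-irreducible
  let val : Finset {j : L // SupPrime j} × {j : L // SupIrred j} → L := fun z =>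
    z.1.sup (fun t => t.1) ⊔ z.2.1
  let U : Set ((Finset {j : L // SupPrime j} × {j : L // SupIrred j}) ×
      (Finset {j : L // SupPrime j} × {j : L // SupIrred j})) :=
    {r | r.2.1 = ∅ ∧ r.2.2.1 ≤ val r.1}
  let B : Set ((Finset {j : L // SupPrime j} × {j : L // SupIrred j}) ×
      (Finset {j : L // SupPrime j} × {j : L // SupIrred j}) ×
      (Finset {j : L // SupPrime j} × {j : L // SupIrred j})) :=
    {r | r.1.1 = ∅ ∧ ∃ h : SupPrime r.1.2.1,
      r.2.2 = (insert ⟨r.1.2.1, h⟩ r.2.1.1, r.2.1.2)}
  have val_empty : ∀ z, z.1 = ∅ → val z = z.2.1 := by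
    intro z h
    simp [val, h]
  have val_insert : ∀ p : {j : L // SupPrime j}, ∀ z, val (insert p z.1, z.2) = p.1 ⊔ val z := by
    intro p z
    simp [val, Finset.sup_insert, sup_assoc]
  have hB : ∀ t ∈ B, Catalyst.IsPrimeItem U B t.1 := by
    rintro ⟨p, q, r⟩ ⟨hpe, hp, -⟩
    have hv : val p = p.2.1 := val_empty p hpe
    refine ⟨{z | ¬p.2.1 ≤ val z}, ⟨fun u v h hu hle => ?_, fun u v w h hu hv' hle => ?_⟩,
      fun h => h hv.ge, fun C' hC' hn z hz hle => ?_⟩
    · rw [val_empty v h.1] at hle
      exact hu (le_trans hle h.2)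
    · obtain ⟨hue, hu', hw⟩ := h
      dsimp only at hw
      rw [hw, val_insert ⟨u.2.1, hu'⟩ v] at hle
      rcases hp.2 hle with h1 | h1
      · exact hu (by rw [val_empty u hue]; exact h1)
      · exact hv' h1
    · exact hn (hC'.1 z p ⟨hpe, hle⟩ hz)
  let f : L → {C // Catalyst.IsClosedSet U B C} := fun x =>
    ⟨{z | val z ≤ x}, fun p q h hp => le_trans (le_of_eq_of_le (val_empty q h.1) h.2) hp,
      fun p q r h hp hq => by
        obtain ⟨hpe, hp', hr⟩ := h
        dsimp only at hr
        show val r ≤ x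
        rw [hr, val_insert ⟨p.2.1, hp'⟩ q]
        exact sup_le ((val_empty p hpe).ge.trans hp) hq⟩
  have hle : ∀ x y, x ≤ y ↔ (f x).1 ⊆ (f y).1 := by
    intro x y
    refine ⟨fun h j hj => le_trans hj h, fun h => ?_⟩
    obtain ⟨T, hT, hirr⟩ := exists_supIrred_decomposition x
    rw [← hT]
    refine Finset.sup_le fun j hj => ?_
    have hjx : val (∅, ⟨j, hirr hj⟩) ≤ x := by
      rw [val_empty _ rfl, ← hT]
      exact Finset.le_sup (f := id) hj
    exact (val_empty (∅, ⟨j, hirr hj⟩) rfl).ge.trans (h hjx)
  have hf : Function.Bijective f := by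
    constructor
    · intro x y h
      have e : (f x).1 = (f y).1 := congrArg Subtype.val h
      exact le_antisymm ((hle x y).2 e.le) ((hle y x).2 e.ge)
    · intro C
      let F : Finset L := Finset.univ.filter fun j => ∃ h : SupIrred j, (∅, ⟨j, h⟩) ∈ C.1
      have hmem : ∀ j, j ∈ F ↔ ∃ h : SupIrred j, (∅, ⟨j, h⟩) ∈ C.1 := by simp [F]
      have hdown : ∀ j ∈ F, ∀ k, SupIrred k → k ≤ j → k ∈ F := by
        intro j hj k hk hkj
        obtain ⟨hji, hjC⟩ := (hmem j).1 hj
        exact (hmem k).2 ⟨hk, C.2.1 _ _ ⟨rfl, hkj.trans (val_empty (∅, ⟨j, hji⟩) rfl).ge⟩ hjC⟩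
      -- a pair is in `C` as soon as its members are
      have hbuild : ∀ (T : Finset {j : L // SupPrime j}) (q : {j : L // SupIrred j}),
          q.1 ∈ F → (∀ t ∈ T, t.1 ∈ F) → (T, q) ∈ C.1 := by
        intro T q hq
        induction T using Finset.induction_on with
        | empty => exact fun _ => ((hmem q.1).1 hq).2
        | @insert p T _ ih =>
          intro hT
          obtain ⟨hpi, hpC⟩ := (hmem p.1).1 (hT p (Finset.mem_insert_self _ _))
          exact C.2.2 (∅, ⟨p.1, hpi⟩) (T, q) _ ⟨rfl, p.2, rfl⟩ hpC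
            (ih fun t ht => hT t (Finset.mem_insert_of_mem ht))
      have hFk : ∀ k, SupIrred k → k ≤ F.sup id → k ∈ F := by
        intro k hk hkF
        obtain ⟨S, hS, hkS, hone⟩ := hP k hk F hkF
        have hSF : ∀ b ∈ S, b ∈ F := fun b hb => by
          obtain ⟨hbi, a, ha, hba⟩ := hS b hb
          exact hdown a ha b hbi hba
        have hne : S.Nonempty := by
          rcases S.eq_empty_or_nonempty with rfl | h
          · exact absurd (le_bot_iff.1 (by simpa using hkS)) hk.ne_bot
          · exact h
        obtain ⟨q, hqS, hq⟩ : ∃ q ∈ S, ∀ b ∈ S, ¬SupPrime b → b = q := by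
          by_cases h : ∃ q ∈ S, ¬SupPrime q
          · obtain ⟨q, hqS, hqn⟩ := h
            exact ⟨q, hqS, fun b hb hbn => hone b hb q hqS hbn hqn⟩
          · obtain ⟨q, hqS⟩ := hne
            exact ⟨q, hqS, fun b hb hbn => absurd ⟨b, hb, hbn⟩ h⟩
        let T : Finset {j : L // SupPrime j} := S.subtype SupPrime
        have hz : (T, (⟨q, (hS q hqS).1⟩ : {j : L // SupIrred j})) ∈ C.1 :=
          hbuild T _ (hSF q hqS) fun t ht => hSF t.1 (Finset.mem_subtype.1 ht)
        refine (hmem k).2 ⟨hk, C.2.1 _ _ ⟨rfl, ?_⟩ hz⟩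
        refine hkS.trans (Finset.sup_le fun b hb => ?_)
        by_cases hbp : SupPrime b
        · exact le_sup_of_le_left (Finset.le_sup (f := fun t : {j : L // SupPrime j} => t.1)
            (b := ⟨b, hbp⟩) (Finset.mem_subtype.2 hb))
        · exact le_sup_of_le_right (hq b hb hbp).le
      refine ⟨F.sup id, Subtype.ext (Set.ext fun z => ⟨fun h => ?_, fun h => ?_⟩)⟩
      · obtain ⟨T, q⟩ := z
        have h' : T.sup (fun t => t.1) ⊔ q.1 ≤ F.sup id := h
        exact hbuild T q (hFk q.1 q.2 (le_sup_right.trans h'))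
          fun t ht => hFk t.1 t.2.supIrred
            ((Finset.le_sup (f := fun t : {j : L // SupPrime j} => t.1) ht).trans
              (le_sup_left.trans h'))
      · show val z ≤ F.sup id
        refine sup_le (Finset.sup_le fun t ht => ?_) ?_
        · exact Finset.le_sup (f := id) ((hmem t.1).2 ⟨t.2.supIrred, C.2.1 z _
            ⟨rfl, le_sup_of_le_left (Finset.le_sup (f := fun t : {j : L // SupPrime j} => t.1)
              ht)⟩ h⟩)
        · exact Finset.le_sup (f := id) ((hmem z.2.1).2 ⟨z.2.2, C.2.1 z _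
            ⟨rfl, le_sup_right⟩ h⟩)
  exact (Catalyst.isConLattice_closedSets U B hB).congr (Equiv.ofBijective f hf) hle

end Vale.Agent.P183
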