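import Mathlib
import Vale.Agent.P183.Table

/-! The fields with 8 and 64 elements as computable rings, with their numeric codes. -/

namespace Vale.Agent.P183

set_option maxRecDepth 100000

/-- The field with eight elements: bit vectors modulo x^3 + x + 1. -/
@[ext] structure F8 where
  v : Fin 8
deriving DecidableEq

namespace F8

instance : Zero F8 := ⟨⟨0⟩⟩
instance : One F8 := ⟨⟨1⟩⟩
instance : Add F8 := ⟨fun a b => ⟨Fin.ofNat 8 (a.v.val ^^^ b.v.val)⟩⟩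
instance : Neg F8 := ⟨fun a => a⟩
instance : Mul F8 :=
  ⟨fun a b => ⟨Fin.ofNat 8 (tab8 >>> (3 * (8 * a.v.val + b.v.val)))⟩⟩

theorem add_assoc' : ∀ a b c : F8, a + b + c = a + (b + c) := by
  rintro ⟨x0⟩ ⟨x1⟩ ⟨x2⟩
  revert x0 x1 x2
  decide +kernel
theorem zero_add' : ∀ a : F8, 0 + a = a := by
  rintro ⟨x0⟩
  revert x0
  decide +kernel
theorem neg_add' : ∀ a : F8, -a + a = 0 := by
  rintro ⟨x0⟩
  revert x0
  decide +kernel
theorem mul_assoc' : ∀ a b c : F8, a * b * c = a * (b * c) := by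
  rintro ⟨x0⟩ ⟨x1⟩ ⟨x2⟩
  revert x0 x1 x2
  decide +kernel
theorem mul_comm' : ∀ a b : F8, a * b = b * a := by
  rintro ⟨x0⟩ ⟨x1⟩
  revert x0 x1
  decide +kernel
theorem one_mul' : ∀ a : F8, 1 * a = a := by
  rintro ⟨x0⟩
  revert x0
  decide +kernel
theorem left_distrib' : ∀ a b c : F8, a * (b + c) = a * b + a * c := by
  rintro ⟨x0⟩ ⟨x1⟩ ⟨x2⟩
  revert x0 x1 x2
  decide +kernel

instance : CommRing F8 :=
  CommRing.ofMinimalAxioms add_assoc' zero_add' neg_add' mul_assoc' mul_comm' one_mul'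
    left_distrib'

theorem two_eq_zero : (2 : F8) = 0 := by
  rw [← one_add_one_eq_two]; decide +kernel

end F8

/-- The field with 64 elements as F8[w] with w^2 = w + 1. -/
@[ext] structure F64 where
  re : F8
  im : F8
deriving DecidableEq

namespace F64

instance : Zero F64 := ⟨⟨0, 0⟩⟩
instance : One F64 := ⟨⟨1, 0⟩⟩
instance : Add F64 := ⟨fun a b => ⟨a.re + b.re, a.im + b.im⟩⟩
instance : Neg F64 := ⟨fun a => ⟨-a.re, -a.im⟩⟩
instance : Mul F64 :=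
  ⟨fun a b => ⟨a.re * b.re + a.im * b.im, a.re * b.im + a.im * b.re + a.im * b.im⟩⟩

theorem add_re (a b : F64) : (a + b).re = a.re + b.re := rfl
theorem add_im (a b : F64) : (a + b).im = a.im + b.im := rfl
theorem neg_re (a : F64) : (-a).re = -a.re := rfl
theorem neg_im (a : F64) : (-a).im = -a.im := rfl
theorem mul_re (a b : F64) : (a * b).re = a.re * b.re + a.im * b.im := rfl
theorem mul_im (a b : F64) :
    (a * b).im = a.re * b.im + a.im * b.re + a.im * b.im := rfl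
theorem zero_re : (0 : F64).re = 0 := rfl
theorem zero_im : (0 : F64).im = 0 := rfl
theorem one_re : (1 : F64).re = 1 := rfl
theorem one_im : (1 : F64).im = 0 := rfl

instance : CommRing F64 :=
  CommRing.ofMinimalAxioms
    (fun a b c => by ext1 <;> simp only [add_re, add_im] <;> ring)
    (fun a => by ext1 <;> simp only [add_re, add_im, zero_re, zero_im] <;> ring)
    (fun a => by ext1 <;> simp only [add_re, add_im, neg_re, neg_im, zero_re, zero_im] <;> ring)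
    (fun a b c => by ext1 <;> simp only [mul_re, mul_im] <;> ring)
    (fun a b => by ext1 <;> simp only [mul_re, mul_im] <;> ring)
    (fun a => by ext1 <;> simp only [mul_re, mul_im, one_re, one_im] <;> ring)
    (fun a b c => by ext1 <;> simp only [mul_re, mul_im, add_re, add_im] <;> ring)

theorem two_eq_zero : (2 : F64) = 0 := by
  rw [← one_add_one_eq_two]; decide +kernel

/-- Code of an element as a natural number below 64. -/
def enc (a : F64) : ℕ := a.re.v.val + 8 * a.im.v.val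

/-- Multiplication on codes. -/
def mulN (x y : ℕ) : ℕ := (tab64 >>> (6 * (64 * x + y))) % 64

theorem enc_mul : ∀ a b : F64, enc (a * b) = mulN (enc a) (enc b) := by
  rintro ⟨⟨x0⟩, ⟨y0⟩⟩ ⟨⟨x1⟩, ⟨y1⟩⟩
  revert x0 y0 x1 y1
  decide +kernel

theorem enc_add : ∀ a b : F64, enc (a + b) = enc a ^^^ enc b := by
  rintro ⟨⟨x0⟩, ⟨y0⟩⟩ ⟨⟨x1⟩, ⟨y1⟩⟩
  revert x0 y0 x1 y1
  decide +kernel

theorem enc_inj : ∀ a b : F64, enc a = enc b → a = b := by
  rintro ⟨⟨x0⟩, ⟨y0⟩⟩ ⟨⟨x1⟩, ⟨y1⟩⟩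
  revert x0 y0 x1 y1
  decide +kernel

theorem enc_lt : ∀ a : F64, enc a < 64 := by
  rintro ⟨⟨x0⟩, ⟨y0⟩⟩
  revert x0 y0
  decide +kernel

theorem exists_inv : ∀ a : F64, a ≠ 0 → ∃ b, a * b = 1 := by
  have key : ∀ x y : Fin 8, ⟨⟨x⟩, ⟨y⟩⟩ ≠ (0 : F64) → ∃ u v : Fin 8, (⟨⟨x⟩, ⟨y⟩⟩ : F64) * ⟨⟨u⟩, ⟨v⟩⟩ = 1 := by decide +kernel
  rintro ⟨⟨x⟩, ⟨y⟩⟩ h
  obtain ⟨u, v, e⟩ := key x y h
  exact ⟨_, e⟩

theorem exists_sqrt : ∀ a : F64, ∃ b, b * b = a := by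
  have key : ∀ x y : Fin 8, ∃ u v : Fin 8, (⟨⟨u⟩, ⟨v⟩⟩ : F64) * ⟨⟨u⟩, ⟨v⟩⟩ = ⟨⟨x⟩, ⟨y⟩⟩ := by decide +kernel
  rintro ⟨⟨x⟩, ⟨y⟩⟩
  obtain ⟨u, v, e⟩ := key x y
  exact ⟨_, e⟩

theorem sq_inj : ∀ a b : F64, a * a = b * b → a = b := by
  rintro ⟨⟨x0⟩, ⟨y0⟩⟩ ⟨⟨x1⟩, ⟨y1⟩⟩
  revert x0 y0 x1 y1
  decide +kernel

instance : Finite F64 :=
  Finite.of_injective (fun a => (⟨enc a, enc_lt a⟩ : Fin 64))
    (fun _ _ h => enc_inj _ _ (Fin.mk.inj h))

end F64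

end Vale.Agent.P183
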