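import Mathlib
import Vale.Agent.P183.Field
import Vale.Agent.P183.Cert

/-! Checkers for the certificates, on numeric codes of vectors. -/

namespace Vale.Agent.P183

open F64 (mulN)

set_option maxRecDepth 100000

/-- Determinant of two coded vectors. -/
def detN (p q : ℕ) : ℕ := mulN (p % 64) (q / 64) ^^^ mulN (p / 64) (q % 64)

/-- The transvection of the coded vector p applied to q. -/
def tN (p q : ℕ) : ℕ :=
  ((q % 64) ^^^ mulN (detN p q) (p % 64)) + 64 * ((q / 64) ^^^ mulN (detN p q) (p / 64))

def run : List ℕ → List (ℕ × ℕ) → List ℕ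
  | l, [] => l
  | l, (i, j) :: r => run (l ++ [tN (l.getD i 1) (l.getD j 1)]) r

def dec : ℕ → ℕ → List (ℕ × ℕ)
  | 0, _ => []
  | f + 1, n => if n = 0 then [] else (n % 256 / 16, n % 16) :: dec f (n / 256)

def chainMask : List ℕ → ℕ → Option ℕ
  | [], m => some m
  | e :: r, m =>
    if m.testBit ((run [1, 64, 65, e % 4096] (dec 16 (e / 4096))).getLastD 0) then
      chainMask r (m ||| 1 <<< (e % 4096))
    else none

/-- The masks of the six proper sets, followed by the full one. -/
def maskOf (i : ℕ) : ℕ :=
  [Data.mask0, Data.mask1, Data.mask2, Data.mask3, Data.mask4, Data.mask5].getD i (2 ^ 4096 - 2)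

def setOf (i : ℕ) : List ℕ :=
  [Data.set0, Data.set1, Data.set2, Data.set3, Data.set4, Data.set5].getD i []

def genOf (i : ℕ) : List ℕ :=
  [Data.gen0, Data.gen1, Data.gen2, Data.gen3, Data.gen4, Data.gen5].getD i []

def wordOf (i : ℕ) : List (ℕ × ℕ) :=
  [Data.word0, Data.word1, Data.word2, Data.word3, Data.word4, Data.word5].getD i []

def states : List (ℕ × ℕ) → List (ℕ × ℕ) → List (ℕ × ℕ)
  | l, [] => l
  | l, (k, a) :: r => states (l ++ [(tN a (l.getD k (1, 64)).1, tN a (l.getD k (1, 64)).2)]) r

def joinI (e : ℕ) : ℕ := e % 8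
def joinK (e : ℕ) : ℕ := e / 8 % 8
def joinV (e : ℕ) : ℕ := e / 64 % 4096
def joinRun (e : ℕ) : List ℕ :=
  run (genOf (joinI e) ++ [joinV e]) (dec 16 (e / 262144))

def joinOK (e : ℕ) : Bool :=
  decide (joinI e < joinK e) && decide (joinI e < 6) &&
    if joinK e < 6 then (genOf (joinK e)).all (fun g => (joinRun e).contains g)
    else Data.goodMask.testBit ((joinRun e).getLastD 0)

def covered (i : ℕ) : ℕ :=
  (Data.joins.filter (fun e => joinI e == i)).foldr (fun e m => (1 <<< joinV e) ||| m)
    (Data.goodMask ||| maskOf i)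

def wordsOK (i : ℕ) : Bool :=
  let s := states [(1, 64)] (wordOf i)
  (setOf i).all fun a => (setOf i).all fun b => (detN a b != 1) || s.contains (a, b)

theorem join_check : Data.joins.all joinOK = true := by decide +kernel

theorem chain_check : chainMask Data.chain (1 <<< Data.v0) = some Data.goodMask := by
  decide +kernel

theorem axis_check :
    ((List.range 63).all fun i =>
      (run [1, 64, 65, Data.v0] Data.axisSteps).contains (i + 1) &&
        (run [1, 64, 65, Data.v0] Data.axisSteps).contains (64 * (i + 1))) = true := by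
  decide +kernel

theorem covered_check : ∀ i : Fin 6, covered i = 2 ^ 4096 - 2 := by decide +kernel

theorem words_check : ∀ i : Fin 6, wordsOK i = true := by decide +kernel

theorem word_mem_check :
    ∀ i : Fin 6, ((wordOf i).all fun w => (genOf i).contains w.2) = true := by decide +kernel

theorem set_check :
    ∀ i : Fin 6, (setOf i).foldr (fun a m => (1 <<< a) ||| m) 0 = maskOf i := by decide +kernel

theorem closed_check :
    ∀ i : Fin 6, ((setOf i).all fun a => (setOf i).all fun b =>
      (maskOf i).testBit (tN a b)) = true := by decide +kernel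

theorem gen_set_check :
    ∀ i : Fin 6, ((genOf i).all fun g => (setOf i).contains g) = true := by decide +kernel

theorem gen_base_check :
    ∀ i : Fin 6, ((genOf i).all fun g => decide (0 < g) && decide (g < 4096)) = true := by
  decide +kernel

end Vale.Agent.P183
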