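import Mathlib
import Vale.Agent.P183.Check

/-! Transvections in SL(2,64) and the soundness of the checkers. -/

namespace Vale.Agent.P183

open F64 (enc mulN)
open Matrix

abbrev G := Matrix.SpecialLinearGroup (Fin 2) F64

abbrev V := F64 × F64

/-- Code of a vector. -/
def vc (p : V) : ℕ := enc p.1 + 64 * enc p.2

theorem enc_zero : enc 0 = 0 := by decide
theorem enc_one : enc 1 = 1 := by decide

theorem vc_inj {p q : V} (h : vc p = vc q) : p = q := by
  have h1 := F64.enc_lt p.1; have h2 := F64.enc_lt q.1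
  simp only [vc] at h
  exact Prod.ext (F64.enc_inj _ _ (by omega)) (F64.enc_inj _ _ (by omega))

theorem vc_lt (p : V) : vc p < 4096 := by
  have := F64.enc_lt p.1; have := F64.enc_lt p.2; simp only [vc]; omega

theorem vc_mod (p : V) : vc p % 64 = enc p.1 := by
  have := F64.enc_lt p.1; simp only [vc]; omega

theorem vc_div (p : V) : vc p / 64 = enc p.2 := by
  have := F64.enc_lt p.1; simp only [vc]; omega

/-- The symplectic form. -/
def om (p q : V) : F64 := p.1 * q.2 + p.2 * q.1

def tv (p q : V) : V := (q.1 + om p q * p.1, q.2 + om p q * p.2)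

theorem detN_vc (p q : V) : detN (vc p) (vc q) = enc (om p q) := by
  simp [detN, vc_mod, vc_div, om, F64.enc_add, F64.enc_mul]

theorem tN_vc (p q : V) : tN (vc p) (vc q) = vc (tv p q) := by
  rw [tN, detN_vc, vc_mod, vc_div, vc_mod, vc_div]
  simp [vc, tv, F64.enc_add, F64.enc_mul]

/-- The action on vectors. -/
def act (g : G) (p : V) : V :=
  (g 0 0 * p.1 + g 0 1 * p.2, g 1 0 * p.1 + g 1 1 * p.2)

theorem mul_entry (g h : G) (i j : Fin 2) :
    (g * h) i j = g i 0 * h 0 j + g i 1 * h 1 j := by
  have e : ((g * h : G) i j) = (g.1 * h.1) i j := rfl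
  rw [e, Matrix.mul_apply, Fin.sum_univ_two]

theorem act_mul (g h : G) (p : V) : act (g * h) p = act g (act h p) := by
  ext1 <;> simp only [act, mul_entry] <;> ring

theorem act_one (p : V) : act 1 p = p := by
  simp [act]

theorem det_eq (g : G) : g 0 0 * g 1 1 + g 0 1 * g 1 0 = 1 := by
  have h := g.prop
  rw [Matrix.det_fin_two] at h
  linear_combination h + g 0 1 * g 1 0 * F64.two_eq_zero

theorem ext_act {g h : G} (h1 : act g (1, 0) = act h (1, 0)) (h2 : act g (0, 1) = act h (0, 1)) :
    g = h := by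
  simp only [act, mul_one, mul_zero, add_zero, zero_add, Prod.mk.injEq] at h1 h2
  apply Subtype.ext
  apply Matrix.ext
  intro i j
  fin_cases i <;> fin_cases j <;> simp [h1.1, h1.2, h2.1, h2.2]

theorem om_act (g : G) (p q : V) : om (act g p) (act g q) = om p q := by
  simp only [om, act]
  linear_combination (p.1 * q.2 + p.2 * q.1) * det_eq g +
    (g 0 0 * g 1 0 * p.1 * q.1 + g 0 1 * g 1 1 * p.2 * q.2) * F64.two_eq_zero

/-- The transvection with vector p. -/
def tau (p : V) : G :=
  ⟨!![1 + p.1 * p.2, p.1 * p.1; p.2 * p.2, 1 + p.1 * p.2], by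
    rw [Matrix.det_fin_two_of]
    linear_combination p.1 * p.2 * F64.two_eq_zero⟩

theorem act_tau (p q : V) : act (tau p) q = tv p q := by
  simp only [act, tau, tv, om]
  ext1 <;> simp <;> ring

theorem tau_inj {p q : V} (h : tau p = tau q) : p = q := by
  have h1 := congrArg (fun g : G => g 0 1) h
  have h2 := congrArg (fun g : G => g 1 0) h
  simp [tau] at h1 h2
  exact Prod.ext (F64.sq_inj _ _ h1) (F64.sq_inj _ _ h2)

theorem tau_zero : tau 0 = 1 := by
  apply ext_act <;> simp [act_tau, act_one, tv, om]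

theorem conj_tau (g : G) (p : V) : g * tau p = tau (act g p) * g := by
  have key : ∀ q, act (g * tau p) q = act (tau (act g p) * g) q := fun q => by
    rw [act_mul, act_mul, act_tau, act_tau]
    simp only [tv, om_act]
    ext1 <;> simp only [act] <;> ring
  exact ext_act (key _) (key _)

theorem tau_act_mem {K : Subgroup G} {g : G} {p : V} (hg : g ∈ K) (hp : tau p ∈ K) :
    tau (act g p) ∈ K := by
  have e : tau (act g p) = g * tau p * g⁻¹ := by rw [conj_tau]; group
  rw [e]
  exact K.mul_mem (K.mul_mem hg hp) (K.inv_mem hg)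

/-- Coded transvections lying in a subgroup. -/
def codes (K : Subgroup G) (n : ℕ) : Prop := ∃ p, vc p = n ∧ tau p ∈ K

theorem codes_vc {K : Subgroup G} {p : V} : codes K (vc p) ↔ tau p ∈ K :=
  ⟨fun ⟨_, hq, h⟩ => vc_inj hq ▸ h, fun h => ⟨p, rfl, h⟩⟩

theorem codes_tN {K : Subgroup G} {a b : ℕ} (ha : codes K a) (hb : codes K b) :
    codes K (tN a b) := by
  obtain ⟨p, rfl, hp⟩ := ha
  obtain ⟨q, rfl, hq⟩ := hb
  rw [tN_vc, ← act_tau, codes_vc]
  exact tau_act_mem hp hq

theorem codes_run {K : Subgroup G} (h1 : codes K 1) :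
    ∀ (r : List (ℕ × ℕ)) (l : List ℕ), (∀ x ∈ l, codes K x) → ∀ x ∈ run l r, codes K x := by
  intro r
  induction r with
  | nil => intro l hl; simpa [run] using hl
  | cons s r ih =>
    intro l hl
    obtain ⟨i, j⟩ := s
    rw [run]
    have get : ∀ k, codes K (l.getD k 1) := fun k => by
      by_cases hk : k < l.length
      · rw [List.getD_eq_getElem _ _ hk]; exact hl _ (List.getElem_mem hk)
      · rw [List.getD_eq_default _ _ (by omega)]; exact h1
    apply ih
    intro x hx
    rcases List.mem_append.1 hx with hx | hx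
    · exact hl x hx
    · rw [List.mem_singleton] at hx
      rw [hx]
      exact codes_tN (get i) (get j)

theorem testBit_or_shift {m a v : ℕ} (h : (m ||| 1 <<< a).testBit v = true) :
    m.testBit v = true ∨ v = a := by
  rw [Nat.testBit_or, Bool.or_eq_true, Nat.one_shiftLeft, Nat.testBit_two_pow] at h
  rcases h with h | h
  · exact Or.inl h
  · exact Or.inr (of_decide_eq_true h).symm

theorem last_mem {l : List ℕ} {d : ℕ} {P : ℕ → Prop} (h : ∀ x ∈ l, P x) (hd : P d) :
    P (l.getLastD d) := by
  rw [List.getLastD_eq_getLast?]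
  cases e : l.getLast? with
  | none => simpa using hd
  | some x => simpa using h x (List.mem_of_getLast? e)

theorem top_of_axis (K : Subgroup G) (h1 : ∀ a, tau (a, 0) ∈ K) (h2 : ∀ a, tau (0, a) ∈ K) :
    K = ⊤ := by
  have hc : ∀ g : G, g 1 0 ≠ 0 → g ∈ K := by
    intro g hne
    obtain ⟨u, hu⟩ := F64.exists_inv _ hne
    obtain ⟨x, hx⟩ := F64.exists_sqrt ((g 0 0 + 1) * u)
    obtain ⟨y, hy⟩ := F64.exists_sqrt ((g 1 1 + 1) * u)
    obtain ⟨z, hz⟩ := F64.exists_sqrt (g 1 0)
    have e : g = tau (x, 0) * tau (0, z) * tau (y, 0) := by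
      have two := F64.two_eq_zero
      have hd := det_eq g
      apply ext_act
      · simp only [act_mul, act_tau]
        simp only [act, tv, om, Prod.mk.injEq]
        refine ⟨?_, ?_⟩
        · linear_combination (-(z * z)) * hx - (g 0 0 + 1) * u * hz - (g 0 0 + 1) * hu - two
        · linear_combination -hz
      · simp only [act_mul, act_tau]
        simp only [act, tv, om, Prod.mk.injEq]
        refine ⟨?_, ?_⟩
        · linear_combination (-(1 : F64) - x * x * (z * z)) * hy -
            (1 + (g 1 1 + 1) * u * (z * z)) * hx - (g 0 0 + 1) * (g 1 1 + 1) * u * u * hz -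
            (g 0 0 + 1) * (g 1 1 + 1) * u * hu + u * hd - g 0 1 * hu -
            (g 0 0 * g 1 1 + g 0 0 + g 1 1 + 1) * u * two
        · linear_combination (-(z * z)) * hy - (g 1 1 + 1) * u * hz - (g 1 1 + 1) * hu - two
    rw [e]
    exact K.mul_mem (K.mul_mem (h1 x) (h2 z)) (h1 y)
  rw [eq_top_iff]
  intro g _
  by_cases hne : g 1 0 = 0
  · have hd := det_eq g
    rw [hne, mul_zero, add_zero] at hd
    have hmem : tau (0, 1) * g ∈ K := by
      apply hc
      have e : (tau (0, 1) * g) 1 0 = g 0 0 + g 1 0 := by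
        rw [mul_entry]
        simp [tau]
      rw [e, hne, add_zero]
      intro h0
      rw [h0, zero_mul] at hd
      exact absurd hd (by decide)
    simpa using K.mul_mem (K.inv_mem (h2 1)) hmem
  · exact hc g hne

end Vale.Agent.P183
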