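import Mathlib
import Vale.Agent.P183.Group

/-! The overgroups of S3 = SL(2,2) in SL(2,64). -/

namespace Vale.Agent.P183

open F64 (enc)

set_option maxRecDepth 100000

instance : Finite G := Subtype.finite

/-- The set stabiliser of a mask of coded vectors. -/
def stabMask (m : ℕ) : Submonoid G where
  carrier := {g | ∀ p, m.testBit (vc p) = true → m.testBit (vc (act g p)) = true}
  one_mem' := fun p h => by rwa [act_one]
  mul_mem' := fun {a b} ha hb p h => by rw [act_mul]; exact ha _ (hb _ h)

def subOf (m : ℕ) : Subgroup G where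
  toSubmonoid := stabMask m
  inv_mem' := fun {g} hg => by
    have ho : 0 < orderOf g := orderOf_pos g
    have e : g⁻¹ = g ^ (orderOf g - 1) := by
      rw [inv_eq_iff_mul_eq_one, ← pow_succ', Nat.sub_add_cancel ho, pow_orderOf_eq_one]
    rw [e]
    exact (stabMask m).pow_mem hg _

theorem testBit_shift {a v : ℕ} : (1 <<< a).testBit v = decide (a = v) := by
  rw [Nat.one_shiftLeft, Nat.testBit_two_pow]

theorem testBit_foldr {α : Type} (f : α → ℕ) (m : ℕ) (v : ℕ) :
    ∀ l : List α, (l.foldr (fun a r => (1 <<< f a) ||| r) m).testBit v = true ↔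
      m.testBit v = true ∨ ∃ a ∈ l, f a = v := by
  intro l
  induction l with
  | nil => simp
  | cons a l ih =>
    rw [List.foldr_cons, Nat.testBit_or, Bool.or_eq_true, ih, testBit_shift]
    simp only [decide_eq_true_eq, List.mem_cons, exists_eq_or_imp]
    tauto

theorem mem_set {i : Fin 6} {v : ℕ} : (maskOf i).testBit v = true ↔ v ∈ setOf i := by
  rw [← set_check i, testBit_foldr (fun a => a) 0 v (setOf i)]
  simp

theorem set_lt {i : Fin 6} : ∀ v ∈ setOf i, 0 < v ∧ v < 4096 := by
  have h : ∀ i : Fin 6, ((setOf i).all fun v => decide (0 < v) && decide (v < 4096)) = true := by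
    decide +kernel
  intro v hv
  have := List.all_eq_true.1 (h i) v hv
  simpa using this

theorem code_surj : ∀ v < 4096, ∃ p : V, vc p = v := by
  have h : ∀ x : Fin 64, ∃ a b : Fin 8, enc ⟨⟨a⟩, ⟨b⟩⟩ = x := by decide +kernel
  intro v hv
  obtain ⟨a, b, hab⟩ := h ⟨v % 64, by omega⟩
  obtain ⟨c, d, hcd⟩ := h ⟨v / 64, by omega⟩
  refine ⟨(⟨⟨a⟩, ⟨b⟩⟩, ⟨⟨c⟩, ⟨d⟩⟩), ?_⟩
  simp only [vc, hab, hcd]
  omega

theorem tau_mem_sub {i : Fin 6} {p : V} (hp : (maskOf i).testBit (vc p) = true) :
    tau p ∈ subOf (maskOf i) := by
  intro q hq
  rw [act_tau, ← tN_vc]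
  have h := List.all_eq_true.1 (List.all_eq_true.1 (closed_check i) _ (mem_set.1 hp)) _
    (mem_set.1 hq)
  exact h

theorem gen_mem {i : Fin 6} {g : ℕ} (hg : g ∈ genOf i) : g ∈ setOf i :=
  List.contains_iff_mem.1 (List.all_eq_true.1 (gen_set_check i) g hg)

theorem base_bits : ∀ i : Fin 6,
    (maskOf i).testBit (vc (1, 0)) = true ∧ (maskOf i).testBit (vc (0, 1)) = true := by
  decide +kernel

/-- Soundness of the word lists: the set stabiliser is generated by the listed transvections. -/
theorem sub_le {i : Fin 6} {K : Subgroup G} (h : ∀ g ∈ genOf i, codes K g) :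
    subOf (maskOf i) ≤ K := by
  have key : ∀ (w : List (ℕ × ℕ)) (l : List (ℕ × ℕ)), (∀ x ∈ w, x.2 ∈ genOf i) →
      (∀ x ∈ l, ∃ g ∈ K, vc (act g (1, 0)) = x.1 ∧ vc (act g (0, 1)) = x.2) →
      ∀ x ∈ states l w, ∃ g ∈ K, vc (act g (1, 0)) = x.1 ∧ vc (act g (0, 1)) = x.2 := by
    intro w
    induction w with
    | nil => intro l _ hl; simpa [states] using hl
    | cons s r ih =>
      intro l hw hl
      obtain ⟨k, a⟩ := s
      rw [states]
      apply ih _ (fun x hx => hw x (List.mem_cons_of_mem _ hx))
      intro x hx
      rcases List.mem_append.1 hx with hx | hx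
      · exact hl x hx
      · rw [List.mem_singleton] at hx
        subst hx
        obtain ⟨p, hp, hpK⟩ := h a (hw (k, a) (List.mem_cons_self))
        have get : ∃ g ∈ K, vc (act g (1, 0)) = (l.getD k (1, 64)).1 ∧
            vc (act g (0, 1)) = (l.getD k (1, 64)).2 := by
          by_cases hk : k < l.length
          · rw [List.getD_eq_getElem _ _ hk]; exact hl _ (List.getElem_mem hk)
          · rw [List.getD_eq_default _ _ (by omega)]
            exact ⟨1, K.one_mem, by rw [act_one]; decide, by rw [act_one]; decide⟩
        obtain ⟨g, hg, e1, e2⟩ := get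
        refine ⟨tau p * g, K.mul_mem hpK hg, ?_, ?_⟩
        · rw [act_mul, act_tau, ← tN_vc, hp, e1]
        · rw [act_mul, act_tau, ← tN_vc, hp, e2]
  intro g hg
  have m1 : (maskOf i).testBit (vc (1, 0)) = true := (base_bits i).1
  have m2 : (maskOf i).testBit (vc (0, 1)) = true := (base_bits i).2
  have a1 := mem_set.1 (hg _ m1)
  have a2 := mem_set.1 (hg _ m2)
  have hw := List.all_eq_true.1 (List.all_eq_true.1 (words_check i) _ a1) _ a2
  have hd : detN (vc (act g (1, 0))) (vc (act g (0, 1))) = 1 := by
    rw [detN_vc, om_act]; decide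
  simp only [hd, bne_self_eq_false, Bool.false_or, List.contains_iff_mem] at hw
  obtain ⟨k, hk, e1, e2⟩ := key (wordOf i) [(1, 64)]
    (fun x hx => List.contains_iff_mem.1 (List.all_eq_true.1 (word_mem_check i) x hx))
    (fun x hx => by
      rw [List.mem_singleton] at hx
      subst hx
      exact ⟨1, K.one_mem, by rw [act_one]; decide, by rw [act_one]; decide⟩) _ hw
  rw [ext_act (vc_inj e1.symm) (vc_inj e2.symm)]
  exact hk

/-- Any good transvection generates everything together with S3. -/
theorem good_top {K : Subgroup G} (h1 : codes K 1) (h64 : codes K 64) (h65 : codes K 65)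
    {v : ℕ} (hv : Data.goodMask.testBit v = true) (hK : codes K v) : K = ⊤ := by
  have base : ∀ w, codes K w → ∀ x ∈ [1, 64, 65, w], codes K x := by
    intro w hw x hx
    simp only [List.mem_cons, List.not_mem_nil, or_false] at hx
    rcases hx with rfl | rfl | rfl | rfl <;> assumption
  have key : ∀ (c : List ℕ) (m m' : ℕ), chainMask c m = some m' →
      (∀ w, m.testBit w = true → codes K w → K = ⊤) →
      ∀ w, m'.testBit w = true → codes K w → K = ⊤ := by
    intro c
    induction c with
    | nil => intro m m' e hm; simp only [chainMask, Option.some.injEq] at e; subst e; exact hm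
    | cons e r ih =>
      intro m m' he hm
      rw [chainMask] at he
      split at he
      · rename_i hbit
        apply ih _ _ he
        intro w hw hwK
        rcases testBit_or_shift hw with hw | rfl
        · exact hm w hw hwK
        · exact hm _ hbit (last_mem (codes_run h1 _ _ (base _ hwK))
            ⟨0, by decide, by rw [tau_zero]; exact K.one_mem⟩)
      · exact absurd he (by simp)
  refine key _ _ _ chain_check (fun w hw hwK => ?_) v hv hK
  rw [testBit_shift, decide_eq_true_eq] at hw
  subst hw
  have hax := List.all_eq_true.1 axis_check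
  have hrun := codes_run h1 Data.axisSteps _ (base _ hwK)
  apply top_of_axis
  · intro a
    by_cases ha : a = 0
    · subst ha; rw [show ((0 : F64), (0 : F64)) = (0 : V) from rfl, tau_zero]; exact K.one_mem
    · have hne : enc a ≠ 0 := fun h => ha (F64.enc_inj _ _ (h.trans enc_zero.symm))
      have hlt := F64.enc_lt a
      have hh := hax (enc a - 1) (List.mem_range.2 (by omega))
      simp only [Bool.and_eq_true, List.contains_iff_mem] at hh
      have hc := hrun _ hh.1
      rw [show enc a - 1 + 1 = vc (a, 0) by simp [vc, enc_zero]; omega] at hc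
      exact codes_vc.1 hc
  · intro a
    by_cases ha : a = 0
    · subst ha; rw [show ((0 : F64), (0 : F64)) = (0 : V) from rfl, tau_zero]; exact K.one_mem
    · have hne : enc a ≠ 0 := fun h => ha (F64.enc_inj _ _ (h.trans enc_zero.symm))
      have hlt := F64.enc_lt a
      have hh := hax (enc a - 1) (List.mem_range.2 (by omega))
      simp only [Bool.and_eq_true, List.contains_iff_mem] at hh
      have hc := hrun _ hh.2
      rw [show 64 * (enc a - 1 + 1) = vc (0, a) by simp [vc, enc_zero]; omega] at hc
      exact codes_vc.1 hc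

/-- The seven overgroups, indexed as in the lattice. -/
def ovg : Fin 7 → Subgroup G := fun i => if i.val < 6 then subOf (maskOf i) else ⊤

def bottom : Subgroup G := subOf (maskOf 0)

theorem over_castSucc (i : Fin 6) : ovg i.castSucc = subOf (maskOf i) := by
  simp [ovg, i.isLt]

theorem classify (K : Subgroup G) (hK : bottom ≤ K) : ∃ i, ovg i = K := by
  have cH : ∀ n, (maskOf 0).testBit n = true → n < 4096 → codes K n := by
    intro n hn hlt
    obtain ⟨p, rfl⟩ := code_surj n hlt
    exact ⟨p, rfl, hK (tau_mem_sub (i := 0) hn)⟩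
  have h1 := cH 1 (by decide +kernel) (by omega)
  have h64 := cH 64 (by decide +kernel) (by omega)
  have h65 := cH 65 (by decide +kernel) (by omega)
  have step : ∀ (d : ℕ) (i : Fin 6), 6 - i.val ≤ d → (∀ g ∈ genOf i, codes K g) →
      ∃ j, ovg j = K := by
    intro d
    induction d with
    | zero => intro i hi; have := i.isLt; omega
    | succ d ih =>
      intro i hi hgen
      by_cases hall : ∀ p, tau p ∈ K → p ≠ 0 → (maskOf i).testBit (vc p) = true
      · refine ⟨i.castSucc, ?_⟩
        rw [over_castSucc]
        have hle : subOf (maskOf i) ≤ K := sub_le hgen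
        refine le_antisymm hle (fun g hg p hp => hall _ ?_ ?_)
        · exact tau_act_mem hg (hle (tau_mem_sub hp))
        · intro h0
          have e : p = 0 := by
            have := congrArg (act g⁻¹) h0
            rw [← act_mul, inv_mul_cancel, act_one] at this
            rw [this]; simp [act]
          subst e
          have := (set_lt (i := i) _ (mem_set.1 hp)).1
          exact absurd this (by decide)
      · push Not at hall
        obtain ⟨p, hpK, hp0, hpm⟩ := hall
        have hv : codes K (vc p) := codes_vc.2 hpK
        have hb : (2 ^ 4096 - 2 : ℕ).testBit (vc p) = true := by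
          have hne : vc p ≠ 0 := fun h => hp0 (vc_inj (h.trans (by decide : (0 : ℕ) = vc 0)))
          have hlt := vc_lt p
          have e : (2 ^ 4096 - 2 : ℕ) = 2 ^ 4096 - (1 + 1) := rfl
          rw [e, Nat.testBit_two_pow_sub_succ (by exact Nat.one_lt_two_pow (by omega))]
          simp only [hlt, decide_true, Bool.true_and, Bool.not_eq_true']
          rw [show (1 : ℕ) = 2 ^ 0 from rfl, Nat.testBit_two_pow]
          simp [Ne.symm hne]
        have hc := covered_check i
        rw [← hc] at hb
        rcases (testBit_foldr joinV _ _ _).1 hb with hg | ⟨e, he, hev⟩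
        · rw [Nat.testBit_or, Bool.or_eq_true] at hg
          rcases hg with hg | hg
          · exact ⟨6, (good_top h1 h64 h65 hg hv).symm⟩
          · exact absurd hg hpm
        · obtain ⟨he, hei⟩ := List.mem_filter.1 he
          have hei' : joinI e = i := by simpa using hei
          have ok := List.all_eq_true.1 join_check e he
          have hr : ∀ x ∈ joinRun e, codes K x := by
            apply codes_run h1
            intro x hx
            rcases List.mem_append.1 hx with hx | hx
            · rw [hei'] at hx; exact hgen x hx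
            · rw [List.mem_singleton] at hx; rw [hx, hev]; exact hv
          simp only [joinOK, Bool.and_eq_true, decide_eq_true_eq] at ok
          obtain ⟨⟨hlt, _⟩, ok⟩ := ok
          split at ok
          · rename_i hk
            refine ih ⟨joinK e, hk⟩ (by simp only; omega) (fun g hg => hr g ?_)
            exact List.contains_iff_mem.1 (List.all_eq_true.1 ok g hg)
          · exact ⟨6, (good_top h1 h64 h65 ok
              (last_mem hr ⟨0, by decide, by rw [tau_zero]; exact K.one_mem⟩)).symm⟩
  apply step 6 0 (by simp)
  intro g hg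
  exact cH g (mem_set.2 (gen_mem hg)) (set_lt (i := 0) g (gen_mem hg)).2

/-- The order of the lattice: 0 is the bottom, 6 the top, and the other relations are
1 < 4, 1 < 5 and 3 < 5. -/
def winged (i j : Fin 7) : Prop :=
  i = j ∨ i = 0 ∨ j = 6 ∨ (i = 1 ∧ j = 4) ∨ (i = 1 ∧ j = 5) ∨ (i = 3 ∧ j = 5)

instance (i j : Fin 7) : Decidable (winged i j) := by unfold winged; infer_instance

theorem gen_in : ∀ i j : Fin 6, winged i.castSucc j.castSucc →
    ((genOf i).all fun g => (maskOf j).testBit g) = true := by decide +kernel

theorem witness : ∀ i j : Fin 6, ¬ winged i.castSucc j.castSucc →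
    ((genOf i).any fun g => (setOf j).any fun r => !(maskOf j).testBit (tN g r)) = true := by
  decide +kernel

theorem witness_top : ∀ j : Fin 6,
    ((setOf j).any fun r => !(maskOf j).testBit (tN Data.v0 r)) = true := by decide +kernel

theorem escape {j : Fin 6} {g : ℕ} (hg : g < 4096)
    (h : ((setOf j).any fun r => !(maskOf j).testBit (tN g r)) = true) :
    ∃ p, vc p = g ∧ tau p ∉ subOf (maskOf j) := by
  obtain ⟨r, hr, hbad⟩ := List.any_eq_true.1 h
  obtain ⟨p, rfl⟩ := code_surj g hg
  obtain ⟨q, rfl⟩ := code_surj r (set_lt r hr).2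
  refine ⟨p, rfl, fun hp => ?_⟩
  have := hp q (mem_set.2 hr)
  rw [act_tau, ← tN_vc] at this
  simp [this] at hbad

theorem over_last : ovg (Fin.last 6) = ⊤ := by simp [ovg]

theorem over_le : ∀ i j, ovg i ≤ ovg j ↔ winged i j := by
  intro i j
  induction j using Fin.lastCases with
  | last => exact iff_of_true (le_top.trans_eq over_last.symm) (Or.inr (Or.inr (Or.inl rfl)))
  | cast j =>
    induction i using Fin.lastCases with
    | last =>
      rw [over_last, over_castSucc]
      refine iff_of_false ?_ (by revert j; decide)
      intro hle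
      obtain ⟨p, _, hp⟩ := escape (by decide : Data.v0 < 4096) (witness_top j)
      exact hp (hle (Subgroup.mem_top _))
    | cast i =>
      rw [over_castSucc, over_castSucc]
      constructor
      · intro hle
        by_contra hw
        obtain ⟨g, hg, hr⟩ := List.any_eq_true.1 (witness i j hw)
        have hgs := gen_mem hg
        obtain ⟨p, hp, hbad⟩ := escape (set_lt g hgs).2 hr
        exact hbad (hle (tau_mem_sub (by rw [hp]; exact mem_set.2 hgs)))
      · intro hw
        apply sub_le
        intro g hg
        have hgs := gen_mem hg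
        obtain ⟨p, rfl⟩ := code_surj g (set_lt g hgs).2
        exact ⟨p, rfl, tau_mem_sub (List.all_eq_true.1 (gen_in i j hw) _ hg)⟩

theorem bottom_le (i : Fin 7) : bottom ≤ ovg i := by
  have e : bottom = ovg 0 := by simp [ovg, bottom]
  rw [e, over_le]
  exact Or.inr (Or.inl rfl)

theorem over_injective : Function.Injective ovg := by
  intro i j h
  have h1 := (over_le i j).1 h.le
  have h2 := (over_le j i).1 h.ge
  revert h1 h2
  clear h
  revert i j
  decide

end Vale.Agent.P183
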