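import Vale.Agent.P183.Defs

/-! The union of a principal filter and a principal ideal of a congruence lattice (Snow). -/

namespace Vale.Agent.P183

/-- The operations may be indexed by any finite type. -/
theorem IsConLattice.of_ops {ι : Type*} {R : ι → ι → Prop} {A : Type} [Nonempty A] [Finite A]
    {K : Type} [Finite K] (ar : K → ℕ) (op : ∀ k, (Fin (ar k) → A) → A)
    (e : ι ≃ {θ : Setoid A // ∀ k a b, (∀ l, θ (a l) (b l)) → θ (op k a) (op k b)})
    (he : ∀ i j, R i j ↔ (e i).1 ≤ (e j).1) : IsConLattice R := by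
  let g := (Finite.equivFin K).symm
  exact ⟨A, inferInstance, inferInstance, Nat.card K, fun i => ar (g i), fun i => op (g i),
    e.trans (Equiv.subtypeEquivRight fun θ => ⟨fun h i => h (g i), fun h k => by
      obtain ⟨i, rfl⟩ := g.surjective k
      exact h i⟩),
    fun i j => (he i j).trans Iff.rfl⟩

/-- Adding the operations which collapse `β`-blocks to an `α`-pair keeps exactly the congruences
above `α` or below `β`. -/
theorem filter_ideal {ι : Type*} {R : ι → ι → Prop} (h : IsConLattice R) (x y : ι) :
    IsConLattice (fun i j : {e : ι // R x e ∨ R e y} => R i.1 j.1) := by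
  classical
  obtain ⟨A, _, _, m, ar, op, e, he⟩ := h
  let T := {t : A × A × A // (e x).1 t.1 t.2.1}
  let ar' : Fin m ⊕ T → ℕ := Sum.elim ar fun _ => 1
  let op' : ∀ k, (Fin (ar' k) → A) → A := fun k =>
    match k with
    | Sum.inl k => op k
    | Sum.inr t => fun u => if (e y).1 t.1.2.2 (u (0 : Fin 1)) then t.1.1 else t.1.2.1
  have key : ∀ θ : Setoid A, (∀ k a b, (∀ l, θ (a l) (b l)) → θ (op' k a) (op' k b)) ↔
      (∀ k a b, (∀ l, θ (a l) (b l)) → θ (op k a) (op k b)) ∧
        ((e x).1 ≤ θ ∨ θ ≤ (e y).1) := by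
    intro θ
    constructor
    · intro hθ
      refine ⟨fun k => hθ (Sum.inl k), ?_⟩
      by_contra hcon
      obtain ⟨hx, hy⟩ := not_or.1 hcon
      simp only [Setoid.le_def, not_forall] at hx hy
      obtain ⟨a, b, hab, hnab⟩ := hx
      obtain ⟨u, v, huv, hnuv⟩ := hy
      have := hθ (Sum.inr ⟨(a, b, u), hab⟩) (fun _ => u) (fun _ => v) (fun _ => huv)
      simp only [op', if_pos ((e y).1.refl u), if_neg hnuv] at this
      exact hnab this
    · rintro ⟨hop, hor⟩ (k | t) a b hab
      · exact hop k a b hab
      · rcases hor with hle | hle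
        · have hp : θ t.1.1 t.1.2.1 := hle t.2
          simp only [op']
          split_ifs
          · exact θ.refl _
          · exact hp
          · exact θ.symm hp
          · exact θ.refl _
        · have hiff : (e y).1 t.1.2.2 (a (0 : Fin 1)) ↔ (e y).1 t.1.2.2 (b (0 : Fin 1)) :=
            ⟨fun h => (e y).1.trans h (hle (hab (0 : Fin 1))),
              fun h => (e y).1.trans h ((e y).1.symm (hle (hab (0 : Fin 1))))⟩
          simp only [op', hiff]
          exact θ.refl _
  refine IsConLattice.of_ops ar' op'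
    { toFun := fun i => ⟨(e i.1).1,
        (key _).2 ⟨(e i.1).2, i.2.imp (he x i.1).1 (he i.1 y).1⟩⟩
      invFun := fun θ => ⟨e.symm ⟨θ.1, ((key θ.1).1 θ.2).1⟩,
        ((key θ.1).1 θ.2).2.imp (fun h => (he _ _).2 (by simpa using h))
          fun h => (he _ _).2 (by simpa using h)⟩
      left_inv := fun i => Subtype.ext (by simp)
      right_inv := fun θ => Subtype.ext (by simp) }
    fun i j => he i.1 j.1

end Vale.Agent.P183
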