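import Mathlib

/-! Congruence lattices of finite algebras, as orders. -/

namespace Vale.Agent.P183

/-- A relation on a type is the order of the whole congruence lattice of some finite algebra. -/
def IsConLattice {ι : Type*} (R : ι → ι → Prop) : Prop :=
  ∃ (A : Type) (_ : Nonempty A) (_ : Finite A) (m : ℕ) (ar : Fin m → ℕ)
    (op : ∀ k, (Fin (ar k) → A) → A)
    (e : ι ≃ {θ : Setoid A // ∀ k a b, (∀ l, θ (a l) (b l)) → θ (op k a) (op k b)}),
    ∀ i j, R i j ↔ (e i).1 ≤ (e j).1

theorem IsConLattice.congr {ι κ : Type*} {R : ι → ι → Prop} {S : κ → κ → Prop}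
    (f : κ ≃ ι) (hf : ∀ i j, S i j ↔ R (f i) (f j)) (h : IsConLattice R) : IsConLattice S := by
  obtain ⟨A, h1, h2, m, ar, op, e, he⟩ := h
  exact ⟨A, h1, h2, m, ar, op, f.trans e, fun i j => (hf i j).trans (he _ _)⟩

/-- The order on Fin n coded by a bit mask: bit n*i+j says i is below j. -/
def maskRel (c : ℕ × ℕ) : Fin c.1 → Fin c.1 → Prop :=
  fun i j => c.2.testBit (c.1 * i.val + j.val) = true

end Vale.Agent.P183
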