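import Vale.Agent.P183.Closure

/-! Kurzweil–Netter: congruence lattices of finite algebras are closed under duality.

For a finite algebra on `A` and `T` the alternating group on five points, the subgroups of `A → T`
that contain the constants are the groups of functions constant on the blocks of an equivalence;
such a group is closed under precomposition with the translations exactly for congruences. -/

namespace Vale.Agent.P183

namespace Duality

/-- The simple group used. -/
abbrev T : Type := alternatingGroup (Fin 5)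

theorem not_comm : ∃ t u : T, t * u ≠ u * t :=
  ⟨⟨Equiv.swap 0 1 * Equiv.swap 1 2, Equiv.Perm.mem_alternatingGroup.2 (by decide)⟩,
    ⟨Equiv.swap 2 3 * Equiv.swap 3 4, Equiv.Perm.mem_alternatingGroup.2 (by decide)⟩,
    by decide⟩

variable {A : Type}

/-- The functions constant on the blocks of `π`. -/
def fixSub (π : Setoid A) : Subgroup (A → T) where
  carrier := {g | ∀ a b, π a b → g a = g b}
  mul_mem' hg hh a b h := by simp only [Pi.mul_apply, hg a b h, hh a b h]
  one_mem' _ _ _ := rfl
  inv_mem' hg a b h := by simp only [Pi.inv_apply, hg a b h]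

theorem mem_fixSub {π : Setoid A} {g : A → T} : g ∈ fixSub π ↔ ∀ a b, π a b → g a = g b :=
  Iff.rfl

theorem fixSub_le_iff {π π' : Setoid A} : fixSub π ≤ fixSub π' ↔ π' ≤ π := by
  classical
  refine ⟨fun h {a b} hab => ?_, fun h g hg a b hab => hg a b (h hab)⟩
  by_contra hn
  obtain ⟨t, ht⟩ := exists_ne (1 : T)
  have hg : (fun x => if π a x then t else 1) ∈ fixSub π := fun x y hxy => by
    have : π a x ↔ π a y := ⟨fun h => π.trans h hxy, fun h => π.trans h (π.symm hxy)⟩
    simp only [this]
  have := h hg a b hab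
  simp only [if_pos (π.refl a), if_neg hn] at this
  exact ht this

/-- Every subgroup containing the constants is the group of some equivalence. -/
theorem exists_fixSub_eq [Finite A] (K : Subgroup (A → T))
    (hK : ∀ t : T, (fun _ => t) ∈ K) : ∃ π : Setoid A, fixSub π = K := by
  classical
  let π : Setoid A := ⟨fun a b => ∀ k ∈ K, k a = k b, fun _ _ _ => rfl,
    fun h k hk => (h k hk).symm, fun h h' k hk => (h k hk).trans (h' k hk)⟩
  refine ⟨π, le_antisymm ?_ fun k hk a b hab => hab k hk⟩
  have single : ∀ a b, ¬π a b → ∀ t, ∃ k ∈ K, k a = t ∧ k b = 1 := by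
    intro a b hab
    let N := (K ⊓ (Pi.evalMonoidHom (fun _ : A => T) b).ker).map (Pi.evalMonoidHom (fun _ : A => T) a)
    have hn : N.Normal := ⟨fun t ht g => by
      obtain ⟨k, ⟨hk, hkb⟩, rfl⟩ := ht
      refine ⟨(fun _ => g) * k * (fun _ => g)⁻¹,
        ⟨K.mul_mem (K.mul_mem (hK g) hk) (K.inv_mem (hK g)), ?_⟩, by simp⟩
      have hkb' : k b = 1 := hkb
      simp [hkb']⟩
    rcases hn.eq_bot_or_eq_top with h | h
    · obtain ⟨k, hk, hne⟩ : ∃ k ∈ K, k a ≠ k b := by
        by_contra hc
        push Not at hc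
        exact hab hc
      have hmem : k a * (k b)⁻¹ ∈ N :=
        ⟨k * (fun _ => (k b)⁻¹), ⟨K.mul_mem hk (hK _), by simp⟩, rfl⟩
      rw [h, Subgroup.mem_bot, mul_inv_eq_one] at hmem
      exact absurd hmem hne
    · intro t
      obtain ⟨k, ⟨hk, hkb⟩, hka⟩ : t ∈ N := h ▸ Subgroup.mem_top t
      exact ⟨k, hk, hka, hkb⟩
  have key : ∀ (a : A) (S : Finset A), (∀ b ∈ S, ¬π a b) →
      ∀ t, ∃ k ∈ K, k a = t ∧ ∀ b ∈ S, k b = 1 := by
    intro a S
    induction S using Finset.induction with
    | empty => exact fun _ t => ⟨_, hK t, rfl, by simp⟩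
    | insert b S _ ih =>
      intro hS
      have ih' := ih fun c hc => hS c (Finset.mem_insert_of_mem hc)
      have sb := single a b (hS b (Finset.mem_insert_self b S))
      let N := (K ⊓ Subgroup.pi (↑(insert b S) : Set A) fun _ => ⊥).map
        (Pi.evalMonoidHom (fun _ : A => T) a)
      have hn : N.Normal := ⟨fun t ht g => by
        obtain ⟨k, ⟨hk, hkS⟩, rfl⟩ := ht
        refine ⟨(fun _ => g) * k * (fun _ => g)⁻¹,
          ⟨K.mul_mem (K.mul_mem (hK g) hk) (K.inv_mem (hK g)), fun c hc => ?_⟩, by simp⟩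
        have hkc : k c = 1 := hkS c hc
        simp [hkc]⟩
      rcases hn.eq_bot_or_eq_top with h | h
      · obtain ⟨t, u, htu⟩ := not_comm
        obtain ⟨k, hk, hka, hkS⟩ := ih' t
        obtain ⟨l, hl, hla, hlb⟩ := sb u
        have hmem : t * u * t⁻¹ * u⁻¹ ∈ N := by
          refine ⟨k * l * k⁻¹ * l⁻¹, ⟨K.mul_mem (K.mul_mem (K.mul_mem hk hl) (K.inv_mem hk))
            (K.inv_mem hl), fun c hc => ?_⟩, by simp [hka, hla]⟩
          rcases Finset.mem_insert.1 (Finset.mem_coe.1 hc) with rfl | hc'
          · simp [hlb]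
          · simp [hkS c hc']
        rw [h, Subgroup.mem_bot, mul_inv_eq_one, mul_inv_eq_iff_eq_mul] at hmem
        exact absurd hmem htu
      · intro t
        obtain ⟨k, ⟨hk, hkS⟩, hka⟩ : t ∈ N := h ▸ Subgroup.mem_top t
        exact ⟨k, hk, hka, fun c hc => hkS c (Finset.mem_coe.2 hc)⟩
  have : Fintype A := Fintype.ofFinite A
  intro f hf
  induction hn : (Finset.univ.filter fun a => f a ≠ 1).card using Nat.strong_induction_on
    generalizing f with
  | _ n ih =>
    by_cases h1 : ∀ a, f a = 1
    · rw [show f = 1 from funext h1]; exact K.one_mem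
    push Not at h1
    obtain ⟨a, ha⟩ := h1
    obtain ⟨k, hk, hka, hk1⟩ := key a (Finset.univ.filter fun b => ¬π a b)
      (fun b hb => (Finset.mem_filter.1 hb).2) (f a)
    have hkπ : ∀ b, k b = if π a b then f a else 1 := fun b => by
      by_cases hb : π a b
      · rw [if_pos hb, ← hka, hb k hk]
      · rw [if_neg hb]; exact hk1 b (by simp [hb])
    have hmem : k⁻¹ * f ∈ fixSub π :=
      (fixSub π).mul_mem ((fixSub π).inv_mem fun x y hxy => hxy k hk) hf
    have hlt : (Finset.univ.filter fun b => (k⁻¹ * f) b ≠ 1).card < n := by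
      rw [← hn]
      refine Finset.card_lt_card ((Finset.ssubset_iff_of_subset fun b hb => ?_).2
        ⟨a, by simp [ha], by simp [hka]⟩)
      simp only [Finset.mem_filter, Finset.mem_univ, true_and, Pi.mul_apply, Pi.inv_apply,
        ne_eq] at hb ⊢
      intro hfb
      rw [hkπ, hfb] at hb
      by_cases hab : π a b
      · exact ha ((hf a b hab).trans hfb)
      · simp [hab] at hb
    simpa using K.mul_mem hk (ih _ hlt hmem rfl)

end Duality

open Duality in
/-- Kurzweil–Netter: the dual of a congruence lattice is a congruence lattice. -/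
theorem IsConLattice.dual {ι : Type*} {R : ι → ι → Prop} (h : IsConLattice R) :
    IsConLattice (fun i j => R j i) := by
  classical
  obtain ⟨A, _, _, m, ar, op, e, he⟩ := h
  let D : Subgroup (A → T) := fixSub (⊤ : Setoid A)
  let Tr : Type := Σ k : Fin m, Fin (ar k) × (Fin (ar k) → A)
  let tr : Tr → A → A := fun t x => op t.1 (Function.update t.2.2 t.2.1 x)
  let star : Tr → (A → T) ⧸ D → (A → T) ⧸ D := fun t => Quotient.map' (fun g : (A → T) => g ∘ tr t) fun g g' hg => by
    rw [QuotientGroup.leftRel_apply] at hg ⊢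
    exact fun a b _ => hg (tr t a) (tr t b) trivial
  let opX : ∀ s : (A → T) ⊕ Tr, (Fin 1 → (A → T) ⧸ D) → (A → T) ⧸ D := fun s =>
    match s with
    | Sum.inl g => fun u => g • u 0
    | Sum.inr t => fun u => star t (u 0)
  let Cpt : Setoid A → Prop := fun π => ∀ k a b, (∀ l, π (a l) (b l)) → π (op k a) (op k b)
  have htr : ∀ π, Cpt π ↔ ∀ t a b, π a b → π (tr t a) (tr t b) := by
    intro π
    constructor
    · intro h t a b hab
      refine h _ _ _ fun l => ?_
      by_cases hl : l = t.2.1
      · subst hl; simpa using hab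
      · simp only [Function.update_of_ne hl]; exact π.refl _
    · intro h k a b hab
      let z : Finset (Fin (ar k)) → Fin (ar k) → A := fun s l => if l ∈ s then b l else a l
      have hz : ∀ s, π (op k a) (op k (z s)) := by
        intro s
        induction s using Finset.induction with
        | empty => simp [z]
        | insert j s hj ih =>
          refine π.trans ih ?_
          have h1 : z s = Function.update (z s) j (a j) := by
            simp [z, hj]
          have h2 : z (insert j s) = Function.update (z s) j (b j) := by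
            funext l
            by_cases hl : l = j
            · subst hl; simp [z]
            · simp [z, hl]
          have := h ⟨k, j, z s⟩ _ _ (hab j)
          simp only [tr] at this
          rwa [← h1, ← h2] at this
      simpa [z] using hz Finset.univ
  have hD : ∀ π : Setoid A, D ≤ fixSub π := fun π => fixSub_le_iff.2 le_top
  let mkS : Setoid A → Setoid ((A → T) ⧸ D) := fun π =>
    ⟨fun p q => p.out⁻¹ * q.out ∈ fixSub π, fun p => by simp [(fixSub π).one_mem],
      fun {p q} h => by simpa [mul_assoc] using (fixSub π).inv_mem h,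
      fun {p q r} h h' => by simpa [mul_assoc] using (fixSub π).mul_mem h h'⟩
  have hmk : ∀ (π : Setoid A) (x y : (A → T)),
      (mkS π) (x : (A → T) ⧸ D) (y : (A → T) ⧸ D) ↔ x⁻¹ * y ∈ fixSub π := by
    intro π x y
    obtain ⟨⟨d, hd⟩, hxd⟩ := QuotientGroup.mk_out_eq_mul D x
    obtain ⟨⟨c, hc⟩, hyc⟩ := QuotientGroup.mk_out_eq_mul D y
    change (QuotientGroup.mk x : (A → T) ⧸ D).out⁻¹ * (QuotientGroup.mk y : (A → T) ⧸ D).out ∈ fixSub π ↔ _
    rw [hxd, hyc, mul_inv_rev, mul_assoc, Subgroup.mul_mem_cancel_left _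
      ((fixSub π).inv_mem (hD π hd)), ← mul_assoc,
      Subgroup.mul_mem_cancel_right _ (hD π hc)]
  let Cong := {θ : Setoid ((A → T) ⧸ D) //
    ∀ s u v, (∀ l, θ (u l) (v l)) → θ (opX s u) (opX s v)}
  have hmkC : ∀ π, Cpt π → ∀ s u v, (∀ l, (mkS π) (u l) (v l)) →
      (mkS π) (opX s u) (opX s v) := by
    intro π hπ s u v huv
    obtain ⟨x, hx⟩ := QuotientGroup.mk_surjective (u 0)
    obtain ⟨y, hy⟩ := QuotientGroup.mk_surjective (v 0)
    have hxy : x⁻¹ * y ∈ fixSub π := by rw [← hmk]; rw [hx, hy]; exact huv 0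
    rcases s with g | t
    · change (mkS π) (g • u 0) (g • v 0)
      rw [← hx, ← hy, MulAction.Quotient.smul_coe, MulAction.Quotient.smul_coe, hmk]
      simpa [mul_assoc] using hxy
    · change (mkS π) (star t (u 0)) (star t (v 0))
      rw [← hx, ← hy]
      exact (hmk π (x ∘ tr t) (y ∘ tr t)).2 fun a b hab =>
        hxy (tr t a) (tr t b) ((htr π).1 hπ t a b hab)
  let F : ι → Cong := fun i => ⟨mkS (e i).1, hmkC _ (e i).2⟩
  have hle : ∀ i j, R j i ↔ (F i).1 ≤ (F j).1 := by
    intro i j
    rw [he, ← fixSub_le_iff]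
    constructor
    · exact fun h p q hpq => h hpq
    · intro h g hg
      simpa [hmk] using h (x := ((1 : (A → T)) : (A → T) ⧸ D)) (y := (g : (A → T) ⧸ D))
        ((hmk _ 1 g).2 (by simpa using hg))
  have hF : Function.Bijective F := by
    refine ⟨fun i j hij => ?_, fun θ => ?_⟩
    · exact e.injective (Subtype.ext (le_antisymm ((he i j).1 ((hle j i).2 (le_of_eq (by rw [hij]))))
        ((he j i).1 ((hle i j).2 (le_of_eq (by rw [hij]))))))
    · let θ' : Setoid (A → T) := Setoid.comap (fun g => (g : (A → T) ⧸ D)) θ.1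
      have hsm : ∀ g x y : (A → T), θ' x y → θ' (g * x) (g * y) := fun g x y h =>
        θ.2 (Sum.inl g) (fun _ => (x : (A → T) ⧸ D)) (fun _ => (y : (A → T) ⧸ D)) fun _ => h
      let K : Subgroup (A → T) :=
        { carrier := {g | θ' 1 g}
          mul_mem' := fun {x y} hx hy => θ'.trans hx (by simpa using hsm x 1 y hy)
          one_mem' := θ'.refl 1
          inv_mem' := fun {x} hx => θ'.symm (by simpa using hsm x⁻¹ 1 x hx) }
      have hK : ∀ t : T, (fun _ => t) ∈ K := fun t => by
        have : ((1 : (A → T)) : (A → T) ⧸ D) = ((fun _ => t : (A → T)) : (A → T) ⧸ D) :=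
          QuotientGroup.eq.2 fun a b _ => by simp
        change θ.1 ((1 : A → T) : (A → T) ⧸ D) ((fun _ => t : A → T) : (A → T) ⧸ D)
        rw [this]
      obtain ⟨π, hπ⟩ := exists_fixSub_eq K hK
      have hπC : Cpt π := (htr π).2 fun t a b hab => by
        by_contra hn
        obtain ⟨u, hu⟩ := exists_ne (1 : T)
        let g : (A → T) := fun x => if π (tr t a) x then u else 1
        have hg : g ∈ fixSub π := fun x y hxy => by
          have : π (tr t a) x ↔ π (tr t a) y :=
            ⟨fun h => π.trans h hxy, fun h => π.trans h (π.symm hxy)⟩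
          simp only [g, this]
        have hgt : g ∘ tr t ∈ K :=
          θ.2 (Sum.inr t) (fun _ => ((1 : (A → T)) : (A → T) ⧸ D)) (fun _ => (g : (A → T) ⧸ D))
            fun _ => (hπ ▸ hg : g ∈ K)
        have := (hπ ▸ hgt : g ∘ tr t ∈ fixSub π) a b hab
        simp only [g, Function.comp_apply, if_pos (π.refl _), if_neg hn] at this
        exact hu this
      refine ⟨e.symm ⟨π, hπC⟩, Subtype.ext (Setoid.ext fun p q => ?_)⟩
      obtain ⟨x, rfl⟩ := QuotientGroup.mk_surjective p
      obtain ⟨y, rfl⟩ := QuotientGroup.mk_surjective q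
      change (mkS (e (e.symm ⟨π, hπC⟩)).1) _ _ ↔ _
      rw [Equiv.apply_symm_apply, hmk, hπ]
      exact ⟨fun h => (show θ' x y by simpa using hsm x 1 (x⁻¹ * y) h),
        fun h => (show θ' 1 (x⁻¹ * y) by simpa using hsm x⁻¹ x y h)⟩
  exact IsConLattice.of_ops (fun _ => 1) opX (Equiv.ofBijective F hF) hle

end Vale.Agent.P183
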