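import Vale.Agent.P183.Small78
import Vale.Agent.P183.EnumTable

/-!
Every lattice with at most seven elements is isomorphic to one of the coded orders of `small78`.
-/

namespace Vale.Agent.P183

namespace Enum

/-- The bit of the pair `0 < i < j` of middle elements. -/
def pairIdx (i j : ℕ) : ℕ := (j - 1) * (j - 2) / 2 + (i - 1)

/-- The number of pairs of middle elements. -/
def numPairs (n : ℕ) : ℕ := (n - 2) * (n - 3) / 2

/-- The order on `0, …, n-1` with least and greatest element, coded by the bits of `m`. -/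
def ordB (n m i j : ℕ) : Bool :=
  i == j || i == 0 || j + 1 == n || (decide (i < j) && m.testBit (pairIdx i j))

def ubB (n m i j s : ℕ) : Bool := ordB n m i s && ordB n m j s

def lubB (n m i j s : ℕ) : Bool :=
  ubB n m i j s && (List.range n).all fun u => !ubB n m i j u || ordB n m s u

/-- The coded order is a lattice order. -/
def latB (n m : ℕ) : Bool :=
  ((List.range n).all fun i => (List.range n).all fun j => !ordB n m i j ||
    (List.range n).all fun k => !ordB n m j k || ordB n m i k) &&
  (List.range n).all fun i => (List.range n).all fun j => (List.range n).any fun s => lubB n m i j s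

/-- The image of `i` in a certificate. -/
def perm (c i : ℕ) : ℕ := c / 128 / 8 ^ i % 8

/-- The coded order of a certificate. -/
def target (c : ℕ) : ℕ × ℕ := small78.getD (c % 128 - 1) (0, 0)

def certB (n m c : ℕ) : Bool :=
  decide (1 ≤ c % 128) && decide (c % 128 ≤ 78) && (target c).1 == n &&
    ((List.range n).all fun i => decide (perm c i < n) &&
      (List.range i).all fun j => perm c i != perm c j) &&
    (List.range n).all fun i => (List.range n).all fun j =>
      (target c).2.testBit (n * perm c i + perm c j) == ordB n m i j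

def rowB (n : ℕ) : List ℕ → ℕ → Bool
  | [], m => m == 2 ^ numPairs n
  | c :: t, m => (if c = 0 then !latB n m else certB n m c) && rowB n t (m + 1)

theorem rowB_sound (n : ℕ) : ∀ (t : List ℕ) (a : ℕ), rowB n t a = true →
    ∀ m, a ≤ m → m < 2 ^ numPairs n → latB n m = true → ∃ c, certB n m c = true
  | [], a, h, m, h1, h2, _ => by
    simp only [rowB, beq_iff_eq] at h
    omega
  | c :: t, a, h, m, h1, h2, h3 => by
    simp only [rowB, Bool.and_eq_true] at h
    rcases eq_or_lt_of_le h1 with rfl | h1
    · by_cases hc : c = 0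
      · rw [if_pos hc, h3] at h; simp at h
      · exact ⟨c, by simpa [hc] using h.1⟩
    · exact rowB_sound n t (a + 1) h.2 m h1 h2 h3

set_option maxRecDepth 100000 in
theorem rows_check : ∀ n : Fin 7, rowB (n + 1) (table.getD (n + 1) []) 0 = true := by
  decide +kernel

theorem pairIdx_check : ∀ n : Fin 8, ∀ i j i' j' : Fin n.val,
    (0 < i.val ∧ i < j ∧ j.val + 1 < n.val) → (0 < i'.val ∧ i' < j' ∧ j'.val + 1 < n.val) →
      pairIdx i j < numPairs n ∧
        (pairIdx i j = pairIdx i' j' → i = i' ∧ j = j') := by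
  decide +kernel

theorem ordB_true_iff {n : ℕ} (hn : n < 8) {r : Fin n → Fin n → Prop} (hrefl : ∀ i, r i i)
    (hbot : ∀ i j : Fin n, i.val = 0 → r i j) (htop : ∀ i j : Fin n, j.val + 1 = n → r i j)
    (hmono : ∀ i j, r i j → i ≤ j) :
    ∃ m < 2 ^ numPairs n, ∀ i j : Fin n, ordB n m i j = true ↔ r i j := by
  classical
  let f : Fin (numPairs n) → Bool := fun t => decide (∃ i j : Fin n,
    0 < i.val ∧ i < j ∧ j.val + 1 < n ∧ pairIdx i j = t.val ∧ r i j)
  refine ⟨Nat.ofBits f, Nat.ofBits_lt_two_pow f, fun i j => ?_⟩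
  simp only [ordB, Bool.or_eq_true, Bool.and_eq_true, beq_iff_eq, decide_eq_true_eq]
  constructor
  · rintro (((h | h) | h) | ⟨h, hb⟩)
    · rw [Fin.ext h]; exact hrefl j
    · exact hbot i j h
    · exact htop i j h
    · rcases Nat.eq_zero_or_pos i.val with h0 | h0
      · exact hbot i j h0
      by_cases hj : j.val + 1 = n
      · exact htop i j hj
      have hj' : j.val + 1 < n := by have := j.isLt; omega
      have hp := (pairIdx_check ⟨n, hn⟩ i j i j ⟨h0, h, hj'⟩ ⟨h0, h, hj'⟩).1
      rw [Nat.testBit_ofBits_lt f _ hp] at hb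
      obtain ⟨i', j', h1, h2, h3, h4, h5⟩ := of_decide_eq_true hb
      obtain ⟨e1, e2⟩ :=
        (pairIdx_check ⟨n, hn⟩ i' j' i j ⟨h1, h2, h3⟩ ⟨h0, h, hj'⟩).2 h4
      exact e1 ▸ e2 ▸ h5
  · intro h
    by_cases he : i.val = j.val
    · exact Or.inl (Or.inl (Or.inl he))
    by_cases h0 : i.val = 0
    · exact Or.inl (Or.inl (Or.inr h0))
    by_cases hj : j.val + 1 = n
    · exact Or.inl (Or.inr hj)
    have hlt : i < j := lt_of_le_of_ne (hmono i j h) fun e => he (congrArg Fin.val e)
    have hj' : j.val + 1 < n := by have := j.isLt; omega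
    have h0' : 0 < i.val := Nat.pos_of_ne_zero h0
    refine Or.inr ⟨hlt, ?_⟩
    rw [Nat.testBit_ofBits_lt f _ (pairIdx_check ⟨n, hn⟩ i j i j ⟨h0', hlt, hj'⟩ ⟨h0', hlt, hj'⟩).1]
    exact decide_eq_true ⟨i, j, h0', hlt, hj', rfl, h⟩

/-- A lattice with at most seven elements is isomorphic to a coded order. -/
theorem exists_iso (L : Type*) [Lattice L] [Finite L] [Nonempty L] (hL : Nat.card L ≤ 7) :
    ∃ c ∈ small78, ∃ e : L ≃ Fin c.1, ∀ a b : L, a ≤ b ↔ maskRel c (e a) (e b) := by
  classical
  have := Fintype.ofFinite L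
  have hn0 : 0 < Fintype.card L := Fintype.card_pos
  have hn8 : Fintype.card L < 8 := by rw [Nat.card_eq_fintype_card] at hL; omega
  let : Fintype (LinearExtension L) := inferInstanceAs (Fintype L)
  set n := Fintype.card L with hn
  let g : Fin n ≃o LinearExtension L := Fintype.orderIsoFinOfCardEq _ rfl
  let ext : L ≃ LinearExtension L := Equiv.refl L
  have hext : ∀ a b : L, a ≤ b → ext a ≤ ext b := fun a b h =>
    (toLinearExtension (α := L)).monotone' h
  let f : L ≃ Fin n := ext.trans g.symm.toEquiv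
  have hf : ∀ a b : L, a ≤ b → f a ≤ f b := fun a b h =>
    g.symm.monotone (hext a b h)
  let : OrderBot L := Fintype.toOrderBot L
  let : OrderTop L := Fintype.toOrderTop L
  have hb : (f ⊥).val = 0 := by
    have := hf ⊥ (f.symm ⟨0, hn0⟩) bot_le
    rw [f.apply_symm_apply] at this
    exact Nat.le_zero.1 this
  have ht : (f ⊤).val + 1 = n := by
    have := hf (f.symm ⟨n - 1, by omega⟩) ⊤ le_top
    rw [f.apply_symm_apply, Fin.le_def] at this
    have := (f ⊤).isLt
    simp only at *
    omega
  let r : Fin n → Fin n → Prop := fun i j => f.symm i ≤ f.symm j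
  obtain ⟨m, hm, hr⟩ := ordB_true_iff hn8 (r := r) (fun i => le_refl _)
    (fun i j h => by
      have : i = f ⊥ := Fin.ext (h.trans hb.symm)
      simp [r, this])
    (fun i j h => by
      have : j = f ⊤ := Fin.ext (by omega)
      simp [r, this])
    (fun i j h => by simpa using hf _ _ h)
  have hr' : ∀ a b : L, ordB n m (f a) (f b) = true ↔ a ≤ b := fun a b => by
    rw [hr]; simp [r]
  have hlat : latB n m = true := by
    simp only [latB, lubB, ubB, Bool.and_eq_true, List.all_eq_true, List.any_eq_true,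
      List.mem_range, Bool.or_eq_true, Bool.not_eq_true']
    refine ⟨fun i hi j hj => ?_, fun i hi j hj => ?_⟩
    · obtain ⟨a, ha⟩ := f.surjective ⟨i, hi⟩
      obtain ⟨b, hb'⟩ := f.surjective ⟨j, hj⟩
      rw [show i = (f a).val by rw [ha], show j = (f b).val by rw [hb']]
      by_cases hab : a ≤ b
      · refine Or.inr fun k hk => ?_
        obtain ⟨c, hc⟩ := f.surjective ⟨k, hk⟩
        rw [show k = (f c).val by rw [hc]]
        by_cases hbc : b ≤ c
        · exact Or.inr ((hr' a c).2 (hab.trans hbc))
        · exact Or.inl (Bool.eq_false_iff.2 fun h => hbc ((hr' b c).1 h))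
      · exact Or.inl (Bool.eq_false_iff.2 fun h => hab ((hr' a b).1 h))
    · obtain ⟨a, ha⟩ := f.surjective ⟨i, hi⟩
      obtain ⟨b, hb'⟩ := f.surjective ⟨j, hj⟩
      rw [show i = (f a).val by rw [ha], show j = (f b).val by rw [hb']]
      refine ⟨f (a ⊔ b), (f (a ⊔ b)).isLt,
        ⟨(hr' _ _).2 le_sup_left, (hr' _ _).2 le_sup_right⟩, fun u hu => ?_⟩
      obtain ⟨c, hc⟩ := f.surjective ⟨u, hu⟩
      rw [show u = (f c).val by rw [hc]]
      by_cases h : a ≤ c ∧ b ≤ c
      · exact Or.inr ((hr' _ _).2 (sup_le h.1 h.2))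
      · refine Or.inl (Bool.eq_false_iff.2 fun h' => h ?_)
        rw [Bool.and_eq_true] at h'
        exact ⟨(hr' _ _).1 h'.1, (hr' _ _).1 h'.2⟩
  have hrow : rowB n (table.getD n []) 0 = true := by
    have := rows_check ⟨n - 1, by omega⟩
    rwa [show n - 1 + 1 = n by omega] at this
  obtain ⟨c, hc⟩ := rowB_sound n _ 0 hrow m (Nat.zero_le _) hm hlat
  simp only [certB, Bool.and_eq_true, decide_eq_true_eq, List.all_eq_true, List.mem_range,
    bne_iff_ne, beq_iff_eq] at hc
  obtain ⟨⟨⟨⟨hc1, hc2⟩, hc3⟩, hc4⟩, hc5⟩ := hc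
  have hmem : target c ∈ small78 := by
    rw [target, List.getD_eq_getElem _ _ (show c % 128 - 1 < small78.length by
      have : small78.length = 78 := rfl
      omega)]
    exact List.getElem_mem _
  let p : Fin n → Fin (target c).1 := fun i => ⟨perm c i, by rw [hc3]; exact (hc4 _ i.isLt).1⟩
  have hpinj : Function.Injective p := by
    intro i j h
    have h' : perm c i = perm c j := congrArg Fin.val h
    rcases lt_trichotomy i.val j.val with hl | hl | hl
    · exact absurd h'.symm ((hc4 _ j.isLt).2 _ hl)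
    · exact Fin.ext hl
    · exact absurd h' ((hc4 _ i.isLt).2 _ hl)
  have hpbij : Function.Bijective p :=
    (Fintype.bijective_iff_injective_and_card p).2 ⟨hpinj, by simp [hc3]⟩
  refine ⟨_, hmem, f.trans (Equiv.ofBijective p hpbij), fun a b => ?_⟩
  rw [← hr' a b]
  show _ ↔ (target c).2.testBit ((target c).1 * perm c (f a) + perm c (f b)) = true
  rw [hc3, hc5 _ (f a).isLt _ (f b).isLt]

end Enum

/-- The check on the coded orders suffices for all lattices with at most seven elements. -/
theorem of_small78 (h : ∀ c ∈ small78, IsConLattice (maskRel c)) (L : Type*) [Lattice L]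
    [Finite L] [Nonempty L] (hL : Nat.card L ≤ 7) : IsConLattice (fun a b : L => a ≤ b) := by
  obtain ⟨c, hc, e, he⟩ := Enum.exists_iso L hL
  exact IsConLattice.congr e he (h c hc)

end Vale.Agent.P183
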