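import Vale.Agent.P183.Closure

/-! The product of two congruence lattices is a congruence lattice. -/

namespace Vale.Agent.P183

/-- Direct products: the rectangular band operation makes every congruence a product. -/
theorem IsConLattice.prod {ι κ : Type*} {R : ι → ι → Prop} {S : κ → κ → Prop}
    (hR : IsConLattice R) (hS : IsConLattice S) :
    IsConLattice (fun p q : ι × κ => R p.1 q.1 ∧ S p.2 q.2) := by
  classical
  obtain ⟨A, _, _, m, ar, op, e, he⟩ := hR
  obtain ⟨B, _, _, m', ar', op', e', he'⟩ := hS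
  let K := (Fin m ⊕ Fin m') ⊕ Unit
  let arK : K → ℕ := Sum.elim (Sum.elim (fun k => ar k + 1) (fun k => ar' k + 1)) fun _ => 2
  let opK : ∀ k, (Fin (arK k) → A × B) → A × B := fun k =>
    match k with
    | Sum.inl (Sum.inl k) => fun u =>
      (op k fun i => (u i.castSucc).1, (u (Fin.last (ar k))).2)
    | Sum.inl (Sum.inr k) => fun u =>
      ((u (Fin.last (ar' k))).1, op' k fun i => (u i.castSucc).2)
    | Sum.inr () => fun u => ((u (0 : Fin 2)).1, (u (1 : Fin 2)).2)
  have hband : ∀ (θ : Setoid (A × B)),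
      (∀ k a b, (∀ l, θ (a l) (b l)) → θ (opK k a) (opK k b)) →
      ∀ {p q p' q' : A × B}, θ p q → θ p' q' → θ (p.1, p'.2) (q.1, q'.2) :=
    fun θ hθ p q p' q' h h' => hθ (Sum.inr ()) ![p, p'] ![q, q'] (by
      intro l
      match l with
      | ⟨0, _⟩ => exact h
      | ⟨1, _⟩ => exact h')
  obtain ⟨a₀⟩ := (inferInstance : Nonempty A)
  obtain ⟨b₀⟩ := (inferInstance : Nonempty B)
  let P := {θ : Setoid (A × B) // ∀ k a b, (∀ l, θ (a l) (b l)) → θ (opK k a) (opK k b)}
  let mk : ι × κ → P := fun p => ⟨(e p.1).1.prod (e' p.2).1, fun k a b hab => by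
    rcases k with (k | k) | u
    · exact ⟨(e p.1).2 k _ _ fun l => (hab l.castSucc).1, (hab (Fin.last (ar k))).2⟩
    · exact ⟨(hab (Fin.last (ar' k))).1, (e' p.2).2 k _ _ fun l => (hab l.castSucc).2⟩
    · exact ⟨(hab (0 : Fin 2)).1, (hab (1 : Fin 2)).2⟩⟩
  have hle : ∀ p q, (mk p).1 ≤ (mk q).1 ↔ R p.1 q.1 ∧ S p.2 q.2 := by
    intro p q
    rw [he, he']
    constructor
    · intro h
      refine ⟨fun {u v} huv => ?_, fun {u v} huv => ?_⟩
      · exact (h (x := (u, b₀)) (y := (v, b₀)) ⟨huv, Setoid.refl' _ _⟩).1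
      · exact (h (x := (a₀, u)) (y := (a₀, v)) ⟨Setoid.refl' _ _, huv⟩).2
    · exact fun h u v huv => ⟨h.1 huv.1, h.2 huv.2⟩
  have hinj : Function.Injective mk := by
    intro p q h
    refine Prod.ext (e.injective (Subtype.ext (le_antisymm ?_ ?_)))
      (e'.injective (Subtype.ext (le_antisymm ?_ ?_)))
    · exact (he _ _).1 ((hle p q).1 (by rw [h])).1
    · exact (he _ _).1 ((hle q p).1 (by rw [h])).1
    · exact (he' _ _).1 ((hle p q).1 (by rw [h])).2
    · exact (he' _ _).1 ((hle q p).1 (by rw [h])).2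
  have hsurj : Function.Surjective mk := by
    intro θ
    let α : Setoid A := Setoid.comap (fun u => (u, b₀)) θ.1
    let β : Setoid B := Setoid.comap (fun v => (a₀, v)) θ.1
    have hα : ∀ k a b, (∀ l, α (a l) (b l)) → α (op k a) (op k b) := fun k a b hab => by
      let u : Fin (ar k + 1) → A × B := Fin.snoc (fun l => (a l, b₀)) (a₀, b₀)
      let v : Fin (ar k + 1) → A × B := Fin.snoc (fun l => (b l, b₀)) (a₀, b₀)
      have hu : ∀ l, θ.1 (u l) (v l) := fun l => by
        refine Fin.lastCases ?_ (fun l => ?_) l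
        · simp only [u, v, Fin.snoc_last]; exact Setoid.refl' _ _
        · simp only [u, v, Fin.snoc_castSucc]; exact hab l
      have := θ.2 (Sum.inl (Sum.inl k)) u v hu
      simp only [opK, u, v, Fin.snoc_castSucc, Fin.snoc_last] at this
      exact this
    have hβ : ∀ k a b, (∀ l, β (a l) (b l)) → β (op' k a) (op' k b) := fun k a b hab => by
      let u : Fin (ar' k + 1) → A × B := Fin.snoc (fun l => (a₀, a l)) (a₀, b₀)
      let v : Fin (ar' k + 1) → A × B := Fin.snoc (fun l => (a₀, b l)) (a₀, b₀)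
      have hu : ∀ l, θ.1 (u l) (v l) := fun l => by
        refine Fin.lastCases ?_ (fun l => ?_) l
        · simp only [u, v, Fin.snoc_last]; exact Setoid.refl' _ _
        · simp only [u, v, Fin.snoc_castSucc]; exact hab l
      have := θ.2 (Sum.inl (Sum.inr k)) u v hu
      simp only [opK, u, v, Fin.snoc_castSucc, Fin.snoc_last] at this
      exact this
    refine ⟨(e.symm ⟨α, hα⟩, e'.symm ⟨β, hβ⟩), Subtype.ext (Setoid.ext fun p q => ?_)⟩
    show (e (e.symm _)).1.prod (e' (e'.symm _)).1 p q ↔ θ.1 p q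
    rw [e.apply_symm_apply, e'.apply_symm_apply]
    constructor
    · exact fun h => hband θ.1 θ.2 (p := (p.1, b₀)) (q := (q.1, b₀)) (p' := (a₀, p.2))
        (q' := (a₀, q.2)) h.1 h.2
    · exact fun h => ⟨hband θ.1 θ.2 h (Setoid.refl' _ (a₀, b₀)),
        hband θ.1 θ.2 (Setoid.refl' _ (a₀, b₀)) h⟩
  exact IsConLattice.of_ops arK opK (Equiv.ofBijective mk ⟨hinj, hsurj⟩)
    fun p q => (hle p q).symm

end Vale.Agent.P183
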