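import Vale.Agent.P183.Small

/-! The lattice with index 26 (a 2-chain and three atom-coatoms between bottom and top) is the
congruence lattice of a 16-element overalgebra: the regular action of S3 (whose congruences form
the lattice with four atoms) with two extra copies glued at two points of one C3-coset. -/

namespace Vale.Agent.P183

def cert26 : Small.Cert where
  N := 16
  ops := [
    [0, 1, 2, 3, 4, 5, 1, 2, 3, 4, 5, 0, 1, 2, 4, 5],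
    [1, 0, 4, 5, 2, 3, 0, 4, 5, 2, 3, 1, 0, 4, 2, 3],
    [2, 3, 0, 1, 5, 4, 3, 0, 1, 5, 4, 2, 3, 0, 5, 4],
    [3, 2, 5, 4, 0, 1, 2, 5, 4, 0, 1, 3, 2, 5, 0, 1],
    [4, 5, 1, 0, 3, 2, 5, 1, 0, 3, 2, 4, 5, 1, 3, 2],
    [5, 4, 3, 2, 1, 0, 4, 3, 2, 1, 0, 5, 4, 3, 1, 0],
    [0, 6, 7, 8, 9, 10, 6, 7, 8, 9, 10, 0, 6, 7, 9, 10],
    [11, 12, 13, 3, 14, 15, 12, 13, 3, 14, 15, 11, 12, 13, 14, 15],
    [0, 1, 2, 3, 4, 5, 0, 0, 0, 0, 0, 3, 3, 3, 3, 3]]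
  labs := [
    [0, 1, 2, 3, 4, 5, 6, 7, 8, 9, 10, 11, 12, 13, 14, 15],
    [0, 1, 1, 0, 0, 1, 6, 6, 0, 0, 6, 0, 12, 12, 0, 12],
    [0, 1, 1, 0, 0, 1, 6, 6, 0, 0, 6, 0, 6, 6, 0, 6],
    [0, 0, 2, 2, 4, 4, 0, 7, 7, 9, 9, 11, 11, 2, 14, 14],
    [0, 1, 0, 3, 1, 3, 6, 0, 8, 6, 8, 11, 12, 11, 12, 3],
    [0, 1, 2, 1, 2, 0, 6, 7, 6, 7, 0, 11, 1, 13, 13, 11],
    [0, 0, 0, 0, 0, 0, 0, 0, 0, 0, 0, 0, 0, 0, 0, 0]]

theorem rep26Small : IsConLattice (maskRel (7, 284795138548607)) :=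
  Small.isConLattice_of_check (C := cert26) (by decide +kernel)

end Vale.Agent.P183
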