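import Vale.Agent.P183.Trans

/-! The lattice with index 27 is the congruence lattice of a unary algebra on the 90 cosets of a
subgroup of S6 (group translations with further maps preserving seven chosen congruences). -/

namespace Vale.Agent.P183.Reps

def cert27 : Trans.Cert where
  N := 90
  ops := [
    1774167339394639958106009422463056035277568787211515628444362891382105463365672422555573495364746549947343209477773972080644911734484174364147802409546566332939557210803621619628654447896153878124269966237385735013120,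
    1859757635664859016705529251834250705596072548502975280082268031223925778915282209172384754599869191719618617722338368337695323288500977936973176468619286218170907276396723367042068889597968411336758296094432110313985,
    1837874174513751818665874448993808624474492106157806855504049811634693757589438228033076104942567815549835109309746930152744462310166409232189570857044191861808867071423293864830928225523739969161761183240104781611010]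
  labs := [
    1924985966302752783657820191302378434102737699309150937895434550983935679372628278692807536856790343595538860042353212056178215682497242772174073547137001241690109768481736580890622364389580145201453452879081087566080,
    193925778389548592461338187119301002063554471550468261074935114124693243988999112178626263656971632621811648149818880737905317184150477973240933261471744342285162889810308194216077877134552821516433806282013095887104,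
    193909669223349105481662340791489793117951484829334293907199814377238496919170055194758705234613893258196711801825232802131175099296169652925995893029254750998015911186652988631482035311189874712855310353495348084992,
    107737456307435619903100194966751025447144888219583093416866871185740654094640240752475933464189270377873157583193636009227393947343570399345049931312486914344106564151924328458104882807108068557082463934252490817792,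
    64808825860205304801002363577387966441150558638187925933417316802558757721802904683667233330747060615545418965064987107053327136717221448962601511768317912172422510415720964116812548603861795461688967377982142415104,
    172452903232666755592969934209694803859161403857475614050811816926703141915239759846220798965233510672738932287000013543800788542825202562897033240465543403866465289707098936534041289135521509652247000194525427794176,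
    0]
  cls := [
    1,
    309485009821345068724781057,
    464227514732721294823915521,
    309485009929436957339811841,
    2420360416689481171673217,
    151127256710855180422209,
    1237940039285380274899124223]
  down := [
    (0,0), (2,1), (1,2), (0,0), (0,0), (2,1), (1,2), (2,1), (1,2), (0,0), (2,1), (0,0), (1,2),
      (0,0), (2,1), (0,0), (1,2), (1,2), (2,1), (2,1), (1,2), (0,0), (2,1), (1,2), (0,0), (2,1),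
      (2,1), (0,0), (1,2), (0,0), (2,1), (1,2), (2,1), (1,2), (2,1), (1,2), (2,1), (0,0), (0,0),
      (2,1), (1,2), (0,0), (2,1), (1,2), (0,0), (2,1), (0,0), (0,0), (0,0), (1,2), (0,0), (2,1),
      (0,0), (0,0), (2,1), (1,2), (2,1), (0,0), (1,2), (2,1), (1,2), (0,0), (2,1), (1,2), (2,1),
      (1,2), (2,1), (2,1), (1,2), (2,1), (1,2), (0,0), (2,1), (2,1), (0,0), (0,0), (2,1), (0,0),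
      (1,2), (1,2), (0,0), (0,0), (2,1), (0,0), (1,2), (0,0), (1,2), (2,1), (2,1), (0,0)]
  base := [
    [],
    [],
    [(32,[0]), (32,[1,1,1]), (47,[1,1,1]), (47,[1,0,2,2,0,1])],
    [(40,[0]), (40,[1,0,1,1,0,2,2,0,2]), (42,[1,0,1,1,0,2,2,0,2]), (56,[1,0,1,0,2,0,2])],
    [(7,[0]), (7,[1,1,1]), (13,[1,1,1]), (16,[2,0,1]), (51,[2,0,1]), (16,[2,0,1,0]),
      (51,[2,0,1,0])],
    [(6,[0]), (6,[1,1,1]), (11,[1,1,1]), (10,[1,0,2]), (45,[1,0,2]), (10,[1,0,2,0]),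
      (45,[1,0,2,0])],
    [(1,[0]), (1,[1,0,1,1,0,2,2,0,2]), (3,[1,0,1,1,0,2,2,0,2]), (1,[1]), (3,[1]), (18,[1]),
      (29,[1]), (1,[1,0]), (3,[1,0]), (18,[1,0]), (29,[1,0]), (5,[1,0]), (12,[1,0]), (42,[1,0]),
      (1,[1,0,1,1,1]), (3,[1,0,1,1,1]), (18,[1,0,1,1,1]), (29,[1,0,1,1,1]), (5,[1,0,1,1,1]),
      (12,[1,0,1,1,1]), (42,[1,0,1,1,1]), (4,[1,0,1,1,1]), (9,[1,0,1,1,1]), (21,[1,0,1,1,1]),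
      (40,[1,0,1,1,1]), (11,[1,0,1,1,1]), (61,[1,0,1,1,1]), (1,[1,0,1,1,1,0]), (3,[1,0,1,1,1,0]),
      (18,[1,0,1,1,1,0]), (29,[1,0,1,1,1,0]), (42,[1,0,1,1,1,0]), (9,[1,0,1,1,1,0]),
      (40,[1,0,1,1,1,0]), (25,[1,0,1,1,1,0]), (39,[1,0,1,1,1,0]), (36,[1,0,1,1,1,0]),
      (56,[1,0,1,1,1,0]), (45,[1,0,1,1,1,0]), (63,[1,0,1,1,1,0]), (51,[1,0,1,1,1,0]),
      (87,[1,0,1,1,1,0]), (31,[1,0,1,1,1,0]), (46,[1,0,1,1,1,0]), (61,[0]), (13,[0]), (33,[0]),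
      (47,[0]), (58,[0]), (60,[0]), (83,[0]), (52,[0]), (69,[0]), (51,[1,0,1,1,0,2,2,0,2]),
      (14,[1,0,1,1,0,2,2,0,2]), (87,[1,0,1,1,0,2,2,0,2]), (26,[1,0,1,1,0,2,2,0,2]),
      (24,[1,0,1,1,0,2,2,0,2]), (38,[1,0,1,1,0,2,2,0,2]), (33,[1,0,1,1,0,2,2,0,2]),
      (58,[1,0,1,1,0,2,2,0,2]), (60,[1,0,1,1,0,2,2,0,2]), (83,[1,0,1,1,0,2,2,0,2]),
      (52,[1,0,1,1,0,2,2,0,2]), (69,[1,0,1,1,0,2,2,0,2]), (48,[1,0,1,1,0,2,2,0,2]),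
      (74,[1,0,1,1,0,2,2,0,2]), (73,[1,0,1,1,0,2,2,0,2]), (70,[1,0,1,1,0,2,2,0,2]),
      (35,[1,0,1,1,0,2,2,0,2]), (79,[1,0,1,1,0,2,2,0,2]), (37,[1]), (77,[1]), (48,[1]), (74,[1]),
      (35,[1]), (79,[1]), (41,[1]), (85,[1]), (22,[1]), (64,[1]), (37,[1,0]), (79,[1,0]),
      (85,[1,0]), (22,[1,0]), (88,[1,0]), (22,[1,0,1,1,1]), (50,[1,0,1,1,1])]]
  pr := [
    (0,[]),
    (6,[]),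
    (6,[(2,[2])]),
    (6,[(3,[0])]),
    (6,[(4,[0]), (2,[2])]),
    (6,[(5,[1,0,1,1,0,2,2,0,2]), (5,[2,0,1,1,0,1])]),
    (5,[]),
    (4,[]),
    (6,[(8,[0]), (15,[2,0,2,0])]),
    (6,[(9,[0]), (9,[1,0,1,0]), (2,[1,0,1])]),
    (5,[(10,[1,1,1])]),
    (5,[(11,[0])]),
    (6,[(12,[0]), (12,[1,1,1]), (5,[1,0,2,2,0])]),
    (4,[(13,[0])]),
    (6,[(14,[1,0,1,1,0,2,2,0,2]), (14,[1,1,1]), (8,[1,0,1,0,2,2])]),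
    (6,[(15,[2,0,2,0])]),
    (4,[(16,[1,1,1])]),
    (6,[(17,[0]), (17,[1,0,1,1,0,2,2,0,2]), (27,[1,0,1,1,0,2,2,0,2]), (58,[1,0,1,0,2]),
      (62,[1,0,1,0,2,0,2,2,0])]),
    (6,[(18,[1,0,1,1,0,2,2,0,2])]),
    (6,[(19,[1,0,1,1,0,2,2,0,2]), (19,[1,1,1]), (76,[1,1,1]), (19,[1,0,1,1,1,0,2,0,1]),
      (28,[1,0,2,0,2,2]), (43,[1,0,2,0,2,2,0])]),
    (6,[(20,[0]), (20,[1,0,1,1,0,2,2,0,2]), (22,[1,0,1,1,0,2,2,0,2]), (73,[1,0,1,0,2,2,0,2]),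
      (15,[2,0,2,0,1,1,0,1])]),
    (6,[(21,[0]), (12,[1,1,1]), (5,[1,0,2,2,0])]),
    (6,[(22,[0]), (22,[1,0,1,1,0,2,2,0,2]), (20,[1,0,1,1,0,2,2,0,2]), (73,[1,1,1]),
      (52,[2,0,1,0,1]), (33,[2,0,2,0,1,1,0,1]), (65,[1,0,1,0,2,2,0,2])]),
    (6,[(23,[1,0,1,1,0,2,2,0,2]), (23,[1,1,1]), (84,[1,1,1]), (34,[2,0,1,0,2]),
      (12,[2,0,1,0,1,1]), (38,[2,0,1,0,1,1,0]), (29,[0]), (18,[1,0,1,1,0,2,2,0,2])]),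
    (6,[(24,[0]), (14,[1,0,1,1,0,2,2,0,2]), (14,[1,1,1]), (8,[1,0,1,0,2,2])]),
    (6,[(25,[1,0,1,1,0,2,2,0,2]), (2,[2])]),
    (6,[(26,[0]), (38,[1,0,1,1,0,2,2,0,2]), (26,[1,1,1]), (17,[2,0,2,0,1,0]),
      (83,[2,0,2,0,1,0,1,1,0])]),
    (6,[(27,[0]), (17,[1,0,1,0,2,0]), (9,[1,0,1,0,2])]),
    (6,[(28,[1,0,1,1,0,2,2,0,2]), (14,[1,1,1]), (8,[1,0,1,0,2,2])]),
    (6,[(29,[0]), (18,[1,0,1,1,0,2,2,0,2])]),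
    (6,[(30,[0]), (44,[1,0,1,1,0,2,2,0,2]), (52,[1,0,2,0,1,1]), (65,[1,0,2,0,1,1,0])]),
    (6,[(31,[0]), (31,[1,1,1]), (46,[1,1,1]), (19,[1,0,2,0,2,2,0]), (32,[1,0,1,1,1,0,2,0,1]),
      (10,[1,1,1]), (6,[1,0,2,0,2,2])]),
    (2,[]),
    (6,[(33,[0]), (48,[1,0,1,1,0,2,2,0,2]), (15,[2,0,2,0])]),
    (6,[(34,[0]), (34,[1,1,1]), (50,[1,1,1]), (84,[2,0,1,0,1,1]), (46,[2,0,1,0,2]),
      (77,[2,0,1,1,1,0,1,0,2]), (38,[0]), (26,[2,0,1,0,1,1])]),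
    (6,[(35,[0]), (35,[1,0,1,1,0,2,2,0,2]), (52,[1,0,1,1,0,2,2,0,2]), (30,[1,1,1]),
      (20,[2,0,1,0,2,2]), (65,[1,0,2,0,1,1,0])]),
    (6,[(36,[1,0,1,1,0,2,2,0,2]), (5,[2,0,1,1,0,1])]),
    (6,[(37,[0]), (25,[1,0,1,1,0,2,2,0,2]), (2,[2])]),
    (6,[(38,[0]), (38,[1,0,1,1,0,2,2,0,2]), (26,[1,1,1]), (17,[2,0,2,0,1,0]),
      (83,[2,0,2,0,1,0,1,1,0])]),
    (6,[(39,[1,0,1,1,0,2,2,0,2]), (12,[1,1,1]), (5,[2,0,2,0,1,1]), (2,[1,0,2,2])]),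
    (3,[]),
    (6,[(41,[0]), (28,[1,0,1,1,0,2,2,0,2]), (14,[1,1,1]), (8,[1,0,1,0,2,2])]),
    (3,[(42,[0])]),
    (5,[(43,[0]), (43,[1,0,1,1,0,2,2,0,2]), (63,[1,0,1,1,1,0,2,0])]),
    (6,[(44,[0]), (44,[1,0,1,1,0,2,2,0,2]), (44,[1,1,1]), (52,[1,0,2,0,1,1]),
      (65,[1,0,1,0,2,2,0,2])]),
    (5,[(45,[1,0,1,1,0,2,2,0,2]), (10,[1,1,1])]),
    (6,[(46,[0]), (46,[1,1,1]), (31,[1,1,1]), (19,[1,0,1,1,1,0,2,0,1]), (28,[1,0,2,0,1]),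
      (43,[1,0,2,0,2,2,0])]),
    (2,[(47,[0])]),
    (6,[(48,[1,0,1,1,0,2,2,0,2]), (15,[2,0,2,0])]),
    (2,[(49,[1,1,1])]),
    (6,[(50,[0]), (50,[1,1,1]), (34,[1,1,1]), (84,[2,0,1,0,1,1,0]), (31,[2,0,1,0,1,1]),
      (61,[2,0,1,1,1,0,1,0,2]), (26,[2,0,1,0,2])]),
    (4,[(51,[1,0,1,1,0,2,2,0,2]), (16,[1,1,1])]),
    (6,[(52,[0]), (52,[1,0,1,1,0,2,2,0,2]), (35,[1,0,1,1,0,2,2,0,2]), (30,[1,1,1]),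
      (20,[2,0,1,0,2,2]), (65,[1,0,2,0,1,1,0])]),
    (6,[(53,[0]), (36,[1,0,1,1,0,2,2,0,2]), (5,[2,0,1,1,0,1])]),
    (4,[(54,[0]), (54,[1,0,1,1,0,2,2,0,2]), (67,[2,0,1,1,1,0,1,0])]),
    (3,[(55,[1,0,1,1,0,2,2,0,2])]),
    (3,[(56,[0]), (55,[1,0,1,1,0,2,2,0,2])]),
    (6,[(57,[0]), (57,[1,0,1,1,0,2,2,0,2]), (39,[1,0,1,1,0,2,2,0,2]), (12,[1,1,1]),
      (5,[1,0,2,2,0])]),
    (6,[(58,[0]), (58,[1,0,1,1,0,2,2,0,2]), (17,[1,1,1]), (26,[1,0,1,0,2,0,2,2]),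
      (86,[1,0,1,0,2,0,2,2,0]), (9,[1,0,1,0,2])]),
    (6,[(59,[0]), (59,[1,0,1,1,0,2,2,0,2]), (89,[1,1,1]), (80,[1,0,1,0,2,2,0,1]),
      (64,[1,0,1,0,2,2,0,1,0])]),
    (6,[(60,[0]), (73,[1,0,1,0,2,2,0,2]), (15,[2,0,2,0,1,1,0,1])]),
    (5,[(61,[0]), (43,[1,0,1,1,0,2,2,0,2]), (63,[1,0,1,1,1,0,2,0])]),
    (6,[(62,[0]), (64,[1,1,1]), (62,[1,0,2,2,0,1,0,1]), (32,[1,0,2,2,0,1,0,2,2])]),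
    (5,[(63,[0]), (63,[1,0,2,0,2,2,0,2,0])]),
    (6,[(64,[0]), (64,[1,1,1]), (62,[1,0,2,2,0,1,0,1]), (32,[1,0,2,2,0,1,0,2,2])]),
    (6,[(65,[0]), (65,[1,0,1,1,0,2,2,0,2]), (68,[1,0,1,1,0,2,2,0,2]), (65,[1,0,2,2,0,1,0,2]),
      (74,[1,0,2,2,0,2,0,1]), (30,[1,0,2,2,0,2,0,1,0])]),
    (6,[(66,[0]), (66,[1,0,1,1,0,2,2,0,2]), (66,[1,0,2,2,0,2,0,1,0]), (69,[1,0,2,2,0,1,0,2])]),
    (4,[(67,[0]), (67,[2,0,1,0,1,1,0,1,0])]),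
    (6,[(68,[0]), (68,[1,0,1,1,0,2,2,0,2]), (65,[1,0,1,1,0,2,2,0,2]), (80,[1,0,2,2,0,1,0,2]),
      (60,[1,0,2,2,0,2,0,1,0]), (5,[1,0,2,2,0,2,0,1])]),
    (6,[(69,[0]), (69,[1,0,1,1,0,2,2,0,2]), (69,[1,1,1]), (86,[1,1,1]), (83,[1,0,2,2,0,1,0,2,2]),
      (52,[1,0,1,0,2,0,2,2,0,2]), (38,[2,0,1,1,0,1,0,2])]),
    (6,[(70,[1,0,1,1,0,2,2,0,2]), (70,[1,1,1]), (69,[2,0,1,1,0,1,0,2]), (32,[1,0,2,2,0,1,0,1])]),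
    (4,[(71,[0]), (54,[1,0,1,1,0,2,2,0,2]), (67,[2,0,1,1,1,0,1,0])]),
    (6,[(72,[0]), (72,[1,0,1,1,0,2,2,0,2]), (85,[2,0,2,0,1,0,1,1,0]), (5,[2,0,2,0,1])]),
    (6,[(73,[0]), (60,[1,0,1,1,0,2,2,0,2]), (73,[1,1,1]), (20,[1,1,1]), (30,[2,0,2,0,1,1,0,1]),
      (15,[2,0,1,0,2,2,0])]),
    (6,[(74,[0]), (74,[1,0,1,1,0,2,2,0,2]), (58,[1,0,1,1,0,2,2,0,2]), (17,[1,0,1,0,2,0]),
      (9,[1,0,1,0,2])]),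
    (6,[(75,[0]), (75,[1,0,1,1,0,2,2,0,2]), (59,[1,0,1,1,0,2,2,0,2]), (89,[2,0,1,0,1,1,0,1,1]),
      (52,[2,0,1,0,1,1,0,1,1,0])]),
    (6,[(76,[1,0,1,1,0,2,2,0,2]), (76,[1,1,1]), (19,[1,0,1,1,1,0,2,0,1]), (28,[1,0,2,0,1]),
      (43,[1,0,2,0,2,2,0])]),
    (5,[(77,[0]), (63,[1,0,2,0,2,2,0,2,0])]),
    (6,[(78,[0]), (78,[1,1,1]), (62,[1,0,2,0,2,2,0,2,2]), (80,[1,0,1,0,2,0,2,2,0,2])]),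
    (6,[(79,[0]), (79,[1,0,1,1,0,2,2,0,2]), (69,[1,0,1,1,0,2,2,0,2]), (78,[1,1,1]),
      (62,[1,0,2,0,2,2,0,2,2]), (80,[1,0,1,0,2,0,2,2,0,2])]),
    (6,[(80,[0]), (66,[1,0,1,1,0,2,2,0,2]), (66,[1,0,2,2,0,2,0,1,0]), (69,[1,0,2,2,0,1,0,2])]),
    (4,[(81,[0]), (67,[2,0,1,0,1,1,0,1,0])]),
    (6,[(82,[0]), (89,[2,0,1,0,1,1,0,1,1]), (52,[2,0,1,0,1,1,0,1,1,0])]),
    (6,[(83,[0]), (70,[1,0,1,1,0,2,2,0,2]), (70,[1,1,1]), (69,[2,0,1,1,0,1,0,2]),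
      (32,[1,0,2,2,0,1,0,1])]),
    (6,[(84,[1,0,1,1,0,2,2,0,2]), (84,[1,1,1]), (23,[1,1,1]), (34,[2,0,1,0,2]),
      (12,[2,0,1,0,1,1,0]), (26,[2,0,1,0,1,1])]),
    (6,[(85,[0]), (72,[1,0,1,1,0,2,2,0,2]), (85,[2,0,2,0,1,0,1,1,0]), (5,[2,0,2,0,1])]),
    (6,[(86,[0]), (86,[1,0,1,1,0,2,2,0,2]), (78,[1,0,1,1,0,2,2,0,2]), (79,[1,0,1,0,2,0,2,2,0,2]),
      (30,[1,0,2,0,2,2,0,2,2]), (26,[2,0,1,0,2,2,0,1])]),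
    (2,[(87,[1,0,1,1,0,2,2,0,2]), (49,[1,1,1])]),
    (1,[]),
    (6,[(89,[0]), (89,[1,0,1,1,0,2,2,0,2]), (82,[1,0,1,1,0,2,2,0,2]), (89,[1,1,1]),
      (80,[1,0,1,0,2,2,0,1]), (64,[1,0,1,0,2,2,0,1,0])])]
  js := [
    (0,[]),
    (1,[]),
    (2,[]),
    (3,[]),
    (4,[]),
    (5,[]),
    (6,[]),
    (1,[]),
    (1,[]),
    (2,[]),
    (3,[]),
    (6,[(88,[2,0,1]), (88,[2,0,1,0]), (88,[2,0,2,2]), (31,[2,0,2,2]), (76,[2,0,1,0,1,1,1]),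
      (19,[2,0,1,0,1,1,1]), (88,[2,0,1,1,1,0,1]), (19,[2,0,1,1,1,0,1]), (7,[1,0,2,0,2,2,0,2,0,1]),
      (13,[1,0,2,0,2,2,0,2,0,1]), (16,[1,0,2,0,2,2,0,2,0,1]), (51,[1,0,2,0,2,2,0,2,0,1]),
      (54,[1,0,2,0,2,2,0,2,0,1]), (67,[1,0,2,0,2,2,0,2,0,1]), (71,[1,0,2,0,2,2,0,2,0,1]),
      (81,[1,0,2,0,2,2,0,2,0,1]), (46,[1,0,2,0,2,2,0,2,0,1]), (31,[1,0,2,0,2,2,0,2,0,1]),
      (76,[1,0,2,0,2,2,0,2,0,1]), (19,[1,0,2,0,2,2,0,2,0,1]), (3,[1,0,2,0,2,2,0,2,0,1]),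
      (1,[1,0,2,0,2,2,0,2,0,1]), (29,[1,0,2,0,2,2,0,2,0,1]), (18,[1,0,2,0,2,2,0,2,0,1]),
      (23,[2,0,1]), (84,[2,0,1]), (50,[2,0,1]), (2,[2,0,1]), (4,[2,0,1]), (25,[2,0,1]),
      (37,[2,0,1]), (45,[2,0,1]), (10,[2,0,1]), (6,[2,0,1]), (63,[2,0,1]), (43,[2,0,1]),
      (77,[2,0,1]), (61,[2,0,1]), (23,[2,0,1,0]), (84,[2,0,1,0]), (2,[2,0,1,0]), (4,[2,0,1,0]),
      (25,[2,0,1,0]), (37,[2,0,1,0]), (45,[2,0,1,0]), (10,[2,0,1,0]), (63,[2,0,1,0]),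
      (43,[2,0,1,0]), (77,[2,0,1,0]), (61,[2,0,1,0]), (23,[2,0,2,2]), (84,[2,0,2,2]),
      (50,[2,0,2,2]), (2,[2,0,2,2]), (25,[2,0,2,2]), (45,[2,0,2,2]), (10,[2,0,2,2]),
      (6,[2,0,2,2]), (77,[2,0,2,2]), (61,[2,0,2,2]), (79,[2,0,2,2]), (78,[2,0,2,2]),
      (38,[2,0,2,2]), (85,[2,0,2,2]), (33,[2,0,2,2]), (8,[2,0,2,2]), (58,[2,0,2,2]),
      (17,[2,0,2,2]), (83,[2,0,1,0,1,1,1]), (87,[2,0,1,0,1,1,1]), (12,[2,0,1,0,1,1,1]),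
      (28,[2,0,1,0,1,1,1]), (49,[2,0,1,0,1,1,1]), (68,[2,0,1,0,1,1,1]), (62,[2,0,1,0,1,1,1]),
      (39,[2,0,1,0,1,1,1]), (14,[2,0,1,0,1,1,1]), (80,[2,0,1,0,1,1,1]), (84,[2,0,1,1,1,0,1]),
      (10,[2,0,1,1,1,0,1])]),
    (6,[(88,[1,0,2]), (88,[1,0,1,1]), (88,[1,0,2,0]), (84,[1,0,2,0]), (88,[1,0,1,1,1,0,2]),
      (34,[1,0,1,1,1,0,2]), (25,[1,0,1,1,1,0,2]), (23,[1,0,2,0,1,1,1]), (6,[1,0,2,0,2,2,0,2,0,1]),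
      (10,[1,0,2,0,2,2,0,2,0,1]), (11,[1,0,2,0,2,2,0,2,0,1]), (43,[1,0,2,0,2,2,0,2,0,1]),
      (45,[1,0,2,0,2,2,0,2,0,1]), (61,[1,0,2,0,2,2,0,2,0,1]), (63,[1,0,2,0,2,2,0,2,0,1]),
      (77,[1,0,2,0,2,2,0,2,0,1]), (50,[1,0,2,0,2,2,0,2,0,1]), (84,[1,0,2,0,2,2,0,2,0,1]),
      (34,[1,0,2,0,2,2,0,2,0,1]), (25,[1,0,2,0,2,2,0,2,0,1]), (37,[1,0,2,0,2,2,0,2,0,1]),
      (4,[1,0,2,0,2,2,0,2,0,1]), (23,[1,0,2,0,2,2,0,2,0,1]), (2,[1,0,2,0,2,2,0,2,0,1]),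
      (19,[1,0,2]), (76,[1,0,2]), (1,[1,0,2]), (46,[1,0,2]), (18,[1,0,2]), (3,[1,0,2]),
      (29,[1,0,2]), (51,[1,0,2]), (16,[1,0,2]), (71,[1,0,2]), (81,[1,0,2]), (67,[1,0,2]),
      (7,[1,0,2]), (54,[1,0,2]), (19,[1,0,1,1]), (76,[1,0,1,1]), (1,[1,0,1,1]), (46,[1,0,1,1]),
      (18,[1,0,1,1]), (3,[1,0,1,1]), (51,[1,0,1,1]), (16,[1,0,1,1]), (71,[1,0,1,1]),
      (81,[1,0,1,1]), (67,[1,0,1,1]), (7,[1,0,1,1]), (19,[1,0,2,0]), (76,[1,0,2,0]),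
      (1,[1,0,2,0]), (18,[1,0,2,0]), (3,[1,0,2,0]), (51,[1,0,2,0]), (16,[1,0,2,0]),
      (71,[1,0,2,0]), (81,[1,0,2,0]), (67,[1,0,2,0]), (80,[1,0,2,0]), (14,[1,0,2,0]),
      (87,[1,0,2,0]), (24,[1,0,2,0]), (39,[1,0,2,0]), (64,[1,0,2,0]), (62,[1,0,2,0]),
      (49,[1,0,2,0]), (1,[1,0,1,1,1,0,2]), (46,[1,0,1,1,1,0,2]), (18,[1,0,1,1,1,0,2]),
      (71,[1,0,1,1,1,0,2]), (81,[1,0,1,1,1,0,2]), (7,[1,0,1,1,1,0,2]), (75,[1,0,1,1,1,0,2]),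
      (82,[1,0,1,1,1,0,2]), (36,[1,0,1,1,1,0,2]), (5,[1,0,1,1,1,0,2]), (35,[1,0,1,1,1,0,2]),
      (30,[1,0,1,1,1,0,2])]),
    (6,[]),
    (2,[]),
    (2,[]),
    (2,[]),
    (6,[(40,[1,0,2,2,0,1]), (42,[1,0,2,2,0,1]), (55,[1,0,2,2,0,1]), (56,[1,0,2,2,0,1]),
      (32,[1,0,1,0,2,0,2]), (47,[1,0,1,0,2,0,2]), (49,[1,0,1,0,2,0,2]), (87,[1,0,1,0,2,0,2]),
      (73,[1,0,1,0,2,0,2]), (20,[1,0,1,0,2,0,2]), (22,[1,0,1,0,2,0,2]), (60,[1,0,1,0,2,0,2]),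
      (32,[1,0,1,1,1,0,1]), (47,[1,0,1,1,1,0,1]), (49,[1,0,1,1,1,0,1]), (87,[1,0,1,1,1,0,1]),
      (73,[1,0,1,1,1,0,1]), (20,[1,0,1,1,1,0,1]), (22,[1,0,1,1,1,0,1]), (60,[1,0,1,1,1,0,1]),
      (54,[1,0,1,1,1,0,1]), (2,[1,0,1,1,1,0,1]), (77,[1,0,1,1,1,0,1]), (29,[1,0,1,1,1,0,1]),
      (38,[1,0,2,2,0,1,0]), (58,[1,0,2,2,0,1,0]), (72,[1,0,2,2,0,1,0]), (27,[1,0,2,2,0,1,0]),
      (54,[1,0,2,2,0,1,0]), (2,[1,0,2,2,0,1,0]), (77,[1,0,2,2,0,1,0]), (29,[1,0,2,2,0,1,0]),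
      (26,[1,0,2,2,0,1,0]), (74,[1,0,2,2,0,1,0]), (17,[1,0,2,2,0,1,0]), (85,[1,0,2,2,0,1,0]),
      (63,[1,0,2,2,0,1,0]), (18,[1,0,2,2,0,1,0]), (71,[1,0,2,2,0,1,0]), (4,[1,0,2,2,0,1,0]),
      (43,[1,0,2,2,0,1,0]), (1,[1,0,2,2,0,1,0]), (81,[1,0,2,2,0,1,0]), (37,[1,0,2,2,0,1,0]),
      (40,[1,0,2,2,0,2,2]), (42,[1,0,2,2,0,2,2]), (55,[1,0,2,2,0,2,2]), (56,[1,0,2,2,0,2,2]),
      (38,[1,0,2,2,0,2,2]), (58,[1,0,2,2,0,2,2]), (72,[1,0,2,2,0,2,2]), (27,[1,0,2,2,0,2,2]),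
      (54,[1,0,2,2,0,2,2]), (2,[1,0,2,2,0,2,2]), (77,[1,0,2,2,0,2,2]), (29,[1,0,2,2,0,2,2]),
      (26,[1,0,2,2,0,2,2]), (74,[1,0,2,2,0,2,2]), (17,[1,0,2,2,0,2,2]), (85,[1,0,2,2,0,2,2]),
      (63,[1,0,2,2,0,2,2]), (18,[1,0,2,2,0,2,2]), (71,[1,0,2,2,0,2,2]), (4,[1,0,2,2,0,2,2]),
      (43,[1,0,2,2,0,2,2]), (1,[1,0,2,2,0,2,2]), (81,[1,0,2,2,0,2,2]), (37,[1,0,2,2,0,2,2]),
      (33,[1,0,2,2,0,2,2]), (48,[1,0,2,2,0,2,2]), (69,[1,0,2,2,0,2,2]), (79,[1,0,2,2,0,2,2]),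
      (23,[2,0,1,1,1,0,2]), (45,[2,0,1,1,1,0,2]), (33,[2,0,1,1,1,0,2]), (79,[2,0,1,1,1,0,2]),
      (34,[2,0,1,1,1,0,2]), (11,[2,0,1,1,1,0,2]), (24,[2,0,1,1,1,0,2]), (64,[2,0,1,1,1,0,2])]),
    (6,[(32,[2,0,1]), (47,[2,0,1]), (49,[2,0,1]), (87,[2,0,1]), (88,[2,0,1]), (32,[2,0,1,0]),
      (47,[2,0,1,0]), (49,[2,0,1,0]), (87,[2,0,1,0]), (88,[2,0,1,0]), (32,[2,0,2,2]),
      (47,[2,0,2,2]), (49,[2,0,2,2]), (87,[2,0,2,2]), (88,[2,0,2,2]), (11,[2,0,2,2]),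
      (34,[2,0,2,2]), (35,[2,0,2,2]), (30,[2,0,2,2]), (31,[2,0,2,2]), (16,[1,0,2,2,0,1]),
      (51,[1,0,2,2,0,1]), (54,[1,0,2,2,0,1]), (67,[1,0,2,2,0,1]), (71,[1,0,2,2,0,1]),
      (81,[1,0,2,2,0,1]), (10,[1,0,2,2,0,1]), (84,[1,0,2,2,0,1]), (73,[1,0,2,2,0,1]),
      (60,[1,0,2,2,0,1]), (76,[1,0,2,2,0,1]), (23,[1,0,2,2,0,1]), (45,[1,0,2,2,0,1]),
      (22,[1,0,2,2,0,1]), (20,[1,0,2,2,0,1]), (19,[1,0,2,2,0,1]), (54,[1,0,2,2,0,1,0]),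
      (67,[1,0,2,2,0,1,0]), (71,[1,0,2,2,0,1,0]), (81,[1,0,2,2,0,1,0]), (54,[1,0,2,2,0,2,2]),
      (67,[1,0,2,2,0,2,2]), (71,[1,0,2,2,0,2,2]), (81,[1,0,2,2,0,2,2]), (5,[1,0,2,2,0,2,2]),
      (36,[1,0,2,2,0,2,2]), (69,[1,0,2,2,0,2,2]), (86,[1,0,2,2,0,2,2]), (10,[2,0,1,0,1,1,1]),
      (73,[2,0,1,0,1,1,1]), (76,[2,0,1,0,1,1,1]), (45,[2,0,1,0,1,1,1]), (22,[2,0,1,0,1,1,1]),
      (19,[2,0,1,0,1,1,1]), (38,[2,0,1,0,1,1,1]), (85,[2,0,1,0,1,1,1]), (79,[2,0,1,0,1,1,1]),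
      (78,[2,0,1,0,1,1,1]), (27,[2,0,1,0,1,1,1]), (40,[2,0,1,0,1,1,1]), (58,[2,0,1,0,1,1,1]),
      (74,[2,0,1,0,1,1,1]), (55,[2,0,1,0,1,1,1]), (17,[2,0,1,0,1,1,1]), (57,[2,0,1,0,1,1,1]),
      (64,[2,0,1,0,1,1,1]), (32,[2,0,1,1,1,0,1]), (49,[2,0,1,1,1,0,1]), (88,[2,0,1,1,1,0,1]),
      (23,[2,0,1,1,1,0,1]), (19,[2,0,1,1,1,0,1]), (9,[2,0,1,1,1,0,1]), (39,[2,0,1,1,1,0,1]),
      (57,[2,0,1,1,1,0,1]), (25,[2,0,1,1,1,0,1]), (37,[2,0,1,1,1,0,1])]),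
    (6,[(32,[1,0,2]), (47,[1,0,2]), (49,[1,0,2]), (87,[1,0,2]), (88,[1,0,2]), (32,[1,0,1,1]),
      (47,[1,0,1,1]), (49,[1,0,1,1]), (87,[1,0,1,1]), (88,[1,0,1,1]), (32,[1,0,2,0]),
      (47,[1,0,2,0]), (49,[1,0,2,0]), (87,[1,0,2,0]), (88,[1,0,2,0]), (16,[1,0,2,0]),
      (76,[1,0,2,0]), (60,[1,0,2,0]), (73,[1,0,2,0]), (84,[1,0,2,0]), (10,[1,0,2,2,0,1]),
      (43,[1,0,2,2,0,1]), (45,[1,0,2,2,0,1]), (61,[1,0,2,2,0,1]), (63,[1,0,2,2,0,1]),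
      (16,[1,0,2,2,0,1]), (76,[1,0,2,2,0,1]), (60,[1,0,2,2,0,1]), (73,[1,0,2,2,0,1]),
      (84,[1,0,2,2,0,1]), (5,[1,0,2,2,0,1]), (57,[1,0,2,2,0,1]), (66,[1,0,2,2,0,1]),
      (25,[1,0,2,2,0,1]), (32,[1,0,1,1,1,0,2]), (47,[1,0,1,1,1,0,2]), (49,[1,0,1,1,1,0,2]),
      (87,[1,0,1,1,1,0,2]), (88,[1,0,1,1,1,0,2]), (13,[1,0,1,1,1,0,2]), (31,[1,0,1,1,1,0,2]),
      (30,[1,0,1,1,1,0,2]), (35,[1,0,1,1,1,0,2]), (34,[1,0,1,1,1,0,2]), (5,[1,0,1,1,1,0,2]),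
      (82,[1,0,1,1,1,0,2]), (57,[1,0,1,1,1,0,2]), (66,[1,0,1,1,1,0,2]), (25,[1,0,1,1,1,0,2]),
      (15,[1,0,1,1,1,0,2]), (74,[1,0,1,1,1,0,2]), (48,[1,0,1,1,1,0,2]), (27,[1,0,2,0,1,1,1]),
      (15,[1,0,2,0,1,1,1]), (74,[1,0,2,0,1,1,1]), (58,[1,0,2,0,1,1,1]), (56,[1,0,2,0,1,1,1]),
      (72,[1,0,2,0,1,1,1]), (10,[1,0,2,2,0,1,0]), (43,[1,0,2,2,0,1,0]), (63,[1,0,2,2,0,1,0]),
      (60,[1,0,2,2,0,1,0]), (73,[1,0,2,2,0,1,0]), (84,[1,0,2,2,0,1,0]), (9,[1,0,2,2,0,1,0]),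
      (89,[1,0,2,2,0,1,0]), (39,[1,0,2,2,0,1,0]), (80,[1,0,2,2,0,1,0]), (37,[1,0,2,2,0,1,0]),
      (59,[1,0,2,2,0,1,0]), (53,[1,0,2,2,0,1,0]), (4,[1,0,2,2,0,1,0]), (64,[1,0,2,2,0,1,0]),
      (24,[1,0,2,2,0,1,0]), (9,[1,0,2,2,0,2,2]), (89,[1,0,2,2,0,2,2])]),
    (6,[]),
    (3,[]),
    (3,[]),
    (6,[(40,[1,0,2,2,0,1]), (42,[1,0,2,2,0,1]), (55,[1,0,2,2,0,1]), (56,[1,0,2,2,0,1]),
      (32,[1,0,1,0,2,0,2]), (47,[1,0,1,0,2,0,2]), (49,[1,0,1,0,2,0,2]), (87,[1,0,1,0,2,0,2]),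
      (73,[1,0,1,0,2,0,2]), (20,[1,0,1,0,2,0,2]), (22,[1,0,1,0,2,0,2]), (60,[1,0,1,0,2,0,2]),
      (32,[1,0,1,1,1,0,1]), (47,[1,0,1,1,1,0,1]), (49,[1,0,1,1,1,0,1]), (87,[1,0,1,1,1,0,1]),
      (73,[1,0,1,1,1,0,1]), (20,[1,0,1,1,1,0,1]), (22,[1,0,1,1,1,0,1]), (60,[1,0,1,1,1,0,1]),
      (54,[1,0,1,1,1,0,1]), (2,[1,0,1,1,1,0,1]), (77,[1,0,1,1,1,0,1]), (29,[1,0,1,1,1,0,1]),
      (38,[1,0,2,2,0,1,0]), (58,[1,0,2,2,0,1,0]), (72,[1,0,2,2,0,1,0]), (27,[1,0,2,2,0,1,0]),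
      (54,[1,0,2,2,0,1,0]), (2,[1,0,2,2,0,1,0]), (77,[1,0,2,2,0,1,0]), (29,[1,0,2,2,0,1,0]),
      (26,[1,0,2,2,0,1,0]), (74,[1,0,2,2,0,1,0]), (17,[1,0,2,2,0,1,0]), (85,[1,0,2,2,0,1,0]),
      (63,[1,0,2,2,0,1,0]), (18,[1,0,2,2,0,1,0]), (71,[1,0,2,2,0,1,0]), (4,[1,0,2,2,0,1,0]),
      (43,[1,0,2,2,0,1,0]), (1,[1,0,2,2,0,1,0]), (81,[1,0,2,2,0,1,0]), (37,[1,0,2,2,0,1,0]),
      (40,[1,0,2,2,0,2,2]), (42,[1,0,2,2,0,2,2]), (55,[1,0,2,2,0,2,2]), (56,[1,0,2,2,0,2,2]),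
      (38,[1,0,2,2,0,2,2]), (58,[1,0,2,2,0,2,2]), (72,[1,0,2,2,0,2,2]), (27,[1,0,2,2,0,2,2]),
      (54,[1,0,2,2,0,2,2]), (2,[1,0,2,2,0,2,2]), (77,[1,0,2,2,0,2,2]), (29,[1,0,2,2,0,2,2]),
      (26,[1,0,2,2,0,2,2]), (74,[1,0,2,2,0,2,2]), (17,[1,0,2,2,0,2,2]), (85,[1,0,2,2,0,2,2]),
      (63,[1,0,2,2,0,2,2]), (18,[1,0,2,2,0,2,2]), (71,[1,0,2,2,0,2,2]), (4,[1,0,2,2,0,2,2]),
      (43,[1,0,2,2,0,2,2]), (1,[1,0,2,2,0,2,2]), (81,[1,0,2,2,0,2,2]), (37,[1,0,2,2,0,2,2]),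
      (33,[1,0,2,2,0,2,2]), (48,[1,0,2,2,0,2,2]), (69,[1,0,2,2,0,2,2]), (79,[1,0,2,2,0,2,2]),
      (23,[2,0,1,1,1,0,2]), (45,[2,0,1,1,1,0,2]), (33,[2,0,1,1,1,0,2]), (79,[2,0,1,1,1,0,2]),
      (34,[2,0,1,1,1,0,2]), (11,[2,0,1,1,1,0,2]), (24,[2,0,1,1,1,0,2]), (64,[2,0,1,1,1,0,2])]),
    (3,[]),
    (6,[(40,[2,0,1]), (42,[2,0,1]), (55,[2,0,1]), (56,[2,0,1]), (88,[2,0,1]), (40,[2,0,1,0]),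
      (42,[2,0,1,0]), (55,[2,0,1,0]), (56,[2,0,1,0]), (88,[2,0,1,0]), (40,[2,0,2,2]),
      (42,[2,0,2,2]), (55,[2,0,2,2]), (56,[2,0,2,2]), (88,[2,0,2,2]), (66,[2,0,2,2]),
      (21,[2,0,2,2]), (65,[2,0,2,2]), (57,[2,0,2,2]), (31,[2,0,2,2]), (13,[1,0,1,0,2,0,2]),
      (16,[1,0,1,0,2,0,2]), (54,[1,0,1,0,2,0,2]), (67,[1,0,1,0,2,0,2]), (71,[1,0,1,0,2,0,2]),
      (81,[1,0,1,0,2,0,2]), (66,[1,0,1,0,2,0,2]), (21,[1,0,1,0,2,0,2]), (65,[1,0,1,0,2,0,2]),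
      (57,[1,0,1,0,2,0,2]), (31,[1,0,1,0,2,0,2]), (89,[1,0,1,0,2,0,2]), (5,[1,0,1,0,2,0,2]),
      (82,[1,0,1,0,2,0,2]), (9,[1,0,1,0,2,0,2]), (76,[1,0,1,0,2,0,2]), (51,[1,0,1,1,1,0,1]),
      (54,[1,0,1,1,1,0,1]), (67,[1,0,1,1,1,0,1]), (71,[1,0,1,1,1,0,1]), (81,[1,0,1,1,1,0,1]),
      (36,[1,0,1,1,1,0,1]), (59,[1,0,1,1,1,0,1]), (53,[1,0,1,1,1,0,1]), (75,[1,0,1,1,1,0,1]),
      (19,[1,0,1,1,1,0,1]), (33,[1,0,1,1,1,0,1]), (73,[1,0,1,1,1,0,1]), (61,[1,0,1,1,1,0,1]),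
      (18,[1,0,1,1,1,0,1]), (30,[1,0,1,1,1,0,1]), (48,[1,0,1,1,1,0,1]), (45,[1,0,1,1,1,0,1]),
      (23,[1,0,1,1,1,0,1]), (69,[1,0,1,1,1,0,1]), (79,[1,0,1,1,1,0,1]), (89,[2,0,1,0,1,1,1]),
      (5,[2,0,1,0,1,1,1]), (9,[2,0,1,0,1,1,1]), (36,[2,0,1,0,1,1,1]), (59,[2,0,1,0,1,1,1]),
      (53,[2,0,1,0,1,1,1]), (19,[2,0,1,0,1,1,1]), (50,[2,0,1,0,1,1,1]), (62,[2,0,1,0,1,1,1]),
      (6,[2,0,1,0,1,1,1]), (43,[2,0,1,0,1,1,1]), (44,[2,0,1,0,1,1,1]), (63,[2,0,1,0,1,1,1]),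
      (52,[2,0,1,0,1,1,1]), (40,[2,0,1,1,1,0,1]), (42,[2,0,1,1,1,0,1]), (55,[2,0,1,1,1,0,1]),
      (59,[2,0,1,1,1,0,1]), (75,[2,0,1,1,1,0,1]), (8,[2,0,1,1,1,0,1])]),
    (6,[(40,[1,0,2]), (42,[1,0,2]), (55,[1,0,2]), (56,[1,0,2]), (88,[1,0,2]), (40,[1,0,1,1]),
      (42,[1,0,1,1]), (55,[1,0,1,1]), (56,[1,0,1,1]), (88,[1,0,1,1]), (40,[1,0,2,0]),
      (42,[1,0,2,0]), (55,[1,0,2,0]), (56,[1,0,2,0]), (88,[1,0,2,0]), (15,[1,0,2,0]),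
      (78,[1,0,2,0]), (8,[1,0,2,0]), (86,[1,0,2,0]), (84,[1,0,2,0]), (6,[1,0,1,0,2,0,2]),
      (43,[1,0,1,0,2,0,2]), (45,[1,0,1,0,2,0,2]), (63,[1,0,1,0,2,0,2]), (77,[1,0,1,0,2,0,2]),
      (28,[1,0,1,0,2,0,2]), (62,[1,0,1,0,2,0,2]), (14,[1,0,1,0,2,0,2]), (83,[1,0,1,0,2,0,2]),
      (50,[1,0,1,0,2,0,2]), (10,[1,0,1,1,1,0,1]), (43,[1,0,1,1,1,0,1]), (61,[1,0,1,1,1,0,1]),
      (63,[1,0,1,1,1,0,1]), (77,[1,0,1,1,1,0,1]), (15,[1,0,1,1,1,0,1]), (78,[1,0,1,1,1,0,1]),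
      (8,[1,0,1,1,1,0,1]), (86,[1,0,1,1,1,0,1]), (84,[1,0,1,1,1,0,1]), (17,[1,0,1,1,1,0,1]),
      (67,[1,0,1,1,1,0,1]), (3,[1,0,1,1,1,0,1]), (85,[1,0,1,1,1,0,1]), (9,[1,0,1,1,1,0,1]),
      (21,[1,0,1,1,1,0,1]), (4,[1,0,1,1,1,0,1]), (22,[1,0,1,1,1,0,1]), (16,[1,0,1,1,1,0,1]),
      (5,[1,0,1,1,1,0,1]), (82,[1,0,1,1,1,0,1]), (76,[1,0,1,1,1,0,1]), (89,[1,0,1,1,1,0,1]),
      (40,[1,0,1,1,1,0,2]), (55,[1,0,1,1,1,0,2]), (56,[1,0,1,1,1,0,2]), (88,[1,0,1,1,1,0,2]),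
      (64,[1,0,1,1,1,0,2]), (24,[1,0,1,1,1,0,2]), (70,[1,0,1,1,1,0,2]), (17,[1,0,1,1,1,0,2]),
      (67,[1,0,1,1,1,0,2]), (3,[1,0,1,1,1,0,2]), (25,[1,0,1,1,1,0,2]), (80,[1,0,1,1,1,0,2]),
      (46,[1,0,1,1,1,0,2]), (39,[1,0,1,1,1,0,2]), (36,[1,0,1,1,1,0,2]), (59,[1,0,1,1,1,0,2]),
      (19,[1,0,1,1,1,0,2]), (51,[1,0,1,1,1,0,2]), (53,[1,0,1,1,1,0,2]), (79,[1,0,2,0,1,1,1]),
      (33,[1,0,2,0,1,1,1]), (48,[1,0,2,0,1,1,1]), (69,[1,0,2,0,1,1,1])]),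
    (6,[]),
    (4,[]),
    (6,[(88,[2,0,1]), (88,[2,0,1,0]), (88,[2,0,2,2]), (31,[2,0,2,2]), (76,[2,0,1,0,1,1,1]),
      (19,[2,0,1,0,1,1,1]), (88,[2,0,1,1,1,0,1]), (19,[2,0,1,1,1,0,1]), (7,[1,0,2,0,2,2,0,2,0,1]),
      (13,[1,0,2,0,2,2,0,2,0,1]), (16,[1,0,2,0,2,2,0,2,0,1]), (51,[1,0,2,0,2,2,0,2,0,1]),
      (54,[1,0,2,0,2,2,0,2,0,1]), (67,[1,0,2,0,2,2,0,2,0,1]), (71,[1,0,2,0,2,2,0,2,0,1]),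
      (81,[1,0,2,0,2,2,0,2,0,1]), (46,[1,0,2,0,2,2,0,2,0,1]), (31,[1,0,2,0,2,2,0,2,0,1]),
      (76,[1,0,2,0,2,2,0,2,0,1]), (19,[1,0,2,0,2,2,0,2,0,1]), (3,[1,0,2,0,2,2,0,2,0,1]),
      (1,[1,0,2,0,2,2,0,2,0,1]), (29,[1,0,2,0,2,2,0,2,0,1]), (18,[1,0,2,0,2,2,0,2,0,1]),
      (23,[2,0,1]), (84,[2,0,1]), (50,[2,0,1]), (2,[2,0,1]), (4,[2,0,1]), (25,[2,0,1]),
      (37,[2,0,1]), (45,[2,0,1]), (10,[2,0,1]), (6,[2,0,1]), (63,[2,0,1]), (43,[2,0,1]),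
      (77,[2,0,1]), (61,[2,0,1]), (23,[2,0,1,0]), (84,[2,0,1,0]), (2,[2,0,1,0]), (4,[2,0,1,0]),
      (25,[2,0,1,0]), (37,[2,0,1,0]), (45,[2,0,1,0]), (10,[2,0,1,0]), (63,[2,0,1,0]),
      (43,[2,0,1,0]), (77,[2,0,1,0]), (61,[2,0,1,0]), (23,[2,0,2,2]), (84,[2,0,2,2]),
      (50,[2,0,2,2]), (2,[2,0,2,2]), (25,[2,0,2,2]), (45,[2,0,2,2]), (10,[2,0,2,2]),
      (6,[2,0,2,2]), (77,[2,0,2,2]), (61,[2,0,2,2]), (79,[2,0,2,2]), (78,[2,0,2,2]),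
      (38,[2,0,2,2]), (85,[2,0,2,2]), (33,[2,0,2,2]), (8,[2,0,2,2]), (58,[2,0,2,2]),
      (17,[2,0,2,2]), (83,[2,0,1,0,1,1,1]), (87,[2,0,1,0,1,1,1]), (12,[2,0,1,0,1,1,1]),
      (28,[2,0,1,0,1,1,1]), (49,[2,0,1,0,1,1,1]), (68,[2,0,1,0,1,1,1]), (62,[2,0,1,0,1,1,1]),
      (39,[2,0,1,0,1,1,1]), (14,[2,0,1,0,1,1,1]), (80,[2,0,1,0,1,1,1]), (84,[2,0,1,1,1,0,1]),
      (10,[2,0,1,1,1,0,1])]),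
    (6,[(32,[2,0,1]), (47,[2,0,1]), (49,[2,0,1]), (87,[2,0,1]), (88,[2,0,1]), (32,[2,0,1,0]),
      (47,[2,0,1,0]), (49,[2,0,1,0]), (87,[2,0,1,0]), (88,[2,0,1,0]), (32,[2,0,2,2]),
      (47,[2,0,2,2]), (49,[2,0,2,2]), (87,[2,0,2,2]), (88,[2,0,2,2]), (11,[2,0,2,2]),
      (34,[2,0,2,2]), (35,[2,0,2,2]), (30,[2,0,2,2]), (31,[2,0,2,2]), (16,[1,0,2,2,0,1]),
      (51,[1,0,2,2,0,1]), (54,[1,0,2,2,0,1]), (67,[1,0,2,2,0,1]), (71,[1,0,2,2,0,1]),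
      (81,[1,0,2,2,0,1]), (10,[1,0,2,2,0,1]), (84,[1,0,2,2,0,1]), (73,[1,0,2,2,0,1]),
      (60,[1,0,2,2,0,1]), (76,[1,0,2,2,0,1]), (23,[1,0,2,2,0,1]), (45,[1,0,2,2,0,1]),
      (22,[1,0,2,2,0,1]), (20,[1,0,2,2,0,1]), (19,[1,0,2,2,0,1]), (54,[1,0,2,2,0,1,0]),
      (67,[1,0,2,2,0,1,0]), (71,[1,0,2,2,0,1,0]), (81,[1,0,2,2,0,1,0]), (54,[1,0,2,2,0,2,2]),
      (67,[1,0,2,2,0,2,2]), (71,[1,0,2,2,0,2,2]), (81,[1,0,2,2,0,2,2]), (5,[1,0,2,2,0,2,2]),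
      (36,[1,0,2,2,0,2,2]), (69,[1,0,2,2,0,2,2]), (86,[1,0,2,2,0,2,2]), (10,[2,0,1,0,1,1,1]),
      (73,[2,0,1,0,1,1,1]), (76,[2,0,1,0,1,1,1]), (45,[2,0,1,0,1,1,1]), (22,[2,0,1,0,1,1,1]),
      (19,[2,0,1,0,1,1,1]), (38,[2,0,1,0,1,1,1]), (85,[2,0,1,0,1,1,1]), (79,[2,0,1,0,1,1,1]),
      (78,[2,0,1,0,1,1,1]), (27,[2,0,1,0,1,1,1]), (40,[2,0,1,0,1,1,1]), (58,[2,0,1,0,1,1,1]),
      (74,[2,0,1,0,1,1,1]), (55,[2,0,1,0,1,1,1]), (17,[2,0,1,0,1,1,1]), (57,[2,0,1,0,1,1,1]),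
      (64,[2,0,1,0,1,1,1]), (32,[2,0,1,1,1,0,1]), (49,[2,0,1,1,1,0,1]), (88,[2,0,1,1,1,0,1]),
      (23,[2,0,1,1,1,0,1]), (19,[2,0,1,1,1,0,1]), (9,[2,0,1,1,1,0,1]), (39,[2,0,1,1,1,0,1]),
      (57,[2,0,1,1,1,0,1]), (25,[2,0,1,1,1,0,1]), (37,[2,0,1,1,1,0,1])]),
    (6,[(40,[2,0,1]), (42,[2,0,1]), (55,[2,0,1]), (56,[2,0,1]), (88,[2,0,1]), (40,[2,0,1,0]),
      (42,[2,0,1,0]), (55,[2,0,1,0]), (56,[2,0,1,0]), (88,[2,0,1,0]), (40,[2,0,2,2]),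
      (42,[2,0,2,2]), (55,[2,0,2,2]), (56,[2,0,2,2]), (88,[2,0,2,2]), (66,[2,0,2,2]),
      (21,[2,0,2,2]), (65,[2,0,2,2]), (57,[2,0,2,2]), (31,[2,0,2,2]), (13,[1,0,1,0,2,0,2]),
      (16,[1,0,1,0,2,0,2]), (54,[1,0,1,0,2,0,2]), (67,[1,0,1,0,2,0,2]), (71,[1,0,1,0,2,0,2]),
      (81,[1,0,1,0,2,0,2]), (66,[1,0,1,0,2,0,2]), (21,[1,0,1,0,2,0,2]), (65,[1,0,1,0,2,0,2]),
      (57,[1,0,1,0,2,0,2]), (31,[1,0,1,0,2,0,2]), (89,[1,0,1,0,2,0,2]), (5,[1,0,1,0,2,0,2]),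
      (82,[1,0,1,0,2,0,2]), (9,[1,0,1,0,2,0,2]), (76,[1,0,1,0,2,0,2]), (51,[1,0,1,1,1,0,1]),
      (54,[1,0,1,1,1,0,1]), (67,[1,0,1,1,1,0,1]), (71,[1,0,1,1,1,0,1]), (81,[1,0,1,1,1,0,1]),
      (36,[1,0,1,1,1,0,1]), (59,[1,0,1,1,1,0,1]), (53,[1,0,1,1,1,0,1]), (75,[1,0,1,1,1,0,1]),
      (19,[1,0,1,1,1,0,1]), (33,[1,0,1,1,1,0,1]), (73,[1,0,1,1,1,0,1]), (61,[1,0,1,1,1,0,1]),
      (18,[1,0,1,1,1,0,1]), (30,[1,0,1,1,1,0,1]), (48,[1,0,1,1,1,0,1]), (45,[1,0,1,1,1,0,1]),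
      (23,[1,0,1,1,1,0,1]), (69,[1,0,1,1,1,0,1]), (79,[1,0,1,1,1,0,1]), (89,[2,0,1,0,1,1,1]),
      (5,[2,0,1,0,1,1,1]), (9,[2,0,1,0,1,1,1]), (36,[2,0,1,0,1,1,1]), (59,[2,0,1,0,1,1,1]),
      (53,[2,0,1,0,1,1,1]), (19,[2,0,1,0,1,1,1]), (50,[2,0,1,0,1,1,1]), (62,[2,0,1,0,1,1,1]),
      (6,[2,0,1,0,1,1,1]), (43,[2,0,1,0,1,1,1]), (44,[2,0,1,0,1,1,1]), (63,[2,0,1,0,1,1,1]),
      (52,[2,0,1,0,1,1,1]), (40,[2,0,1,1,1,0,1]), (42,[2,0,1,1,1,0,1]), (55,[2,0,1,1,1,0,1]),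
      (59,[2,0,1,1,1,0,1]), (75,[2,0,1,1,1,0,1]), (8,[2,0,1,1,1,0,1])]),
    (4,[]),
    (6,[(7,[1,0,2]), (13,[1,0,2]), (16,[1,0,2]), (51,[1,0,2]), (54,[1,0,2]), (67,[1,0,2]),
      (71,[1,0,2]), (81,[1,0,2]), (10,[2,0,1]), (11,[2,0,1]), (43,[2,0,1]), (45,[2,0,1]),
      (61,[2,0,1]), (63,[2,0,1]), (77,[2,0,1]), (7,[1,0,1,1]), (13,[1,0,1,1]), (16,[1,0,1,1]),
      (51,[1,0,1,1]), (54,[1,0,1,1]), (71,[1,0,1,1]), (81,[1,0,1,1]), (15,[1,0,1,1]),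
      (34,[1,0,1,1]), (27,[1,0,1,1]), (75,[1,0,1,1]), (74,[1,0,1,1]), (82,[1,0,1,1]),
      (7,[1,0,2,0]), (13,[1,0,2,0]), (16,[1,0,2,0]), (51,[1,0,2,0]), (54,[1,0,2,0]),
      (71,[1,0,2,0]), (81,[1,0,2,0]), (15,[1,0,2,0]), (34,[1,0,2,0]), (27,[1,0,2,0]),
      (75,[1,0,2,0]), (74,[1,0,2,0]), (82,[1,0,2,0]), (49,[1,0,2,0]), (39,[1,0,2,0]),
      (57,[1,0,2,0]), (58,[1,0,2,0]), (62,[1,0,2,0]), (23,[1,0,2,0]), (28,[1,0,2,0]),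
      (65,[1,0,2,0]), (68,[1,0,2,0]), (49,[2,0,1,0]), (19,[2,0,1,0]), (39,[2,0,1,0]),
      (64,[2,0,1,0]), (62,[2,0,1,0]), (72,[2,0,1,0]), (28,[2,0,1,0]), (41,[2,0,1,0]),
      (68,[2,0,1,0]), (46,[2,0,1,0]), (5,[2,0,1,0]), (36,[2,0,1,0]), (86,[2,0,1,0]),
      (30,[2,0,1,0]), (18,[2,0,1,0]), (40,[2,0,1,0]), (42,[2,0,1,0]), (23,[2,0,2,2]),
      (28,[2,0,2,2]), (50,[2,0,2,2]), (33,[2,0,2,2]), (18,[2,0,2,2]), (88,[2,0,2,2])]),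
    (6,[]),
    (5,[]),
    (6,[(88,[1,0,2]), (88,[1,0,1,1]), (88,[1,0,2,0]), (84,[1,0,2,0]), (88,[1,0,1,1,1,0,2]),
      (34,[1,0,1,1,1,0,2]), (25,[1,0,1,1,1,0,2]), (23,[1,0,2,0,1,1,1]), (6,[1,0,2,0,2,2,0,2,0,1]),
      (10,[1,0,2,0,2,2,0,2,0,1]), (11,[1,0,2,0,2,2,0,2,0,1]), (43,[1,0,2,0,2,2,0,2,0,1]),
      (45,[1,0,2,0,2,2,0,2,0,1]), (61,[1,0,2,0,2,2,0,2,0,1]), (63,[1,0,2,0,2,2,0,2,0,1]),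
      (77,[1,0,2,0,2,2,0,2,0,1]), (50,[1,0,2,0,2,2,0,2,0,1]), (84,[1,0,2,0,2,2,0,2,0,1]),
      (34,[1,0,2,0,2,2,0,2,0,1]), (25,[1,0,2,0,2,2,0,2,0,1]), (37,[1,0,2,0,2,2,0,2,0,1]),
      (4,[1,0,2,0,2,2,0,2,0,1]), (23,[1,0,2,0,2,2,0,2,0,1]), (2,[1,0,2,0,2,2,0,2,0,1]),
      (19,[1,0,2]), (76,[1,0,2]), (1,[1,0,2]), (46,[1,0,2]), (18,[1,0,2]), (3,[1,0,2]),
      (29,[1,0,2]), (51,[1,0,2]), (16,[1,0,2]), (71,[1,0,2]), (81,[1,0,2]), (67,[1,0,2]),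
      (7,[1,0,2]), (54,[1,0,2]), (19,[1,0,1,1]), (76,[1,0,1,1]), (1,[1,0,1,1]), (46,[1,0,1,1]),
      (18,[1,0,1,1]), (3,[1,0,1,1]), (51,[1,0,1,1]), (16,[1,0,1,1]), (71,[1,0,1,1]),
      (81,[1,0,1,1]), (67,[1,0,1,1]), (7,[1,0,1,1]), (19,[1,0,2,0]), (76,[1,0,2,0]),
      (1,[1,0,2,0]), (18,[1,0,2,0]), (3,[1,0,2,0]), (51,[1,0,2,0]), (16,[1,0,2,0]),
      (71,[1,0,2,0]), (81,[1,0,2,0]), (67,[1,0,2,0]), (80,[1,0,2,0]), (14,[1,0,2,0]),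
      (87,[1,0,2,0]), (24,[1,0,2,0]), (39,[1,0,2,0]), (64,[1,0,2,0]), (62,[1,0,2,0]),
      (49,[1,0,2,0]), (1,[1,0,1,1,1,0,2]), (46,[1,0,1,1,1,0,2]), (18,[1,0,1,1,1,0,2]),
      (71,[1,0,1,1,1,0,2]), (81,[1,0,1,1,1,0,2]), (7,[1,0,1,1,1,0,2]), (75,[1,0,1,1,1,0,2]),
      (82,[1,0,1,1,1,0,2]), (36,[1,0,1,1,1,0,2]), (5,[1,0,1,1,1,0,2]), (35,[1,0,1,1,1,0,2]),
      (30,[1,0,1,1,1,0,2])]),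
    (6,[(32,[1,0,2]), (47,[1,0,2]), (49,[1,0,2]), (87,[1,0,2]), (88,[1,0,2]), (32,[1,0,1,1]),
      (47,[1,0,1,1]), (49,[1,0,1,1]), (87,[1,0,1,1]), (88,[1,0,1,1]), (32,[1,0,2,0]),
      (47,[1,0,2,0]), (49,[1,0,2,0]), (87,[1,0,2,0]), (88,[1,0,2,0]), (16,[1,0,2,0]),
      (76,[1,0,2,0]), (60,[1,0,2,0]), (73,[1,0,2,0]), (84,[1,0,2,0]), (10,[1,0,2,2,0,1]),
      (43,[1,0,2,2,0,1]), (45,[1,0,2,2,0,1]), (61,[1,0,2,2,0,1]), (63,[1,0,2,2,0,1]),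
      (16,[1,0,2,2,0,1]), (76,[1,0,2,2,0,1]), (60,[1,0,2,2,0,1]), (73,[1,0,2,2,0,1]),
      (84,[1,0,2,2,0,1]), (5,[1,0,2,2,0,1]), (57,[1,0,2,2,0,1]), (66,[1,0,2,2,0,1]),
      (25,[1,0,2,2,0,1]), (32,[1,0,1,1,1,0,2]), (47,[1,0,1,1,1,0,2]), (49,[1,0,1,1,1,0,2]),
      (87,[1,0,1,1,1,0,2]), (88,[1,0,1,1,1,0,2]), (13,[1,0,1,1,1,0,2]), (31,[1,0,1,1,1,0,2]),
      (30,[1,0,1,1,1,0,2]), (35,[1,0,1,1,1,0,2]), (34,[1,0,1,1,1,0,2]), (5,[1,0,1,1,1,0,2]),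
      (82,[1,0,1,1,1,0,2]), (57,[1,0,1,1,1,0,2]), (66,[1,0,1,1,1,0,2]), (25,[1,0,1,1,1,0,2]),
      (15,[1,0,1,1,1,0,2]), (74,[1,0,1,1,1,0,2]), (48,[1,0,1,1,1,0,2]), (27,[1,0,2,0,1,1,1]),
      (15,[1,0,2,0,1,1,1]), (74,[1,0,2,0,1,1,1]), (58,[1,0,2,0,1,1,1]), (56,[1,0,2,0,1,1,1]),
      (72,[1,0,2,0,1,1,1]), (10,[1,0,2,2,0,1,0]), (43,[1,0,2,2,0,1,0]), (63,[1,0,2,2,0,1,0]),
      (60,[1,0,2,2,0,1,0]), (73,[1,0,2,2,0,1,0]), (84,[1,0,2,2,0,1,0]), (9,[1,0,2,2,0,1,0]),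
      (89,[1,0,2,2,0,1,0]), (39,[1,0,2,2,0,1,0]), (80,[1,0,2,2,0,1,0]), (37,[1,0,2,2,0,1,0]),
      (59,[1,0,2,2,0,1,0]), (53,[1,0,2,2,0,1,0]), (4,[1,0,2,2,0,1,0]), (64,[1,0,2,2,0,1,0]),
      (24,[1,0,2,2,0,1,0]), (9,[1,0,2,2,0,2,2]), (89,[1,0,2,2,0,2,2])]),
    (6,[(40,[1,0,2]), (42,[1,0,2]), (55,[1,0,2]), (56,[1,0,2]), (88,[1,0,2]), (40,[1,0,1,1]),
      (42,[1,0,1,1]), (55,[1,0,1,1]), (56,[1,0,1,1]), (88,[1,0,1,1]), (40,[1,0,2,0]),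
      (42,[1,0,2,0]), (55,[1,0,2,0]), (56,[1,0,2,0]), (88,[1,0,2,0]), (15,[1,0,2,0]),
      (78,[1,0,2,0]), (8,[1,0,2,0]), (86,[1,0,2,0]), (84,[1,0,2,0]), (6,[1,0,1,0,2,0,2]),
      (43,[1,0,1,0,2,0,2]), (45,[1,0,1,0,2,0,2]), (63,[1,0,1,0,2,0,2]), (77,[1,0,1,0,2,0,2]),
      (28,[1,0,1,0,2,0,2]), (62,[1,0,1,0,2,0,2]), (14,[1,0,1,0,2,0,2]), (83,[1,0,1,0,2,0,2]),
      (50,[1,0,1,0,2,0,2]), (10,[1,0,1,1,1,0,1]), (43,[1,0,1,1,1,0,1]), (61,[1,0,1,1,1,0,1]),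
      (63,[1,0,1,1,1,0,1]), (77,[1,0,1,1,1,0,1]), (15,[1,0,1,1,1,0,1]), (78,[1,0,1,1,1,0,1]),
      (8,[1,0,1,1,1,0,1]), (86,[1,0,1,1,1,0,1]), (84,[1,0,1,1,1,0,1]), (17,[1,0,1,1,1,0,1]),
      (67,[1,0,1,1,1,0,1]), (3,[1,0,1,1,1,0,1]), (85,[1,0,1,1,1,0,1]), (9,[1,0,1,1,1,0,1]),
      (21,[1,0,1,1,1,0,1]), (4,[1,0,1,1,1,0,1]), (22,[1,0,1,1,1,0,1]), (16,[1,0,1,1,1,0,1]),
      (5,[1,0,1,1,1,0,1]), (82,[1,0,1,1,1,0,1]), (76,[1,0,1,1,1,0,1]), (89,[1,0,1,1,1,0,1]),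
      (40,[1,0,1,1,1,0,2]), (55,[1,0,1,1,1,0,2]), (56,[1,0,1,1,1,0,2]), (88,[1,0,1,1,1,0,2]),
      (64,[1,0,1,1,1,0,2]), (24,[1,0,1,1,1,0,2]), (70,[1,0,1,1,1,0,2]), (17,[1,0,1,1,1,0,2]),
      (67,[1,0,1,1,1,0,2]), (3,[1,0,1,1,1,0,2]), (25,[1,0,1,1,1,0,2]), (80,[1,0,1,1,1,0,2]),
      (46,[1,0,1,1,1,0,2]), (39,[1,0,1,1,1,0,2]), (36,[1,0,1,1,1,0,2]), (59,[1,0,1,1,1,0,2]),
      (19,[1,0,1,1,1,0,2]), (51,[1,0,1,1,1,0,2]), (53,[1,0,1,1,1,0,2]), (79,[1,0,2,0,1,1,1]),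
      (33,[1,0,2,0,1,1,1]), (48,[1,0,2,0,1,1,1]), (69,[1,0,2,0,1,1,1])]),
    (6,[(7,[1,0,2]), (13,[1,0,2]), (16,[1,0,2]), (51,[1,0,2]), (54,[1,0,2]), (67,[1,0,2]),
      (71,[1,0,2]), (81,[1,0,2]), (10,[2,0,1]), (11,[2,0,1]), (43,[2,0,1]), (45,[2,0,1]),
      (61,[2,0,1]), (63,[2,0,1]), (77,[2,0,1]), (7,[1,0,1,1]), (13,[1,0,1,1]), (16,[1,0,1,1]),
      (51,[1,0,1,1]), (54,[1,0,1,1]), (71,[1,0,1,1]), (81,[1,0,1,1]), (15,[1,0,1,1]),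
      (34,[1,0,1,1]), (27,[1,0,1,1]), (75,[1,0,1,1]), (74,[1,0,1,1]), (82,[1,0,1,1]),
      (7,[1,0,2,0]), (13,[1,0,2,0]), (16,[1,0,2,0]), (51,[1,0,2,0]), (54,[1,0,2,0]),
      (71,[1,0,2,0]), (81,[1,0,2,0]), (15,[1,0,2,0]), (34,[1,0,2,0]), (27,[1,0,2,0]),
      (75,[1,0,2,0]), (74,[1,0,2,0]), (82,[1,0,2,0]), (49,[1,0,2,0]), (39,[1,0,2,0]),
      (57,[1,0,2,0]), (58,[1,0,2,0]), (62,[1,0,2,0]), (23,[1,0,2,0]), (28,[1,0,2,0]),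
      (65,[1,0,2,0]), (68,[1,0,2,0]), (49,[2,0,1,0]), (19,[2,0,1,0]), (39,[2,0,1,0]),
      (64,[2,0,1,0]), (62,[2,0,1,0]), (72,[2,0,1,0]), (28,[2,0,1,0]), (41,[2,0,1,0]),
      (68,[2,0,1,0]), (46,[2,0,1,0]), (5,[2,0,1,0]), (36,[2,0,1,0]), (86,[2,0,1,0]),
      (30,[2,0,1,0]), (18,[2,0,1,0]), (40,[2,0,1,0]), (42,[2,0,1,0]), (23,[2,0,2,2]),
      (28,[2,0,2,2]), (50,[2,0,2,2]), (33,[2,0,2,2]), (18,[2,0,2,2]), (88,[2,0,2,2])]),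
    (5,[]),
    (6,[]),
    (6,[]),
    (6,[]),
    (6,[]),
    (6,[]),
    (6,[]),
    (6,[]),
    (6,[])]

theorem rep27 : IsConLattice (maskRel (7, 284795138549631)) :=
  Trans.isConLattice_of_check (C := cert27) (by decide +kernel)

end Vale.Agent.P183.Reps
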