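import Vale.Agent.P183.Trans

/-! The lattice with index 28 is the congruence lattice of a unary algebra on the 60 cosets of a
subgroup of S5 (group translations with further maps preserving seven chosen congruences). -/

namespace Vale.Agent.P183.Reps

def cert28 : Trans.Cert where
  N := 60
  ops := [
    722095070400559139013955067753114393845608416437656953741472955475485951604057230106757286234837909900843975228507199076472457579090061832815360,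
    709806783112222634209917397865586474649187764468887647465343591112382277935937062759759685315951367472110742678177322100551770920304999661569025,
    697897696316766512319310585673676736493820404364542215118200127240411766941148836607656133013463192638799578947160018219883505689932026905755650,
    3291009114642412129981864531705417203830622754227464843248533504]
  labs := [
    722238911048885615208069953479560075412255447262619392441755590935856861803991603061743714178964601524466533668442002842585457072190895257944320,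
    440050367970125489077333110309906399156604115507830838549682313972035110967222430346344066272087649668157318490424731323559064857275809128382720,
    49015677688311950501846142715837656221287576569920504622345376989323809257095181956096104742749121534561345344331156177208062448012445882646784,
    12384868164632766196450123604062891033715105500710202208154992784314964857175085108755610879263997418559345018990805901887110845496640615350528,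
    48010607934009414647220699506254220412151797646163541600250920019395497560317334784619136165514806071032082986873092170505013728714558669056,
    354449273997085893635970031034242152242921680632414612631635842052602805358000260733965213953244794277269301448841903514364166933904135901282560,
    0]
  cls := [
    1,
    16641,
    72655887816737025,
    148618822062981377,
    596738014596842753,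
    2164260865,
    1152921504606846975]
  down := [
    (0,0), (2,1), (1,2), (0,0), (2,1), (0,0), (1,2), (2,1), (1,2), (0,0), (2,1), (1,2), (0,0),
      (2,1), (0,0), (1,2), (2,1), (1,2), (0,0), (2,1), (1,2), (2,1), (1,2), (0,0), (2,1), (1,2),
      (0,0), (2,1), (0,0), (1,2), (2,1), (1,2), (0,0), (0,0), (0,0), (2,1), (1,2), (2,1), (1,2),
      (2,1), (1,2), (2,1), (1,2), (0,0), (2,1), (2,1), (1,2), (2,1), (2,1), (1,2), (1,2), (0,0),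
      (2,1), (0,0), (0,0), (2,1), (0,0), (0,0), (1,2), (2,1)]
  base := [
    [],
    [(8,[0])],
    [(19,[0]), (19,[3]), (19,[2,0,1,1]), (32,[2,0,1,1]), (19,[2,0,1,1,0]), (32,[2,0,1,1,0]),
      (34,[2,0,1,1,0]), (34,[1,0,2]), (56,[1,0,2]), (8,[0])],
    [(35,[1,0,1,3,1,0,2]), (8,[2,2,0,1,1]), (8,[0]), (52,[0])],
    [(10,[0]), (10,[1,3]), (8,[2,0,1]), (8,[2,0,1,0]), (41,[2,0,1,0]), (18,[1,0,2]), (54,[1,0,2]),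
      (54,[2,0,1]), (14,[2,0,1]), (51,[2,0,1])],
    [(24,[1,0,2,0,1])],
    [(1,[0]), (3,[1,3]), (1,[1]), (3,[1]), (1,[1,0]), (3,[1,0]), (4,[1,0]), (7,[1,0]),
      (1,[1,0,2]), (3,[1,0,2]), (4,[1,0,2]), (7,[1,0,2]), (9,[1,0,2]), (11,[1,0,2]), (12,[1,0,2]),
      (23,[1,0,2]), (8,[0]), (23,[0]), (17,[0]), (20,[0]), (22,[0]), (40,[0]), (55,[0]), (9,[1]),
      (11,[1]), (12,[1]), (23,[1]), (40,[1]), (6,[1]), (50,[1]), (55,[1]), (14,[1]), (13,[1]),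
      (28,[1]), (33,[1]), (30,[1]), (53,[1]), (13,[1,0]), (16,[1,0]), (5,[1,0]), (21,[1,0]),
      (37,[1,0]), (24,[1,0]), (44,[1,0]), (48,[1,0]), (45,[1,0]), (56,[1,0]), (58,[1,0,2]),
      (5,[1,0,2]), (34,[1,0,2]), (49,[1,0,2]), (45,[1,0,2]), (43,[1,0,2]), (18,[1,0,2]),
      (41,[1,0,2]), (28,[1,1]), (30,[1,1]), (37,[1,1])]]
  pr := [
    (0,[]),
    (6,[]),
    (6,[(2,[0]), (2,[2]), (6,[2,0]), (9,[0]), (4,[2])]),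
    (6,[(3,[0])]),
    (6,[(4,[0]), (4,[1,1]), (2,[1,1,0]), (3,[0])]),
    (6,[(5,[0]), (5,[2,0]), (7,[2]), (3,[0])]),
    (6,[(6,[2,2])]),
    (6,[(7,[0]), (7,[3]), (11,[1,0,2]), (6,[2,0,2]), (17,[1,0,2])]),
    (1,[]),
    (6,[(9,[0]), (4,[1,1]), (2,[1,1])]),
    (4,[]),
    (6,[(11,[0]), (7,[3]), (11,[1,0,2]), (6,[2,0,2]), (17,[1,0,2])]),
    (6,[(12,[0]), (6,[2,2])]),
    (6,[(13,[2,3]), (8,[1,0,1,1]), (6,[1,0,2]), (11,[1,0,1,1])]),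
    (1,[(14,[0])]),
    (6,[(15,[0]), (26,[3]), (26,[1,0,2,2,0]), (17,[1,0,2])]),
    (6,[(16,[1,0,1,3,1,0,2]), (16,[1,1,0,1]), (17,[1,0,2])]),
    (6,[(17,[1,0,1,3,1,0,2]), (17,[1,0,2])]),
    (4,[(18,[0])]),
    (2,[]),
    (6,[(20,[2,3]), (20,[1,0,2]), (3,[0])]),
    (2,[(21,[0]), (34,[2,2,0,1,0])]),
    (6,[(22,[0]), (22,[2,2,0,2]), (21,[2,0,1,0,1]), (10,[2,0,1,0,1])]),
    (6,[(23,[0]), (13,[2,3]), (13,[1,0,2]), (42,[1,0,1,1,0])]),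
    (5,[]),
    (6,[(25,[0]), (25,[1,0,1,3,1,0,2]), (16,[1,1,0,1]), (17,[1,0,2])]),
    (6,[(26,[3]), (26,[1,0,2,2,0]), (17,[1,0,2])]),
    (4,[(27,[1,0,1,3,1,0,2]), (8,[1,1,0,1,1])]),
    (6,[(28,[0]), (28,[1,0,1,3,1,0,2]), (17,[1,0,2])]),
    (2,[(29,[1,0,1,3,1,0,2]), (8,[1,1,0,2,2])]),
    (6,[(30,[0]), (30,[1,0,1,3,1,0,2]), (8,[2,0,1,0,1]), (50,[2,2,0,2]), (33,[1,0,2]), (28,[0]),
      (17,[1,0,2])]),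
    (5,[(31,[2,0,1,0,2])]),
    (2,[(32,[0])]),
    (6,[(33,[0]), (20,[2,3]), (20,[1,0,2]), (3,[0])]),
    (2,[(34,[2,2,0,1,0])]),
    (3,[]),
    (4,[(36,[0]), (36,[1,0,1,3,1,0,2]), (36,[2,2,0,2,2,0]), (41,[1,0,2])]),
    (2,[(37,[0]), (37,[1,0,1,3,1,0,2]), (49,[1,0,2])]),
    (6,[(38,[0]), (38,[1,0,1,3,1,0,2]), (38,[1,0,1,1,0,2]), (25,[2,2,0,1,0,2]),
      (13,[2,2,0,1,0,2]), (17,[1,0,2])]),
    (6,[(39,[0]), (42,[1,3]), (42,[1,0,2,2,0,2]), (20,[1,0,2]), (3,[0])]),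
    (6,[(40,[0]), (40,[1,0,1,3,1,0,2]), (8,[1,0,2,0,2,2,0]), (12,[1,0,2]), (50,[1,0,2,0,2,2])]),
    (4,[(41,[2,3]), (8,[1,0,2,2,0,1])]),
    (6,[(42,[1,3]), (42,[1,0,2,2,0,2]), (20,[1,0,2]), (3,[0])]),
    (4,[(43,[0]), (43,[1,0,1,3,1,0,2]), (8,[1,1,0,1,1])]),
    (6,[(44,[1,0,1,3,1,0,2]), (44,[1,0,2]), (26,[0]), (15,[1,1,0,2,0,1])]),
    (2,[(45,[1,0,1,3,1,0,2]), (45,[1,0,2]), (32,[0])]),
    (6,[(46,[0]), (47,[1,1,3]), (8,[2,0,1,1,0,1]), (20,[1,0,2]), (3,[0])]),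
    (6,[(47,[1,1,3]), (8,[2,0,1,1,0,1]), (20,[1,0,2]), (3,[0])]),
    (6,[(48,[0]), (48,[1,0,1,3,1,0,2]), (48,[2,0,2,2,0,1]), (30,[1,1,0,2,0,1]), (20,[1,0,2]),
      (3,[0])]),
    (2,[(49,[1,0,1,3,1,0,2]), (49,[1,0,2])]),
    (6,[(50,[0]), (50,[1,0,1,3,1,0,2]), (50,[2,2,0,1,0,2]), (16,[1,0,1,1,0,2]), (23,[0]),
      (13,[2,2,0,1,0,2]), (17,[1,0,2])]),
    (4,[(51,[0]), (51,[1,0,1,3,1,0,2]), (36,[2,2,0,2,2,0]), (41,[1,0,2])]),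
    (3,[(52,[1,0,1,3,1,0,2]), (8,[1,0,1,1,0,1,1])]),
    (6,[(53,[0]), (53,[1,0,1,3,1,0,2]), (8,[1,0,2,0,2,2,0]), (12,[1,0,2]), (50,[1,0,2,0,2,2])]),
    (4,[(54,[0]), (41,[2,3]), (8,[1,0,2,2,0,1])]),
    (6,[(55,[0]), (55,[1,0,1,3,1,0,2]), (58,[1,1,0,1,1,0,1]), (18,[1,0,2]), (36,[1,1,0,1,1,0,1])]),
    (2,[(56,[0]), (56,[1,0,1,3,1,0,2]), (8,[2,0,1,0,1,1,0]), (21,[2,0,1,0,1,1])]),
    (3,[(57,[1,0,1,3,1,0,2]), (8,[1,0,1,1,0,1,1,0])]),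
    (6,[(58,[0]), (58,[1,0,1,3,1,0,2]), (8,[1,0,2,0,2,2,0,2]), (22,[1,1,0,1,1,0,1]), (43,[1,0,2]),
      (59,[1,0,2,0,2,2,0,2])]),
    (4,[(59,[1,0,1,3,1,0,2]), (8,[1,0,1,1,0,1,1,0,1]), (36,[1,0,2]), (18,[0])])]
  js := [
    (0,[]),
    (1,[]),
    (2,[]),
    (3,[]),
    (4,[]),
    (5,[]),
    (6,[]),
    (1,[]),
    (1,[]),
    (2,[]),
    (3,[]),
    (4,[]),
    (6,[(24,[1,0,2]), (31,[1,0,2]), (24,[1,0,2,0]), (31,[1,0,2,0]), (8,[1,0,2,0,1]),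
      (14,[1,0,2,0,1]), (47,[1,0,2,0,1]), (5,[1,0,2,0,1]), (46,[1,0,2,0,1]), (2,[1,0,2,0,1]),
      (8,[2,0,1,0,2]), (14,[2,0,1,0,2]), (47,[2,0,1,0,2]), (5,[2,0,1,0,2]), (46,[2,0,1,0,2]),
      (2,[2,0,1,0,2]), (1,[1,0,2]), (3,[1,0,2]), (39,[1,0,2]), (18,[1,0,2]), (42,[1,0,2]),
      (10,[1,0,2]), (44,[1,0,2]), (48,[1,0,2]), (49,[1,0,2]), (38,[1,0,2]), (37,[1,0,2]),
      (50,[1,0,2]), (1,[1,0,2,0]), (3,[1,0,2,0]), (39,[1,0,2,0]), (18,[1,0,2,0]), (42,[1,0,2,0]),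
      (10,[1,0,2,0]), (44,[1,0,2,0]), (48,[1,0,2,0]), (49,[1,0,2,0]), (38,[1,0,2,0]),
      (37,[1,0,2,0]), (50,[1,0,2,0]), (20,[1,0,2,0,1]), (13,[1,0,2,0,1]), (41,[1,0,2,0,1]),
      (26,[1,0,2,0,1]), (19,[1,0,2,0,1]), (7,[1,0,2,0,1]), (33,[1,0,2,0,1]), (23,[1,0,2,0,1]),
      (54,[1,0,2,0,1]), (15,[1,0,2,0,1]), (32,[1,0,2,0,1]), (11,[1,0,2,0,1]), (15,[2,0,1,1,0,1]),
      (32,[2,0,1,1,0,1]), (11,[2,0,1,1,0,1])]),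
    (6,[]),
    (2,[]),
    (2,[]),
    (2,[]),
    (6,[(35,[2,0,1,1]), (52,[2,0,1,1]), (57,[2,0,1,1]), (35,[2,2,0,1]), (52,[2,2,0,1]),
      (57,[2,2,0,1]), (35,[2,2,0,1,0]), (52,[2,2,0,1,0]), (57,[2,2,0,1,0]), (19,[2,2,0,1,1]),
      (21,[2,2,0,1,1]), (29,[2,2,0,1,1]), (32,[2,2,0,1,1]), (34,[2,2,0,1,1]), (37,[2,2,0,1,1]),
      (45,[2,2,0,1,1]), (49,[2,2,0,1,1]), (56,[2,2,0,1,1]), (44,[2,2,0,1,1]), (48,[2,2,0,1,1]),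
      (31,[2,2,0,1,1]), (2,[2,2,0,1,1]), (15,[2,2,0,1,1]), (25,[2,2,0,1,1]), (5,[2,2,0,1,1]),
      (26,[2,2,0,1,1]), (16,[2,2,0,1,1]), (1,[1,0,1,1,0,1]), (46,[1,0,1,1,0,1]),
      (24,[1,0,1,1,0,1]), (3,[1,0,1,1,0,1]), (28,[1,0,1,1,0,1]), (33,[1,0,1,1,0,1]),
      (36,[1,0,1,1,0,1]), (51,[1,0,1,1,0,1]), (59,[1,0,1,1,0,1]), (27,[1,0,1,1,0,1]),
      (10,[1,0,1,1,0,1]), (41,[1,0,1,1,0,1]), (46,[2,0,1,0,1,1]), (28,[2,0,1,0,1,1]),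
      (33,[2,0,1,0,1,1]), (27,[2,0,1,0,1,1]), (10,[2,0,1,0,1,1]), (41,[2,0,1,0,1,1])]),
    (6,[(19,[2,0,1]), (21,[2,0,1]), (29,[2,0,1]), (32,[2,0,1]), (34,[2,0,1]), (37,[2,0,1]),
      (45,[2,0,1]), (49,[2,0,1]), (56,[2,0,1]), (30,[1,0,2,0]), (2,[1,0,2,0]), (55,[1,0,2,0]),
      (50,[1,0,2,0]), (23,[1,0,2,0]), (15,[1,0,2,0]), (12,[1,0,2,0]), (53,[1,0,2,0]),
      (25,[1,0,2,0]), (10,[2,0,1,1]), (27,[2,0,1,1]), (41,[2,0,1,1]), (30,[2,0,1,1]),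
      (2,[2,0,1,1]), (55,[2,0,1,1]), (50,[2,0,1,1]), (23,[2,0,1,1]), (15,[2,0,1,1]),
      (12,[2,0,1,1]), (53,[2,0,1,1]), (25,[2,0,1,1]), (18,[2,2,0,1]), (43,[2,2,0,1]),
      (54,[2,2,0,1]), (40,[2,2,0,1]), (5,[2,2,0,1]), (13,[2,2,0,1]), (6,[2,2,0,1]),
      (16,[2,2,0,1]), (26,[2,2,0,1])]),
    (6,[(24,[1,0,2]), (31,[1,0,2]), (24,[1,0,2,0]), (31,[1,0,2,0]), (24,[2,0,1,1]),
      (31,[2,0,1,1]), (47,[2,0,1,1]), (5,[2,0,1,1]), (46,[2,0,1,1]), (2,[2,0,1,1]),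
      (24,[2,2,0,1]), (31,[2,2,0,1]), (47,[2,2,0,1]), (5,[2,2,0,1]), (46,[2,2,0,1]),
      (2,[2,2,0,1]), (8,[1,0,2,0,1]), (14,[1,0,2,0,1]), (19,[1,0,2,0,1]), (21,[1,0,2,0,1]),
      (34,[1,0,2,0,1]), (45,[1,0,2,0,1]), (56,[1,0,2,0,1]), (47,[1,0,2,0,1]), (5,[1,0,2,0,1]),
      (46,[1,0,2,0,1]), (2,[1,0,2,0,1]), (26,[1,0,2,0,1]), (27,[1,0,2,0,1]), (57,[1,0,2,0,1]),
      (12,[1,0,2,0,1]), (16,[1,0,2,0,1]), (1,[1,1,0,2,2]), (52,[1,1,0,2,2]), (20,[1,1,0,2,2]),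
      (33,[1,1,0,2,2]), (18,[1,1,0,2,2]), (43,[1,1,0,2,2]), (23,[1,1,0,2,2]), (54,[1,1,0,2,2]),
      (36,[2,0,1,1,0]), (44,[2,0,1,1,0]), (9,[2,0,1,1,0]), (58,[2,0,1,1,0]), (38,[2,0,1,1,0]),
      (22,[2,0,1,1,0])]),
    (6,[]),
    (3,[]),
    (3,[]),
    (6,[(35,[2,0,1,1]), (52,[2,0,1,1]), (57,[2,0,1,1]), (35,[2,2,0,1]), (52,[2,2,0,1]),
      (57,[2,2,0,1]), (35,[2,2,0,1,0]), (52,[2,2,0,1,0]), (57,[2,2,0,1,0]), (19,[2,2,0,1,1]),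
      (21,[2,2,0,1,1]), (29,[2,2,0,1,1]), (32,[2,2,0,1,1]), (34,[2,2,0,1,1]), (37,[2,2,0,1,1]),
      (45,[2,2,0,1,1]), (49,[2,2,0,1,1]), (56,[2,2,0,1,1]), (44,[2,2,0,1,1]), (48,[2,2,0,1,1]),
      (31,[2,2,0,1,1]), (2,[2,2,0,1,1]), (15,[2,2,0,1,1]), (25,[2,2,0,1,1]), (5,[2,2,0,1,1]),
      (26,[2,2,0,1,1]), (16,[2,2,0,1,1]), (1,[1,0,1,1,0,1]), (46,[1,0,1,1,0,1]),
      (24,[1,0,1,1,0,1]), (3,[1,0,1,1,0,1]), (28,[1,0,1,1,0,1]), (33,[1,0,1,1,0,1]),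
      (36,[1,0,1,1,0,1]), (51,[1,0,1,1,0,1]), (59,[1,0,1,1,0,1]), (27,[1,0,1,1,0,1]),
      (10,[1,0,1,1,0,1]), (41,[1,0,1,1,0,1]), (46,[2,0,1,0,1,1]), (28,[2,0,1,0,1,1]),
      (33,[2,0,1,0,1,1]), (27,[2,0,1,0,1,1]), (10,[2,0,1,0,1,1]), (41,[2,0,1,0,1,1])]),
    (3,[]),
    (6,[(35,[2,0,1]), (52,[2,0,1]), (57,[2,0,1]), (28,[1,0,2,0]), (33,[1,0,2,0]), (46,[1,0,2,0]),
      (20,[1,1,0,1,1]), (17,[1,1,0,1,1]), (47,[1,1,0,1,1]), (10,[2,2,0,1,1]), (18,[2,2,0,1,1]),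
      (27,[2,2,0,1,1]), (36,[2,2,0,1,1]), (41,[2,2,0,1,1]), (43,[2,2,0,1,1]), (51,[2,2,0,1,1]),
      (54,[2,2,0,1,1]), (59,[2,2,0,1,1]), (28,[2,2,0,1,1]), (33,[2,2,0,1,1]), (46,[2,2,0,1,1]),
      (20,[2,2,0,1,1]), (17,[2,2,0,1,1]), (47,[2,2,0,1,1]), (1,[2,2,0,1,1]), (24,[2,2,0,1,1]),
      (3,[2,2,0,1,1]), (26,[2,2,0,2,2]), (44,[2,2,0,2,2]), (5,[2,2,0,2,2]), (48,[2,2,0,2,2]),
      (16,[2,2,0,2,2]), (31,[2,2,0,2,2]), (45,[2,2,0,2,2]), (49,[2,2,0,2,2]), (34,[2,2,0,2,2]),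
      (19,[2,2,0,2,2]), (29,[2,2,0,2,2]), (32,[2,2,0,2,2]), (44,[1,0,2,2,0,1]),
      (48,[1,0,2,2,0,1]), (31,[1,0,2,2,0,1]), (19,[1,0,2,2,0,1]), (29,[1,0,2,2,0,1]),
      (32,[1,0,2,2,0,1])]),
    (6,[(24,[1,0,2]), (31,[1,0,2]), (24,[1,0,2,0]), (31,[1,0,2,0]), (8,[1,0,2,0,1]),
      (14,[1,0,2,0,1]), (35,[1,0,2,0,1]), (52,[1,0,2,0,1]), (57,[1,0,2,0,1]), (47,[1,0,2,0,1]),
      (5,[1,0,2,0,1]), (46,[1,0,2,0,1]), (2,[1,0,2,0,1]), (8,[2,0,1,0,2]), (14,[2,0,1,0,2]),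
      (35,[2,0,1,0,2]), (52,[2,0,1,0,2]), (57,[2,0,1,0,2]), (47,[2,0,1,0,2]), (5,[2,0,1,0,2]),
      (46,[2,0,1,0,2]), (2,[2,0,1,0,2]), (47,[2,2,0,1,1]), (5,[2,2,0,1,1]), (46,[2,2,0,1,1]),
      (2,[2,2,0,1,1]), (39,[2,2,0,1,1]), (18,[2,2,0,1,1]), (42,[2,2,0,1,1]), (10,[2,2,0,1,1]),
      (49,[2,2,0,1,1]), (38,[2,2,0,1,1]), (37,[2,2,0,1,1]), (50,[2,2,0,1,1]), (3,[1,0,1,1,0,1,1]),
      (51,[1,0,1,1,0,1,1]), (42,[1,0,1,1,0,1,1]), (10,[1,0,1,1,0,1,1]), (48,[1,0,1,1,0,1,1]),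
      (32,[1,0,1,1,0,1,1]), (37,[1,0,1,1,0,1,1]), (50,[1,0,1,1,0,1,1]), (11,[1,0,1,1,0,1,1]),
      (15,[1,0,1,1,0,1,1]), (28,[1,0,1,1,0,1,1]), (55,[1,0,1,1,0,1,1]), (54,[1,0,2,0,1]),
      (20,[1,0,2,0,1]), (33,[1,0,2,0,1]), (23,[1,0,2,0,1]), (13,[1,0,2,0,1]), (41,[1,0,2,0,1])]),
    (6,[]),
    (4,[]),
    (4,[]),
    (6,[(19,[2,0,1]), (21,[2,0,1]), (29,[2,0,1]), (32,[2,0,1]), (34,[2,0,1]), (37,[2,0,1]),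
      (45,[2,0,1]), (49,[2,0,1]), (56,[2,0,1]), (30,[1,0,2,0]), (2,[1,0,2,0]), (55,[1,0,2,0]),
      (50,[1,0,2,0]), (23,[1,0,2,0]), (15,[1,0,2,0]), (12,[1,0,2,0]), (53,[1,0,2,0]),
      (25,[1,0,2,0]), (10,[2,0,1,1]), (27,[2,0,1,1]), (41,[2,0,1,1]), (30,[2,0,1,1]),
      (2,[2,0,1,1]), (55,[2,0,1,1]), (50,[2,0,1,1]), (23,[2,0,1,1]), (15,[2,0,1,1]),
      (12,[2,0,1,1]), (53,[2,0,1,1]), (25,[2,0,1,1]), (18,[2,2,0,1]), (43,[2,2,0,1]),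
      (54,[2,2,0,1]), (40,[2,2,0,1]), (5,[2,2,0,1]), (13,[2,2,0,1]), (6,[2,2,0,1]),
      (16,[2,2,0,1]), (26,[2,2,0,1])]),
    (6,[(35,[2,0,1]), (52,[2,0,1]), (57,[2,0,1]), (28,[1,0,2,0]), (33,[1,0,2,0]), (46,[1,0,2,0]),
      (20,[1,1,0,1,1]), (17,[1,1,0,1,1]), (47,[1,1,0,1,1]), (10,[2,2,0,1,1]), (18,[2,2,0,1,1]),
      (27,[2,2,0,1,1]), (36,[2,2,0,1,1]), (41,[2,2,0,1,1]), (43,[2,2,0,1,1]), (51,[2,2,0,1,1]),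
      (54,[2,2,0,1,1]), (59,[2,2,0,1,1]), (28,[2,2,0,1,1]), (33,[2,2,0,1,1]), (46,[2,2,0,1,1]),
      (20,[2,2,0,1,1]), (17,[2,2,0,1,1]), (47,[2,2,0,1,1]), (1,[2,2,0,1,1]), (24,[2,2,0,1,1]),
      (3,[2,2,0,1,1]), (26,[2,2,0,2,2]), (44,[2,2,0,2,2]), (5,[2,2,0,2,2]), (48,[2,2,0,2,2]),
      (16,[2,2,0,2,2]), (31,[2,2,0,2,2]), (45,[2,2,0,2,2]), (49,[2,2,0,2,2]), (34,[2,2,0,2,2]),
      (19,[2,2,0,2,2]), (29,[2,2,0,2,2]), (32,[2,2,0,2,2]), (44,[1,0,2,2,0,1]),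
      (48,[1,0,2,2,0,1]), (31,[1,0,2,2,0,1]), (19,[1,0,2,2,0,1]), (29,[1,0,2,2,0,1]),
      (32,[1,0,2,2,0,1])]),
    (4,[]),
    (6,[(24,[1,0,2]), (31,[1,0,2]), (24,[2,0,1]), (31,[2,0,1]), (47,[2,0,1]), (5,[2,0,1]),
      (24,[1,0,2,0]), (31,[1,0,2,0]), (3,[1,0,2,0]), (42,[1,0,2,0]), (20,[1,0,2,0]),
      (13,[1,0,2,0]), (46,[2,0,1,0]), (2,[2,0,1,0]), (33,[2,0,1,0]), (23,[2,0,1,0]),
      (10,[1,0,2,0,1]), (18,[1,0,2,0,1]), (27,[1,0,2,0,1]), (36,[1,0,2,0,1]), (41,[1,0,2,0,1]),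
      (43,[1,0,2,0,1]), (51,[1,0,2,0,1]), (54,[1,0,2,0,1]), (59,[1,0,2,0,1]), (3,[1,0,2,0,1]),
      (42,[1,0,2,0,1]), (20,[1,0,2,0,1]), (13,[1,0,2,0,1]), (33,[1,0,2,0,1]), (23,[1,0,2,0,1]),
      (1,[1,0,2,0,1]), (39,[1,0,2,0,1]), (34,[1,0,2,0,1]), (21,[1,0,2,0,1]), (1,[1,1,0,1,1]),
      (50,[1,1,0,1,1]), (19,[1,1,0,1,1]), (30,[1,1,0,1,1]), (32,[1,1,0,1,1]), (48,[1,1,0,1,1]),
      (37,[1,1,0,1,1]), (40,[1,1,0,1,1]), (20,[2,0,1,0,2]), (13,[2,0,1,0,2]), (21,[2,0,1,0,2])]),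
    (6,[]),
    (5,[]),
    (6,[(24,[1,0,2]), (31,[1,0,2]), (24,[1,0,2,0]), (31,[1,0,2,0]), (8,[1,0,2,0,1]),
      (14,[1,0,2,0,1]), (47,[1,0,2,0,1]), (5,[1,0,2,0,1]), (46,[1,0,2,0,1]), (2,[1,0,2,0,1]),
      (8,[2,0,1,0,2]), (14,[2,0,1,0,2]), (47,[2,0,1,0,2]), (5,[2,0,1,0,2]), (46,[2,0,1,0,2]),
      (2,[2,0,1,0,2]), (1,[1,0,2]), (3,[1,0,2]), (39,[1,0,2]), (18,[1,0,2]), (42,[1,0,2]),
      (10,[1,0,2]), (44,[1,0,2]), (48,[1,0,2]), (49,[1,0,2]), (38,[1,0,2]), (37,[1,0,2]),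
      (50,[1,0,2]), (1,[1,0,2,0]), (3,[1,0,2,0]), (39,[1,0,2,0]), (18,[1,0,2,0]), (42,[1,0,2,0]),
      (10,[1,0,2,0]), (44,[1,0,2,0]), (48,[1,0,2,0]), (49,[1,0,2,0]), (38,[1,0,2,0]),
      (37,[1,0,2,0]), (50,[1,0,2,0]), (20,[1,0,2,0,1]), (13,[1,0,2,0,1]), (41,[1,0,2,0,1]),
      (26,[1,0,2,0,1]), (19,[1,0,2,0,1]), (7,[1,0,2,0,1]), (33,[1,0,2,0,1]), (23,[1,0,2,0,1]),
      (54,[1,0,2,0,1]), (15,[1,0,2,0,1]), (32,[1,0,2,0,1]), (11,[1,0,2,0,1]), (15,[2,0,1,1,0,1]),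
      (32,[2,0,1,1,0,1]), (11,[2,0,1,1,0,1])]),
    (6,[(24,[1,0,2]), (31,[1,0,2]), (24,[1,0,2,0]), (31,[1,0,2,0]), (24,[2,0,1,1]),
      (31,[2,0,1,1]), (47,[2,0,1,1]), (5,[2,0,1,1]), (46,[2,0,1,1]), (2,[2,0,1,1]),
      (24,[2,2,0,1]), (31,[2,2,0,1]), (47,[2,2,0,1]), (5,[2,2,0,1]), (46,[2,2,0,1]),
      (2,[2,2,0,1]), (8,[1,0,2,0,1]), (14,[1,0,2,0,1]), (19,[1,0,2,0,1]), (21,[1,0,2,0,1]),
      (34,[1,0,2,0,1]), (45,[1,0,2,0,1]), (56,[1,0,2,0,1]), (47,[1,0,2,0,1]), (5,[1,0,2,0,1]),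
      (46,[1,0,2,0,1]), (2,[1,0,2,0,1]), (26,[1,0,2,0,1]), (27,[1,0,2,0,1]), (57,[1,0,2,0,1]),
      (12,[1,0,2,0,1]), (16,[1,0,2,0,1]), (1,[1,1,0,2,2]), (52,[1,1,0,2,2]), (20,[1,1,0,2,2]),
      (33,[1,1,0,2,2]), (18,[1,1,0,2,2]), (43,[1,1,0,2,2]), (23,[1,1,0,2,2]), (54,[1,1,0,2,2]),
      (36,[2,0,1,1,0]), (44,[2,0,1,1,0]), (9,[2,0,1,1,0]), (58,[2,0,1,1,0]), (38,[2,0,1,1,0]),
      (22,[2,0,1,1,0])]),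
    (6,[(24,[1,0,2]), (31,[1,0,2]), (24,[1,0,2,0]), (31,[1,0,2,0]), (8,[1,0,2,0,1]),
      (14,[1,0,2,0,1]), (35,[1,0,2,0,1]), (52,[1,0,2,0,1]), (57,[1,0,2,0,1]), (47,[1,0,2,0,1]),
      (5,[1,0,2,0,1]), (46,[1,0,2,0,1]), (2,[1,0,2,0,1]), (8,[2,0,1,0,2]), (14,[2,0,1,0,2]),
      (35,[2,0,1,0,2]), (52,[2,0,1,0,2]), (57,[2,0,1,0,2]), (47,[2,0,1,0,2]), (5,[2,0,1,0,2]),
      (46,[2,0,1,0,2]), (2,[2,0,1,0,2]), (47,[2,2,0,1,1]), (5,[2,2,0,1,1]), (46,[2,2,0,1,1]),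
      (2,[2,2,0,1,1]), (39,[2,2,0,1,1]), (18,[2,2,0,1,1]), (42,[2,2,0,1,1]), (10,[2,2,0,1,1]),
      (49,[2,2,0,1,1]), (38,[2,2,0,1,1]), (37,[2,2,0,1,1]), (50,[2,2,0,1,1]), (3,[1,0,1,1,0,1,1]),
      (51,[1,0,1,1,0,1,1]), (42,[1,0,1,1,0,1,1]), (10,[1,0,1,1,0,1,1]), (48,[1,0,1,1,0,1,1]),
      (32,[1,0,1,1,0,1,1]), (37,[1,0,1,1,0,1,1]), (50,[1,0,1,1,0,1,1]), (11,[1,0,1,1,0,1,1]),
      (15,[1,0,1,1,0,1,1]), (28,[1,0,1,1,0,1,1]), (55,[1,0,1,1,0,1,1]), (54,[1,0,2,0,1]),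
      (20,[1,0,2,0,1]), (33,[1,0,2,0,1]), (23,[1,0,2,0,1]), (13,[1,0,2,0,1]), (41,[1,0,2,0,1])]),
    (6,[(24,[1,0,2]), (31,[1,0,2]), (24,[2,0,1]), (31,[2,0,1]), (47,[2,0,1]), (5,[2,0,1]),
      (24,[1,0,2,0]), (31,[1,0,2,0]), (3,[1,0,2,0]), (42,[1,0,2,0]), (20,[1,0,2,0]),
      (13,[1,0,2,0]), (46,[2,0,1,0]), (2,[2,0,1,0]), (33,[2,0,1,0]), (23,[2,0,1,0]),
      (10,[1,0,2,0,1]), (18,[1,0,2,0,1]), (27,[1,0,2,0,1]), (36,[1,0,2,0,1]), (41,[1,0,2,0,1]),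
      (43,[1,0,2,0,1]), (51,[1,0,2,0,1]), (54,[1,0,2,0,1]), (59,[1,0,2,0,1]), (3,[1,0,2,0,1]),
      (42,[1,0,2,0,1]), (20,[1,0,2,0,1]), (13,[1,0,2,0,1]), (33,[1,0,2,0,1]), (23,[1,0,2,0,1]),
      (1,[1,0,2,0,1]), (39,[1,0,2,0,1]), (34,[1,0,2,0,1]), (21,[1,0,2,0,1]), (1,[1,1,0,1,1]),
      (50,[1,1,0,1,1]), (19,[1,1,0,1,1]), (30,[1,1,0,1,1]), (32,[1,1,0,1,1]), (48,[1,1,0,1,1]),
      (37,[1,1,0,1,1]), (40,[1,1,0,1,1]), (20,[2,0,1,0,2]), (13,[2,0,1,0,2]), (21,[2,0,1,0,2])]),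
    (5,[]),
    (6,[]),
    (6,[]),
    (6,[]),
    (6,[]),
    (6,[]),
    (6,[]),
    (6,[]),
    (6,[])]

theorem rep28 : IsConLattice (maskRel (7, 284795138551679)) :=
  Trans.isConLattice_of_check (C := cert28) (by decide +kernel)

end Vale.Agent.P183.Reps
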