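import Vale.Agent.P183.Closure

/-! Cutting a small lattice out of a larger congruence lattice. -/

namespace Vale.Agent.P183

def subB (c d : ℕ × ℕ) (x y : ℕ) (p : List ℕ) : Bool :=
  p.length == d.1 && decide (x < c.1) && decide (y < c.1) &&
  ((List.range d.1).all fun i => decide (p.getD i 0 < c.1) &&
    (c.2.testBit (c.1 * x + p.getD i 0) || c.2.testBit (c.1 * p.getD i 0 + y))) &&
  ((List.range c.1).all fun e => !(c.2.testBit (c.1 * x + e) || c.2.testBit (c.1 * e + y)) ||
    p.contains e) &&
  (List.range d.1).all fun i => (List.range d.1).all fun j =>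
    (d.2.testBit (d.1 * i + j) == c.2.testBit (c.1 * p.getD i 0 + p.getD j 0)) &&
      ((i == j) || (p.getD i 0 != p.getD j 0))

theorem isConLattice_sub {c d : ℕ × ℕ} (h : IsConLattice (maskRel c)) (x y : ℕ) (p : List ℕ)
    (hB : subB c d x y p = true) : IsConLattice (maskRel d) := by
  simp only [subB, Bool.and_eq_true, List.all_eq_true, List.mem_range, decide_eq_true_eq,
    beq_iff_eq, Bool.or_eq_true, Bool.not_eq_true', List.contains_iff_mem, bne_iff_ne] at hB
  obtain ⟨⟨⟨⟨⟨hlen, hx⟩, hy⟩, hin⟩, hcov⟩, hord⟩ := hB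
  let g : Fin d.1 → {e : Fin c.1 //
      maskRel c ⟨x, hx⟩ e ∨ maskRel c e ⟨y, hy⟩} := fun i =>
    ⟨⟨p.getD i.val 0, (hin i.val i.isLt).1⟩, (hin i.val i.isLt).2⟩
  have hg : Function.Bijective g := by
    refine ⟨fun i j hij => ?_, fun e => ?_⟩
    · have e1 : p.getD i.val 0 = p.getD j.val 0 := congrArg (fun t => t.1.val) hij
      rcases (hord i.val i.isLt j.val j.isLt).2 with h | h
      · exact Fin.ext h
      · exact absurd e1 h
    · have he : e.1.val ∈ p := by
        rcases hcov e.1.val e.1.isLt with h | h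
        · exfalso
          have h2 := e.2
          simp only [maskRel] at h2
          rcases h2 with h2 | h2 <;> simp [h2] at h
        · exact h
      obtain ⟨i, hi, hie⟩ := List.getElem_of_mem he
      refine ⟨⟨i, by omega⟩, Subtype.ext (Fin.ext ?_)⟩
      simp only [g]
      rw [List.getD_eq_getElem _ _ hi, hie]
  refine (filter_ideal h ⟨x, hx⟩ ⟨y, hy⟩).congr (Equiv.ofBijective g hg) fun i j => ?_
  change d.2.testBit (d.1 * i.val + j.val) = true ↔
    c.2.testBit (c.1 * p.getD i.val 0 + p.getD j.val 0) = true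
  rw [(hord i.val i.isLt j.val j.isLt).1]

end Vale.Agent.P183
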