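import Vale.Agent.P183.Trans
import Vale.Agent.P183.Sub

/-! The lattice with index 34: a transitive unary algebra on 144 points. Generated. -/

set_option maxRecDepth 100000

namespace Vale.Agent.P183.Reps

def js34c0 : List (ℕ × List (ℕ × List ℕ)) := [
    (0,[]),
    (1,[]),
    (2,[]),
    (3,[]),
    (4,[]),
    (5,[]),
    (6,[]),
    (7,[]),
    (8,[]),
    (9,[]),
    (10,[]),
    (11,[]),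
    (12,[]),
    (13,[]),
    (14,[]),
    (15,[]),
    (16,[]),
    (17,[]),
    (18,[]),
    (19,[])]
def js34c1 : List (ℕ × List (ℕ × List ℕ)) := [
    (1,[]),
    (1,[]),
    (14,[(97,[3,4]), (139,[4,4,2]), (24,[4,4,4]), (90,[2,0,2,5]), (97,[2,0,2,5]), (24,[0,3,5,3]), (97,[3,5,5]), (139,[4,4,4])]),
    (15,[(97,[2,0,4]), (128,[4,4,4]), (97,[1,1,4,4]), (74,[4,4,4]), (97,[2,4,2]), (128,[0,3,5]), (80,[2,0,4]), (80,[1,1,4,4])]),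
    (15,[(77,[4,4,4]), (97,[3,0,2]), (97,[0,3,5]), (82,[4,4,4]), (97,[2,2,2]), (46,[2,2,2]), (97,[2,1,4]), (46,[0,3,5])]),
    (14,[(110,[4,4,4]), (118,[0,3,0,2]), (97,[0,2,2,2]), (110,[0,4,0,3]), (97,[0,3,0,2]), (113,[4,4,4]), (120,[0,4,0,3]), (113,[0,4,0,3])]),
    (6,[]),
    (7,[]),
    (8,[]),
    (9,[]),
    (19,[(21,[4,4,4]), (43,[1,1,4,4]), (97,[2,0,4]), (97,[0,2,2,2]), (46,[0,4,0,3]), (97,[0,4,0]), (110,[0,3,3]), (21,[0,4,0,3]), (47,[0,3,3]), (97,[0,3,3,5]), (47,[0,0,2]), (97,[0,5,0,3]), (126,[0,4,0,3]), (97,[2,5]), (97,[1,1,4,4]), (13,[2,1,4]), (13,[0,3,3]), (116,[1,1,3,3]), (13,[0,3,5]), (113,[4,4,4]), (47,[4,4,4]), (96,[1,3,5,0]), (43,[0,3,0,2]), (74,[4,4,4]), (80,[2,5]), (43,[2,4,2]), (110,[4,4,4]), (118,[0,3,3,5]), (13,[0,0,2]), (123,[4,4,4]), (80,[1,3,0,5]), (128,[4,4,4]),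 (116,[4,4,4]), (57,[3,0]), (126,[0,3,5]), (13,[2,4,2]), (126,[0,3,3]), (80,[0,3,3,5]), (80,[0,3,1]), (43,[1,3,0,5]), (44,[0,0,2]), (43,[2,0,4]), (43,[0,4,0]), (44,[0,3,5]), (43,[1,3,5,0]), (22,[1,3,5,0]), (97,[0,3,0,2]), (34,[3,5,5]), (97,[0,3,1]), (43,[0,3,3,5]), (52,[0,5,0,0]), (135,[0,3,1]), (43,[0,2,2,2]), (80,[0,2,2,2]), (21,[3,5,5]), (128,[0,4,0,3]), (118,[0,3,1]), (47,[1,2]), (110,[1,2]), (128,[0,3,3]), (126,[0,0,2]), (34,[1,2]), (34,[2,1,4]), (128,[1,2]), (21,[0,0,2]), (113,[0,3,5]), (110,[0,3,5]), (80,[0,5,0,3]), (80,[1,3,5,0]), (126,[1,2]), (96,[0,3,3,5]), (34,[0,4,0,3]), (110,[0,4,0,3]), (135,[0,2,2]), (47,[0,3,5]), (135,[1,3,5,0]), (135,[2,0,4]), (126,[0,5,3]), (96,[1,3,0,5]), (47,[3,5,5]), (126,[1,1,3,3]), (118,[1,3,0,5]), (97,[2,4,2]), (13,[0,4,0,3]), (13,[1,3,5,0]), (118,[0,5,0,3]),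 (128,[0,3,5]), (34,[0,3,5]), (97,[1,3,5,0]), (34,[0,3,3]), (44,[1,2]), (113,[1,2]), (47,[0,4,0,3]), (80,[0,3,0,2]), (118,[1,3,5,0]), (57,[0,2,2]), (43,[0,3,1]), (44,[0,4,0,3]), (135,[2,4,2]), (21,[1,2]), (120,[2,4,2]), (52,[1,3,0,5]), (80,[2,0,4]), (113,[0,3,3]), (46,[0,3,3]), (34,[0,0,2]), (74,[0,0,2]), (135,[1,1,4,4]), (120,[1,2]), (80,[0,4,0]), (57,[0,3,1]), (120,[0,4,0,3]), (126,[3,5,5]), (21,[0,3,5]), (118,[3,0]), (93,[2,4,2]), (21,[0,3,3]), (43,[0,5,0,3]), (96,[2,4,2]), (135,[0,3,0,2]), (135,[0,4,0]), (13,[1,2]), (135,[0,3,3,5]), (90,[0,3,3]), (80,[1,1,4,4]), (43,[2,5]), (135,[0,2,2,2]), (135,[2,5]), (22,[0,5,0,3]), (44,[1,3,5,0]), (44,[3,5,5]), (135,[0,5,0,3]), (44,[1,1,3,3]), (135,[3,0])]),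
    (19,[(97,[5,0,4]), (24,[1,3,0,5]), (52,[4,4,4]), (13,[2,0,2,5]), (13,[3,0,2]), (77,[4,4,4]), (46,[2,4,1]), (13,[3,0,4]), (97,[2,4,1]), (99,[3,0]), (79,[4,4,4]), (34,[2,0,2,5]), (82,[4,4,4]), (13,[2,1,4]), (84,[4,4,4]), (13,[0,3,3]), (34,[0,5,3]), (13,[0,3,5]), (24,[4,4,4]), (90,[5,0,4]), (97,[3,4]), (132,[4,4,2]), (13,[3,4]), (97,[0,5,3]), (97,[2,2,2]), (43,[2,4,2]), (90,[1,2]), (13,[0,0,2]), (75,[2,4,1]), (75,[5,0,4]), (97,[1,2]), (44,[3,0,2]), (99,[4,4,4]), (126,[0,3,3]), (75,[1,1,3,3]), (13,[3,5,5]), (43,[1,3,0,5]), (44,[0,0,2]), (90,[2,4,1]), (13,[2,4,1]), (44,[0,3,5]), (44,[0,3,3]), (97,[3,0,4]), (22,[1,3,5,0]), (34,[3,4]), (90,[0,5,3]), (115,[2,4,2]), (135,[0,3,1]), (97,[2,0,2,5]), (135,[0,3,5,3]), (46,[1,1,3,3]), (46,[0,5,3]), (46,[0,0,2]), (139,[3,0]), (97,[0,3,3]), (44,[0,5,3]),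 (34,[2,2,2]), (75,[1,2]), (126,[0,0,2]), (34,[1,2]), (34,[2,1,4]), (75,[0,3,3]), (13,[0,5,3]), (97,[3,0,2]), (43,[1,1,5]), (22,[1,1,5]), (75,[0,0,2]), (75,[0,5,3]), (126,[1,2]), (13,[2,2,2]), (126,[2,0,2,5]), (139,[4,4,2]), (34,[3,0,4]), (135,[1,1,5]), (135,[1,3,5,0]), (132,[1,1,5]), (84,[0,3,1]), (139,[2,4,2]), (75,[3,0,4]), (126,[1,1,3,3]), (97,[0,3,5]), (90,[3,0,4]), (46,[2,0,2,5]), (90,[0,3,5]), (90,[3,0,2]), (34,[0,3,3]), (44,[1,2]), (90,[0,0,2]), (46,[5,0,4]), (46,[1,2]), (90,[2,2,2]), (76,[1,1,5]), (43,[0,3,1]), (75,[2,0,2,5]), (135,[2,4,2]), (34,[2,4,1]), (52,[1,3,0,5]), (46,[2,2,2]), (90,[1,1,3,3]), (46,[0,3,3]), (34,[0,0,2]), (44,[2,0,2,5]), (22,[2,4,2]), (132,[2,4,2]), (46,[3,5,5]), (46,[3,0,4]), (90,[2,0,2,5]), (24,[0,3,5,3]), (99,[4,4,2]), (97,[3,5,5]), (24,[0,3,1]), (97,[0,0,2]),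 (44,[2,4,1]), (13,[5,0,4]), (139,[4,4,4]), (44,[5,0,4]), (83,[5,0]), (96,[0,3,5]), (96,[2,4,2]), (22,[4,4,2]), (30,[2,1,5]), (97,[2,1,4]), (13,[1,2]), (99,[1,3,5,0]), (90,[0,3,3]), (46,[0,3,5]), (34,[5,0,4]), (43,[0,3,5,3]), (30,[0,3,1,3]), (115,[1,3,0,5]), (46,[3,4]), (44,[3,0,4]), (22,[1,3,0,5]), (135,[3,0])]),
    (12,[]),
    (13,[]),
    (14,[]),
    (15,[]),
    (16,[]),
    (17,[]),
    (18,[]),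
    (19,[])]
def js34c2 : List (ℕ × List (ℕ × List ℕ)) := [
    (2,[]),
    (14,[(97,[3,4]), (139,[4,4,2]), (24,[4,4,4]), (90,[2,0,2,5]), (97,[2,0,2,5]), (24,[0,3,5,3]), (97,[3,5,5]), (139,[4,4,4])]),
    (2,[]),
    (19,[(24,[2,0,4]), (3,[2]), (24,[1,1,4,4]), (49,[0,4,4]), (19,[1,1,2,0]), (139,[1,1,4,4]), (63,[2,2]), (74,[2,0,2,5]), (3,[3,4]), (3,[2,0,2,5]), (49,[2,2]), (74,[3,4]), (4,[2,0,2]), (72,[2]), (128,[3,4]), (24,[0,2,5]), (138,[1,5,0]), (41,[2]), (72,[1,1,4,4]), (41,[1,4,1,5]), (72,[0,2,5]), (41,[0,2,5]), (73,[5,3]), (6,[5,3]), (63,[2]), (125,[2,2]), (3,[0,4,4]), (119,[2,2]), (72,[3]), (125,[1,1,2,0]), (139,[2,0,4]), (81,[0,4,4]), (5,[3]), (128,[2]), (127,[1,1,2,0]), (4,[3]), (128,[2,0,2,5]), (88,[3]), (5,[1,4,1,5]), (127,[1,3,3]), (63,[2,5,1]), (5,[4]), (49,[2]), (35,[1,1,2,0]),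 (74,[2]), (6,[5]), (72,[2,0,2]), (102,[1,4,1,5]), (137,[2,2]), (74,[0,4,4]), (134,[2,2]), (63,[0,4,4]), (63,[1,3,3]), (5,[0,2,5]), (139,[2,0,2]), (49,[1,4,0]), (66,[0,0,2,1]), (102,[2,0,2,2]), (134,[0,0,3]), (138,[1,4,0]), (31,[5]), (49,[3,4]), (5,[2,0,2,2]), (88,[2,0,2]), (31,[1,3,3]), (102,[2]), (41,[3,3,4]), (125,[1,3,3]), (41,[3]), (5,[1,1,2,0]), (49,[4]), (19,[5]), (119,[5,1]), (81,[2,5,1]), (72,[3,3,4]), (5,[0,4,0,2]), (137,[2,5,1]), (41,[0,0,2,1]), (66,[1,4,1,5]), (49,[2,0,2,5]), (138,[0,4,2,5]), (5,[1,1,4,1]), (127,[2,2]), (88,[2,0,3]), (3,[2,2]), (127,[4]), (31,[4]), (66,[1,1,4,1]), (19,[1,3,3]), (134,[1,3,3]), (81,[2,2]), (137,[1,3,3]), (66,[3,3,4]), (88,[0,2,5]), (5,[3,3,4]), (102,[3,3,4]), (72,[1,1,4,1]), (119,[0,4,0,2]), (102,[1,3,3]), (72,[5,1]), (5,[2,2]), (35,[5]), (102,[1,1,2,0]),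 (4,[0,2,5]), (41,[5,1]), (24,[3,3,4]), (81,[1,4,0]), (119,[3,3,4]), (41,[1,1,4,1]), (19,[0,0,2,1]), (138,[5]), (81,[5]), (119,[2,0,2,2]), (3,[1,3,3]), (6,[1,1,4,1]), (4,[1,1,4,1]), (102,[0,4,0,2]), (127,[5]), (72,[0,0,2,1]), (5,[0,0,2,1]), (66,[2,2]), (139,[3]), (3,[1,1,2,0]), (102,[0,2,5]), (88,[1,1,4,4]), (63,[4]), (102,[2,2]), (102,[5,1]), (102,[0,0,2,1]), (4,[1,1,4,4]), (88,[3,3,4]), (31,[1,1,2,0]), (31,[2,2]), (8,[0,0,2,1]), (49,[2,5,1]), (138,[2,5,1]), (4,[3,3,4]), (66,[0,2,5]), (49,[1,3,3])]),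
    (11,[(77,[3,4]), (24,[3,0,2]), (24,[2,2,2]), (77,[2,0,2,5])]),
    (14,[(24,[0,3,0,2]), (113,[3,4]), (139,[0,3,0,2]), (24,[0,2,2,2]), (111,[1,3,5]), (139,[0,2,2,2]), (113,[2,0,2,5])]),
    (18,[(24,[0,0,5]), (97,[1,5]), (24,[4,4,4]), (37,[2,0,2,5]), (90,[0,5,0]), (92,[1,5]), (24,[4,1,1]), (16,[1,4,1]), (92,[3,4]), (60,[4,4,4]), (37,[3,4]), (26,[4,4,4]), (26,[0,5,0]), (60,[1,4,1]), (97,[1,4,1]), (16,[2,0,2,5]), (90,[1,5]), (92,[2,0,2,5]), (60,[1,1,3]), (67,[1,5]), (67,[4,0]), (139,[4,0]), (139,[0,0,5]), (26,[1,4,1]), (37,[1,5]), (97,[3,4]), (55,[4,0]), (50,[4,4,2]), (26,[4,1,1]), (139,[4,1,1]), (55,[4,4,4]), (90,[2,0,2,5]), (16,[0,5,0]), (97,[3,5,5]), (97,[2,0,2,5]), (96,[1,1,3]), (139,[4,4,4]), (139,[0,5,0]), (92,[1,4,1]), (90,[1,4,1]), (16,[3,5,5]), (67,[1,4,1])]),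
    (14,[(24,[4,4,4]), (24,[1,3,5]), (24,[0,2,2,4]), (111,[2,0,2,5]), (97,[2,0,2,5]), (65,[3,4])]),
    (18,[(24,[0,0,2,0]), (97,[2,0,2,5]), (101,[2,0,2,5]), (118,[2,4]), (8,[3,4]), (97,[3,4]), (96,[0,0,2,0]), (8,[0,2]), (133,[2,0,2,5]), (139,[1,3,1,1]), (20,[4,4,4]), (24,[1,3,1,1]), (32,[2,0,2,5]), (24,[4,4,4]), (90,[0,2]), (101,[3,5,5]), (8,[3,5,5]), (139,[0,0,2,0]), (133,[3,5,5]), (101,[3,4]), (139,[1,3,0]), (20,[3,5,5]), (139,[4,4,2]), (96,[1,3,1,1]), (32,[5,3]), (96,[5,3]), (61,[5,3]), (90,[5,3]), (96,[1,3,0]), (90,[2,4]), (101,[0,2]), (96,[0,2]), (133,[3,4]), (90,[2,0,2,5]), (24,[0,3,5,3]), (97,[3,5,5]), (139,[2,4]), (139,[4,4,4]), (96,[2,2]), (133,[0,2]), (8,[2,0,2,5]), (8,[4,4,2])]),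
    (18,[(24,[0,0,2,0]), (24,[4,4,4]), (37,[2,0,2,5]), (90,[0,5,0]), (24,[0,0,5]), (92,[1,5]), (24,[4,1,1]), (16,[1,4,1]), (133,[2,0,2,5]), (101,[2,0,2,5]), (139,[1,3,1,1]), (37,[3,4]), (92,[3,4]), (60,[1,4,1]), (24,[1,3,1,1]), (16,[2,0,2,5]), (139,[0,0,2,0]), (92,[2,0,2,5]), (16,[0,2]), (101,[3,4]), (139,[4,0]), (139,[0,0,5]), (26,[1,4,1]), (37,[1,5]), (24,[1,3,5]), (133,[3,4]), (50,[0,2,0,3]), (101,[1,5]), (139,[4,1,1]), (24,[0,2,2,4]), (111,[2,0,2,5]), (97,[2,0,2,5]), (50,[1,3,0]), (65,[3,4]), (139,[0,5,0]), (133,[1,5]), (16,[3,5,5]), (67,[1,4,1])]),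
    (19,[(24,[2,5]), (128,[0,0,5,1]), (123,[3,4]), (24,[2,0,4]), (14,[2]), (74,[2,0,2,5]), (21,[2]), (3,[2,0,2,5]), (21,[3,4]), (89,[3,3,5]), (24,[0,4,0]), (59,[1,2,4]), (24,[1,1,4,4]), (59,[0,4,4]), (128,[3,4]), (41,[2]), (74,[3,4]), (116,[3,4]), (72,[1,1,2,0]), (47,[3,4]), (72,[0,0,2,2]), (113,[3,4]), (90,[1,1,4,4]), (103,[1,1,4,4]), (123,[0,0,5,1]), (139,[2,5]), (125,[1,1,2,0]), (3,[2]), (59,[2]), (24,[0,3,0,2]), (89,[1,3,5]), (24,[0,3,3,5]), (59,[4,2,2]), (139,[0,0,2,2]), (21,[2,0,2,5]), (40,[2,5]), (90,[1,1,2,0]), (3,[1,3,5]), (59,[2,0,2,5]), (128,[1,2,4]), (74,[2]), (59,[0,0,5,1]), (59,[3,4]), (65,[0,0,5,1]), (24,[0,2,2,2]), (111,[0,0,2,2]), (90,[3,3,5]), (103,[3,3,5]), (65,[3,3,5]), (123,[2,0,2,5]), (47,[2,0,2,5]), (89,[3,5,5]), (110,[2]), (14,[1,1,2,0]), (113,[1,2,4]), (107,[0,0,2,2]),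 (89,[2,0,4]), (95,[1,3,5]), (103,[1,1,2,0]), (24,[0,5,0,3]), (102,[2]), (72,[3,3,5]), (89,[1,1,4,4]), (42,[0,4,4]), (125,[1,3,5]), (139,[0,5,0,3]), (125,[2]), (89,[0,0,2,2]), (24,[3,3,5]), (139,[1,1,4,4]), (40,[0,0,2,2]), (107,[2]), (123,[1,2,4]), (14,[1,3]), (74,[1,2,4]), (111,[3,3,5]), (116,[2,0,2,5]), (4,[1,4,0,2]), (125,[3,3,5]), (113,[0,0,5,1]), (95,[0,0,5,1]), (89,[2,5]), (113,[2,0,2,5]), (120,[0,3,0]), (107,[1,2,4]), (72,[3,5,5]), (139,[2,0,4]), (89,[0,4,0]), (136,[0,3,0]), (103,[0,0,2,2]), (39,[0,3,0]), (139,[3,3,5]), (139,[0,3,3,5]), (128,[2,0,2,5]), (14,[0,0,2,2]), (89,[0,3,0]), (41,[1,1,2,0]), (120,[0,2,4]), (139,[0,3,0,2]), (3,[0,0,2,2]), (125,[1,1,4,4]), (107,[0,0,5,1]), (59,[1,3,5]), (47,[1,2,4]), (125,[0,0,2,2]), (40,[1,1,4,4]), (74,[0,0,5,1]), (103,[2,0,4]), (89,[1,1,2,0]),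 (95,[2]), (116,[1,2,4]), (95,[1,2,4]), (107,[1,3,5]), (139,[0,2,2,2]), (47,[2]), (103,[2]), (102,[2,0,2,5]), (116,[0,0,5,1]), (111,[2]), (59,[3,3,5]), (102,[0,0,2,1]), (42,[0,0,5,1]), (139,[0,4,0]), (103,[1,3,5]), (89,[0,3,3,5]), (74,[0,4,4]), (72,[1,3,5]), (72,[1,1,4,4]), (72,[2]), (90,[0,0,2,2]), (89,[2]), (107,[2,0,2,5]), (49,[1,3,5])]),
    (11,[]),
    (19,[(24,[5,5]), (48,[3,5]), (29,[3,4]), (28,[0,4,2]), (5,[3,4]), (24,[5]), (24,[3,3,0]), (89,[3,3,5]), (24,[0,0,2,0]), (33,[3,4]), (48,[3,4]), (59,[0,4,4]), (48,[3]), (24,[4,4]), (28,[0,3,0]), (24,[0,4,2]), (41,[3,5]), (3,[1,3,1,1]), (24,[4,4,4]), (24,[4]), (90,[1,4,0]), (28,[0,0,2,0]), (28,[3,3,0]), (66,[1,2,4]), (28,[4,2]), (133,[2,0,2,5]), (101,[2,0,2,5]), (3,[5]), (3,[3,3,0]), (139,[1,3,1,1]), (3,[5,5]), (28,[3,3,0,5]), (133,[3,5]),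 (3,[0,4,2]), (24,[1,3,1,1]), (142,[0,2,5]), (142,[2,0,2,5]), (86,[3,4]), (107,[0,4,4]), (89,[0,2,5]), (29,[2,0,2,5]), (41,[4,2]), (24,[3,3,0,5]), (3,[4,4]), (59,[0,4,2,5]), (4,[3,3,5]), (8,[3,3,5]), (3,[0,4,2,5]), (101,[3,5,5]), (139,[4,4]), (142,[0,3,0]), (6,[0,3,0]), (139,[0,0,2,0]), (42,[0,2,5]), (6,[3,4]), (100,[4,2]), (41,[3,5,5]), (86,[2,0,2,5]), (33,[3,5]), (101,[3,4]), (139,[3,3,0]), (5,[2,0,2,5]), (28,[0,4,4]), (97,[3,4]), (139,[4,4,2]), (29,[3]), (32,[5,3]), (86,[0,2,5]), (6,[2,0,2,5]), (86,[3,5]), (139,[4]), (139,[3,3,0,5]), (139,[2]), (25,[3]), (25,[3,5,5]), (59,[4,2]), (97,[3]), (3,[0,0,2,0]), (3,[4,2]), (48,[2,0,2,5]), (4,[0,2]), (101,[3,5]), (133,[0,2,5]), (3,[3,3,0,5]), (25,[2,0,2,5]), (24,[0,4,2,5]), (3,[4,4,4]), (42,[3]), (86,[3]), (28,[1,2,4]), (33,[2,0,2,5]), (4,[0,2,5]),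 (133,[3]), (8,[0,3,0]), (139,[5,5]), (28,[5,3,4]), (97,[0,3,0]), (86,[0,3,0]), (142,[3]), (133,[3,4]), (142,[3,5]), (89,[1,4,0]), (89,[5,3]), (42,[2]), (100,[0,3,0]), (88,[0,3,0]), (121,[0,2,5]), (121,[3,4]), (97,[2,0,2,5]), (4,[1,4,0]), (139,[4,4,4]), (142,[3,5,5]), (100,[1,4,0]), (59,[4,4,4]), (42,[2,0,2,5]), (133,[0,3,0]), (97,[3,5]), (41,[3,4]), (4,[0,3,0]), (100,[5,3,4]), (4,[5,3,4]), (101,[3]), (29,[0,3,0]), (101,[0,2,5]), (66,[2]), (28,[5,5]), (139,[4,2]), (33,[0,3,0]), (4,[1,2,4]), (142,[3,4])]),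
    (18,[(10,[3,4]), (85,[3,4]), (93,[3,4]), (85,[2,0,2,5]), (24,[5,1]), (139,[1,3,4,1]), (10,[2,0,2,5]), (139,[4,1,2]), (130,[3,4]), (8,[5,1]), (139,[0,5,5]), (130,[2,0,2,5]), (24,[3,0,5]), (24,[0,4]), (24,[0,0,2,5]), (139,[0,4]), (104,[3,4]), (24,[4,1,2]), (93,[2,0,2,5]), (24,[4,4,4]), (53,[2,2]), (24,[1,3,5]), (134,[3,4]), (139,[0,2]), (104,[2,0,2,5]), (24,[1,2,1,1]), (24,[0,2,2,4]), (111,[2,0,2,5]), (97,[2,0,2,5]), (31,[3,4]), (65,[3,4]), (24,[0,5,5]), (56,[1,1,4]), (134,[2,0,2,5])]),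
    (14,[]),
    (19,[(24,[2,4,2]), (91,[2,0,2,5]), (24,[0,3,5]), (74,[1,1,3,3]), (24,[2,0,4]), (74,[2,0,2,5]), (3,[3,4]), (3,[2,0,2,5]), (24,[2,1,4]), (34,[2,0,2,5]), (24,[0,0,2,0]), (75,[3,4]), (74,[3,4]), (27,[2,0,2]), (24,[1,1,5]), (46,[0,5]), (80,[3,4]), (43,[2,0,2]), (139,[2,1,4]), (97,[3,4]), (46,[3,4]), (96,[2,0,3,3]), (24,[4,1]), (57,[4,0,5]), (72,[3]), (8,[0,2]), (133,[2,0,2,5]), (101,[2,0,2,5]), (57,[3,4]), (135,[1,1,3,3]), (57,[2,0,2,5]), (139,[1,3,1,1]), (140,[2,0,4]), (75,[1,1,3,3]), (27,[0,2]), (8,[1,1,3,3]), (11,[2,0,2,5]), (74,[2]), (24,[1,3,1,1]), (43,[1,3,5,0]), (27,[0,0,2,0]), (34,[3,4]), (140,[2,0,3,3]), (140,[1,3,1,1]), (27,[2,0,3,3]), (46,[1,1,3,3]), (128,[3,4]), (101,[1,1,3,3]), (139,[0,3,5]), (11,[2]), (135,[4,4,4]), (34,[0,5]), (24,[1,1,4,4]), (72,[1,1,3,3]), (72,[0,0,2,0]),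 (77,[3,4]), (27,[1,1,4,4]), (139,[0,0,2,0]), (140,[1,1,3,3]), (126,[0,5]), (57,[0,5]), (97,[2]), (128,[1,1,3,3]), (101,[3,4]), (140,[1,1,4,4]), (139,[1,1,4,4]), (126,[2,0,2,5]), (3,[1,3,5,0]), (139,[2,0,2]), (80,[0,5]), (135,[1,3,5,0]), (135,[2,0,4]), (140,[1,1,5]), (139,[2,4,2]), (126,[1,1,3,3]), (126,[2,0,3,3]), (46,[2,0,2,5]), (24,[3,0,2]), (139,[2,0,4]), (139,[1,1,5]), (24,[2,2,2]), (46,[2]), (34,[0,4,4]), (91,[4,0,5]), (128,[2,0,2,5]), (27,[0,0,2]), (24,[4,4,4]), (72,[2,0,3,3]), (74,[0,5]), (75,[2,0,2,5]), (135,[2,4,2]), (34,[2,4,1]), (77,[2,0,2,5]), (27,[4,0,5]), (72,[2,0,2]), (72,[4,4,4]), (72,[2,4,2]), (133,[1,1,3,3]), (135,[1,1,4,4]), (135,[4,0,5]), (139,[2,0,3,3]), (133,[3,4]), (57,[1,1,3,3]), (11,[1,1,3,3]), (126,[3,4]), (52,[4,1]), (97,[0,5]), (11,[3,0,4]), (80,[1,1,3,3]), (133,[2]),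 (97,[2,0,2,5]), (27,[1,3,5,0]), (139,[4,4,4]), (140,[1,3,5,0]), (140,[0,0,2,0]), (97,[1,1,3,3]), (11,[3,4]), (135,[2,0,3,3]), (128,[2]), (126,[0,4,4]), (140,[2,4,2]), (140,[2,0,2]), (80,[2,0,2,5]), (140,[4,0,5]), (109,[2,0,3,3]), (72,[1,1,4,4]), (101,[0,5]), (34,[2,0,3,3]), (72,[1,3,5,0]), (101,[2])]),
    (18,[(24,[0,0,2,0]), (24,[1,1,4]), (24,[0,0,5]), (24,[5,0,0]), (24,[0,4,0,2]), (139,[1,3,1,1]), (37,[3,4]), (119,[3,4]), (24,[1,3,1,1]), (37,[2,0,2,5]), (24,[1,1,5,5]), (56,[3,4]), (24,[0,3]), (92,[3,4]), (101,[3,4]), (24,[4,1,1]), (68,[3,4]), (9,[3,4]), (24,[4,4,4]), (129,[2,0,2,5]), (24,[1,3,5]), (24,[2,1]), (18,[3,4]), (133,[3,4]), (24,[0,2,2,4]), (111,[2,0,2,5]), (97,[2,0,2,5]), (65,[3,4]), (119,[2,0,2,5]), (98,[3,4])]),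
    (19,[(24,[1,1]), (24,[0,0]), (5,[3,4]), (24,[5]), (24,[0,0,2,0]), (24,[1,1,4]), (24,[1,1,5]), (112,[2,0,2,5]), (24,[0,0,4]), (24,[0,0,5]), (24,[5,0,0]), (24,[0,4,0,2]), (24,[2,0]), (57,[2,0,2,5]), (139,[1,3,1,1]), (24,[5,5]), (37,[3,4]), (75,[3,4]), (29,[3,4]), (12,[3,4]), (119,[3,4]), (24,[1,3,1,1]), (36,[3,4]), (24,[1,3]), (24,[1,1,2,0]), (39,[3,4]), (24,[0,4,2]), (24,[4,4]), (80,[3,4]), (36,[2,0,2,5]), (24,[1,3,0,0]), (48,[3,4]), (37,[2,0,2,5]), (131,[2,0,2,5]), (77,[3,4]), (24,[1,1,5,5]), (56,[3,4]), (24,[0,3]), (24,[0,0,2,1]), (33,[3,4]), (92,[3,4]), (101,[3,4]), (17,[3,4]), (5,[2,0,2,5]), (24,[4]), (24,[4,1,1]), (68,[3,4]), (6,[2,0,2,5]), (115,[3,4]), (74,[3,4]), (17,[2,0,2,5]), (46,[2,0,2,5]), (24,[3,0,2]), (48,[2,0,2,5]), (76,[3,4]), (24,[2,2,2]), (9,[3,4]), (24,[0,4,2,5]), (24,[3,3,0]),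 (24,[4,4,4]), (24,[2,4,2]), (129,[2,0,2,5]), (75,[2,0,2,5]), (24,[3,3,1]), (24,[1,3,5]), (77,[2,0,2,5]), (6,[3,4]), (136,[2,0,2,5]), (24,[2,1]), (7,[3,4]), (18,[3,4]), (86,[3,4]), (7,[2,0,2,5]), (133,[3,4]), (24,[0,2,2,4]), (111,[2,0,2,5]), (45,[2,0,2,5]), (125,[3,4]), (121,[3,4]), (97,[2,0,2,5]), (65,[3,4]), (24,[0,2,2]), (14,[3,4]), (12,[2,0,2,5]), (24,[0,3,5]), (102,[3,4]), (119,[2,0,2,5]), (80,[2,0,2,5]), (98,[3,4]), (57,[3,4]), (87,[3,4]), (24,[1,4,0,2]), (46,[3,4]), (139,[0,2,2])]),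
    (18,[]),
    (19,[])]
def js34c3 : List (ℕ × List (ℕ × List ℕ)) := [
    (3,[]),
    (15,[(97,[2,0,4]), (128,[4,4,4]), (97,[1,1,4,4]), (74,[4,4,4]), (97,[2,4,2]), (128,[0,3,5]), (80,[2,0,4]), (80,[1,1,4,4])]),
    (19,[(24,[2,0,4]), (3,[2]), (24,[1,1,4,4]), (49,[0,4,4]), (19,[1,1,2,0]), (139,[1,1,4,4]), (63,[2,2]), (74,[2,0,2,5]), (3,[3,4]), (3,[2,0,2,5]), (49,[2,2]), (74,[3,4]), (4,[2,0,2]), (72,[2]), (128,[3,4]), (24,[0,2,5]), (138,[1,5,0]), (41,[2]), (72,[1,1,4,4]), (41,[1,4,1,5]), (72,[0,2,5]), (41,[0,2,5]), (73,[5,3]), (6,[5,3]), (63,[2]), (125,[2,2]), (3,[0,4,4]), (119,[2,2]), (72,[3]), (125,[1,1,2,0]), (139,[2,0,4]), (81,[0,4,4]), (5,[3]), (128,[2]), (127,[1,1,2,0]), (4,[3]), (128,[2,0,2,5]), (88,[3]), (5,[1,4,1,5]), (127,[1,3,3]), (63,[2,5,1]), (5,[4]), (49,[2]), (35,[1,1,2,0]),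 (74,[2]), (6,[5]), (72,[2,0,2]), (102,[1,4,1,5]), (137,[2,2]), (74,[0,4,4]), (134,[2,2]), (63,[0,4,4]), (63,[1,3,3]), (5,[0,2,5]), (139,[2,0,2]), (49,[1,4,0]), (66,[0,0,2,1]), (102,[2,0,2,2]), (134,[0,0,3]), (138,[1,4,0]), (31,[5]), (49,[3,4]), (5,[2,0,2,2]), (88,[2,0,2]), (31,[1,3,3]), (102,[2]), (41,[3,3,4]), (125,[1,3,3]), (41,[3]), (5,[1,1,2,0]), (49,[4]), (19,[5]), (119,[5,1]), (81,[2,5,1]), (72,[3,3,4]), (5,[0,4,0,2]), (137,[2,5,1]), (41,[0,0,2,1]), (66,[1,4,1,5]), (49,[2,0,2,5]), (138,[0,4,2,5]), (5,[1,1,4,1]), (127,[2,2]), (88,[2,0,3]), (3,[2,2]), (127,[4]), (31,[4]), (66,[1,1,4,1]), (19,[1,3,3]), (134,[1,3,3]), (81,[2,2]), (137,[1,3,3]), (66,[3,3,4]), (88,[0,2,5]), (5,[3,3,4]), (102,[3,3,4]), (72,[1,1,4,1]), (119,[0,4,0,2]), (102,[1,3,3]), (72,[5,1]), (5,[2,2]), (35,[5]), (102,[1,1,2,0]),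 (4,[0,2,5]), (41,[5,1]), (24,[3,3,4]), (81,[1,4,0]), (119,[3,3,4]), (41,[1,1,4,1]), (19,[0,0,2,1]), (138,[5]), (81,[5]), (119,[2,0,2,2]), (3,[1,3,3]), (6,[1,1,4,1]), (4,[1,1,4,1]), (102,[0,4,0,2]), (127,[5]), (72,[0,0,2,1]), (5,[0,0,2,1]), (66,[2,2]), (139,[3]), (3,[1,1,2,0]), (102,[0,2,5]), (88,[1,1,4,4]), (63,[4]), (102,[2,2]), (102,[5,1]), (102,[0,0,2,1]), (4,[1,1,4,4]), (88,[3,3,4]), (31,[1,1,2,0]), (31,[2,2]), (8,[0,0,2,1]), (49,[2,5,1]), (138,[2,5,1]), (4,[3,3,4]), (66,[0,2,5]), (49,[1,3,3])]),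
    (3,[]),
    (15,[(128,[3,0,2]), (82,[2,0,4]), (128,[2,2,2]), (82,[1,1,4,4]), (74,[2,2,2]), (133,[1,3,1,1]), (74,[3,0,2])]),
    (10,[(113,[1,1,4,4]), (74,[0,3,0,2]), (74,[0,2,2,2]), (110,[2,0,4])]),
    (17,[(92,[2,0,4]), (74,[0,0,5]), (12,[0,0,4]), (37,[0,0,4]), (128,[0,0,5]), (37,[2,0,4]), (74,[2,1,5]), (74,[4,4,4]), (80,[0,0,4]), (36,[0,0,4]), (74,[4,1,1]), (36,[1,3,4]), (76,[0,0,5]), (76,[0,0,4]), (97,[1,3,4]), (92,[1,1,4,4]), (97,[2,0,4]), (76,[4,1,1]), (76,[2,1,5]), (128,[4,4,4]), (80,[1,3,4]), (64,[2,0,4]), (97,[1,1,4,4]), (97,[2,4,2]), (64,[1,1]), (37,[1,3,4]), (76,[2,4,2]), (64,[1,3,4]), (64,[2,1,5]), (12,[4,4,4]), (76,[0,3,5]), (128,[4,1,1]), (37,[1,1,4,4]), (46,[2,1,5]), (64,[2,4,2]), (97,[0,0,4]), (36,[1,1,4,4]), (76,[4,4,4]), (80,[1,1,4,4]), (76,[1,1]), (76,[0,3,1,3]), (128,[2,1,5])]),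
    (17,[(74,[1,3,5]), (97,[2,0,4]), (136,[0,3,5]), (136,[1,1,4,4]), (97,[1,4,0,2]), (136,[1,4,0,2]), (74,[4,4,4]), (111,[2,4,2]), (128,[0,2,2,4]), (65,[1,1,4,4]), (65,[2,0,4]), (131,[1,3,0,0]), (131,[1,4,0,2]), (74,[0,2,2,4]), (125,[2,4,2]), (80,[1,4,0,2]), (80,[1,1,2,0]), (128,[1,3,5]), (111,[2,0,4]), (102,[2,4,2]), (65,[1,1,2,0]), (102,[1,3,0,0]), (128,[4,4,4]), (46,[1,4,0,2]), (46,[1,3,0,0]), (97,[1,1,4,4]), (131,[4,4,4]), (97,[2,4,2]), (136,[1,3,0,0]), (131,[0,2,2,4]), (111,[1,1,4,4]), (131,[0,3,5]), (125,[1,1,4,4]), (80,[2,0,4]), (75,[0,2,2,4]), (131,[2,4,2]), (80,[1,3,0,0]), (128,[1,3,0,0]), (102,[0,0,2,1]), (80,[1,1,4,4]), (74,[1,3,0,0]), (65,[1,4,0,2])]),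
    (15,[(97,[2,0,4]), (101,[1,1,4,4]), (97,[1,1,4,4]), (128,[1,3,1,1]), (74,[4,4,4]), (74,[0,0,2,0])]),
    (17,[(37,[2,0,4]), (76,[1,3,5]), (65,[2,0,4]), (131,[4,1,1]), (128,[0,0,5]), (74,[2,1,5]), (92,[2,0,4]), (128,[0,2,2,4]), (65,[1,1,4,4]), (131,[1,3,0,0]), (76,[0,0,5]), (74,[0,0,5]), (76,[0,0,4]), (128,[1,3,5]), (92,[1,1,4,4]), (97,[2,0,4]), (76,[4,1,1]), (76,[2,1,5]), (101,[1,1,4,4]), (74,[4,1,1]), (64,[2,0,4]), (97,[1,1,4,4]), (128,[1,3,1,1]), (74,[4,4,4]), (74,[0,0,2,0]), (131,[0,0,5]), (111,[1,1,4,4]), (131,[2,1,5]), (111,[2,0,4]), (128,[4,1,1]), (37,[1,1,4,4]), (80,[1,3,0,0]), (128,[1,3,0,0]), (74,[0,2,2,4]), (76,[1,3,0,0]), (74,[1,3,5]), (74,[1,3,0,0]), (128,[2,1,5])]),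
    (10,[]),
    (19,[(99,[2,0,4]), (74,[2,4,1]), (32,[2,4,0]), (24,[2,0,4]), (3,[5,0,4]), (74,[2,0,2,5]), (3,[3,4]), (3,[2,0,2,5]), (52,[2,4,0]), (99,[1,1,4,4]), (52,[2,0,4]), (3,[3,0,3]), (3,[3,0,4]), (79,[2,0,4]), (84,[2,0,4]), (23,[2,4,0]), (74,[2,2,2]), (3,[1,3,1,1]), (84,[1,1,4,4]), (54,[3,0,3]), (3,[0,5,3]), (74,[3,4]), (78,[2,0,2]), (52,[1,1,4,4]), (11,[1,5,3]), (8,[0,2]), (128,[5,0,4]), (128,[2,4,1]), (74,[0,5,3]), (27,[4,1]), (83,[2]), (133,[3,0,3]), (74,[5,0,4]), (27,[4,1,5]), (74,[3,0,2]), (78,[0,0,2,0]), (74,[3,0,4]), (94,[1,3,0]), (11,[2,0,2,5]), (74,[2]), (23,[3,0,3]), (82,[2,0,4]), (32,[1,1,5]), (27,[0,0,2,0]), (139,[4,1]), (27,[2,4,0]), (128,[0,5]), (24,[1,1,4,4]), (49,[3,0,3]), (3,[5,3]), (128,[3,4]), (79,[1,1,4,4]), (54,[4,0,5]), (101,[2,0,2]), (83,[1,3,1,1]), (83,[2,0,2,5]),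 (128,[3,0,2]), (11,[3,0,3]), (79,[1,3,0]), (3,[1,5,3]), (72,[0,0,2,0]), (27,[1,1,4,4]), (72,[4,1]), (139,[1,3,0]), (57,[0,5]), (57,[3,0,3]), (78,[2,4,0]), (133,[1,5,3]), (139,[1,1,4,4]), (3,[2,4,1]), (79,[4,1]), (139,[2,0,2]), (61,[1,3,0]), (3,[0,5]), (83,[4,0,5]), (72,[1,3,1,1]), (133,[0,5]), (128,[2,2,2]), (83,[3,4]), (82,[1,1,4,4]), (139,[2,0,4]), (74,[3,0,3]), (32,[1,5,3]), (78,[1,3,0]), (128,[2,0,2,5]), (23,[1,5,3]), (3,[1,1,5]), (78,[4,1,5]), (27,[2]), (80,[4,0,5]), (82,[4,1]), (133,[1,3,1,1]), (23,[2,0,2,5]), (11,[2,4,0]), (72,[2,0,2]), (32,[3,0,3]), (78,[1,1,4,4]), (139,[2,4,0]), (91,[0,5]), (57,[1,5,3]), (84,[4,1]), (128,[0,5,3]), (83,[5,0,4]), (83,[2,4,1]), (99,[4,1]), (83,[0,5,3]), (83,[3,0,4]), (11,[3,0,4]), (61,[4,1,5]), (133,[2]), (77,[2,4,0]), (3,[2,4,0]), (32,[1,3,1,1]), (83,[2,4,0]),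 (94,[2,0,2]), (11,[0,5]), (79,[2,0,2]), (61,[2,4,0]), (11,[1,3,1,1]), (128,[2]), (8,[1,1,2]), (99,[2,0,2]), (83,[3,0,3]), (133,[2,4,0]), (74,[0,4,4]), (82,[2,0,2]), (78,[4,1]), (72,[1,1,4,4]), (72,[2]), (128,[3,0,4]), (84,[2,0,2]), (23,[0,5]), (128,[3,0,3])]),
    (17,[(142,[2,0,4]), (86,[1,1,4,4]), (128,[5,5]), (5,[2,0,4]), (74,[5]), (29,[2,0,4]), (33,[1,1,4,4]), (6,[2,0,4]), (56,[2,1]), (121,[1,1,4,4]), (74,[3,3,0]), (97,[2,0,4]), (101,[1,1,4,4]), (142,[1,1,4,4]), (14,[5]), (74,[5,5]), (97,[1,1,4,4]), (128,[3,3,0,5]), (128,[1,3,1,1]), (74,[4,4,4]), (74,[0,0,2,0]), (128,[0,4,2]), (18,[2,1]), (48,[2,0,4]), (128,[4]), (128,[1,3]), (33,[2,0,4]), (74,[4,4]), (74,[4]), (5,[1,1,4,4]), (86,[2,0,4]), (74,[0,4,2,5]), (121,[2,0,4]), (6,[1,1,4,4])]),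
    (19,[(74,[0,4]), (104,[2,5,1]), (31,[2,0,4]), (41,[0,0,2,5]), (74,[5,1]), (10,[2,0,4]), (41,[1,3,4,1]), (41,[0,4]), (74,[1,3,5]), (97,[1,4,0,2]), (53,[2,0,4]), (3,[1,3,1]), (136,[1,4,0,2]), (74,[4,1,2]), (74,[4,4,4]), (111,[2,4,2]), (41,[3,0,5]), (128,[0,2,2,4]), (74,[0,5,5]), (71,[1,4,0,2]), (62,[0,2,5]), (65,[1,1,4,4]), (4,[1,3,1]), (3,[2]), (71,[1,3,1]), (4,[1,3,5]), (74,[3,0,5]), (83,[2]), (4,[3]), (74,[0,2,5]), (53,[1,1,4,4]), (81,[0,5]), (85,[2,0,4]), (128,[0,5,5]), (41,[0,5,5]), (62,[1,3,5]), (41,[0,2,5]), (41,[4,1,2]), (4,[4,1,2]), (74,[0,0,2,5]), (104,[2]), (71,[3,0,3]), (128,[4,1,2]), (128,[1,3,5]), (27,[0,0,2,5]), (4,[4,4,4]), (41,[1,3,5]), (4,[0,5,5]), (4,[0,0,2,5]), (97,[2,0,4]), (111,[2,5,1]), (4,[5,1]), (74,[1,3,4,1]), (3,[1,5,3]), (104,[2,0,4]), (41,[1,2,1,1]), (74,[1,3,1]),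 (81,[3,0,3]), (41,[3]), (128,[4,4,4]), (97,[2,5,1]), (62,[0,2,2,4]), (93,[2,0,4]), (78,[2,4,0]), (81,[2,5,1]), (74,[1,2,1,1]), (62,[0,4]), (136,[3]), (71,[1,5,3]), (62,[3]), (65,[2,0,4]), (4,[1,3,0,0]), (62,[4,4,4]), (31,[1,1,4,4]), (104,[1,1,4,4]), (97,[1,1,4,4]), (131,[4,4,4]), (97,[2,4,2]), (4,[1,3,4,1]), (136,[1,3,0,0]), (4,[0,4]), (131,[0,2,2,4]), (111,[1,1,4,4]), (10,[1,1,4,4]), (41,[4,4,4]), (41,[1,3,1]), (128,[0,0,2,5]), (71,[2,5,1]), (93,[1,1,4,4]), (62,[3,0,5]), (46,[0,2,5]), (4,[0,2,5]), (41,[5,1]), (128,[1,3,1]), (81,[1,3,1]), (111,[2,0,4]), (131,[0,0,2,5]), (78,[4,4,4]), (80,[1,5,3]), (104,[0,5]), (136,[2,5,1]), (81,[1,3,0,0]), (131,[0,2,5]), (62,[4,1,2]), (41,[1,3,0,0]), (97,[0,5]), (83,[2,5,1]), (136,[2]), (93,[2,4,2]), (62,[1,3,1]), (71,[3]), (35,[0,0,3]), (4,[1,2,1,1]), (128,[1,2,1,1]),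 (41,[0,2,2,4]), (62,[5,1]), (74,[0,2,2,4]), (111,[2]), (128,[5,1]), (81,[1,5,3]), (4,[0,2,2,4]), (62,[2,4,0]), (93,[2,5,1]), (128,[1,3,4,1]), (128,[0,4]), (74,[3]), (85,[1,1,4,4]), (74,[1,3,0,0]), (4,[3,0,5]), (128,[3,0,5])]),
    (19,[(74,[4,4,2]), (43,[1,1,4,4]), (74,[1,3,5]), (90,[1,4,0,2]), (24,[2,0,4]), (74,[2,0,2,5]), (3,[3,4]), (3,[2,0,2,5]), (97,[1,4,0,2]), (96,[2,0,4]), (59,[1,2,4]), (136,[1,4,0,2]), (74,[3,4]), (72,[1,4,0,2]), (96,[0,3,1]), (3,[0,3,5,3]), (90,[1,1,4,4]), (128,[0,2,2,4]), (74,[3,5,5]), (103,[1,1,4,4]), (3,[1,2,4]), (65,[1,1,4,4]), (65,[2,0,4]), (131,[1,3,0,0]), (3,[2]), (59,[2]), (113,[1,1,4,4]), (128,[0,3,5,3]), (97,[2,0,4]), (46,[1,2,4]), (131,[3,4]), (90,[2,0,4]), (44,[1,3,0,0]), (74,[4,4,4]), (80,[0,3,1]), (3,[1,3,5]), (131,[1,4,0,2]), (111,[0,3,1]), (74,[2]),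 (43,[1,4,0,2]), (3,[3,5,5]), (120,[1,1,4,4]), (118,[2,0,2]), (80,[1,4,0,2]), (74,[0,2,2,4]), (80,[1,1,2,0]), (24,[1,1,2,0]), (128,[1,3,5]), (74,[0,4,0,3]), (128,[3,4]), (128,[0,4,0,3]), (118,[0,3,1]), (74,[0,3,0,2]), (65,[1,1,2,0]), (24,[1,1,4,4]), (128,[0,3,3]), (131,[2,0,2,5]), (97,[0,3,1]), (111,[2,0,4]), (102,[2]), (131,[1,2,4]), (120,[2,0,4]), (126,[2]), (102,[1,3,0,0]), (128,[4,4,4]), (118,[2,0,4]), (103,[1,4,0,2]), (103,[2,4,2]), (59,[0,2,2,4]), (139,[1,1,4,4]), (46,[1,4,0,2]), (131,[3,5,5]), (136,[0,3,3]), (46,[1,3,0,0]), (74,[1,2,4]), (96,[1,1,2,0]), (131,[0,3,1]), (96,[1,4,0,2]), (97,[1,1,4,4]), (131,[4,4,4]), (44,[0,3,1]), (46,[2,0,2,5]), (120,[0,3,1]), (139,[2,0,4]), (136,[1,3,0,0]), (131,[4,4,2]), (103,[0,0,2,2]), (136,[0,3,1]), (131,[0,2,2,4]), (111,[1,1,4,4]), (128,[2,0,2,5]),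 (128,[3,5,5]), (3,[4,4,4]), (131,[0,3,5]), (43,[0,3,1]), (120,[1,4,0,2]), (118,[1,1,4,4]), (125,[1,1,4,4]), (120,[2,4,2]), (131,[0,4,0,3]), (103,[0,3,1]), (59,[1,3,0,0]), (44,[2,0,2,5]), (59,[0,3,5]), (96,[1,1,4,4]), (90,[2,0,2]), (17,[1,1,3,3]), (120,[2,0,2]), (3,[4,4,2]), (139,[0,3,1]), (74,[0,2,2,2]), (136,[2,0,2]), (80,[1,3,0,0]), (128,[1,3,0,0]), (3,[1,4,0,2]), (110,[2,0,4]), (131,[0,3,5,3]), (128,[2]), (102,[0,0,2,1]), (3,[1,3,0,0]), (74,[0,3,5,3]), (44,[1,2,4]), (131,[2]), (128,[4,4,2]), (3,[0,2,2,4]), (72,[2]), (97,[2,0,2]), (74,[1,3,0,0]), (3,[0,4,0,3]), (58,[2,0,2,5])]),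
    (15,[]),
    (17,[(74,[0,4,0,2]), (56,[2,0,4]), (68,[1,1,4,4]), (92,[2,0,4]), (119,[1,1,4,4]), (65,[1,1,4,4]), (18,[2,0,4]), (74,[1,4,2]), (9,[2,0,4]), (128,[1,3,5]), (74,[2,1]), (97,[2,0,4]), (74,[5,0,0]), (101,[1,1,4,4]), (68,[2,0,4]), (97,[1,1,4,4]), (37,[2,0,4]), (128,[1,3,1,1]), (74,[4,4,4]), (74,[0,0,2,0]), (128,[2,1]), (111,[1,1,4,4]), (111,[2,0,4]), (9,[1,1,4,4]), (37,[1,1,4,4]), (56,[1,1,4,4]), (74,[0,2,2,4]), (65,[2,0,4]), (74,[1,3,5]), (74,[0,3])]),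
    (17,[]),
    (19,[(74,[0,0,4,1]), (74,[1,2,5]), (24,[2,0,4]), (10,[2,0,4]), (74,[0,4,0,2]), (56,[2,0,4]), (68,[1,1,4,4]), (74,[4,1,2]), (92,[2,0,4]), (74,[1,1,3]), (119,[1,1,4,4]), (55,[2,0,4]), (65,[1,1,4,4]), (113,[1,1,4,4]), (67,[1,1,4,4]), (53,[1,1,4,4]), (85,[2,0,4]), (109,[1,1,4,4]), (18,[2,0,4]), (106,[1,1,4,4]), (74,[1,4,2]), (120,[1,1,4,4]), (74,[0,0,2,5]), (9,[2,0,4]), (20,[2,0,4]), (128,[1,3,5]), (74,[0,4,0,3]), (31,[2,0,4]), (60,[2,0,4]), (74,[4,4,2]), (74,[0,5,0]), (74,[2,1]), (97,[2,0,4]), (74,[0,3,0,2]), (74,[5,0,0]), (24,[1,1,4,4]), (104,[2,0,4]), (23,[1,1,4,4]), (101,[1,1,4,4]), (74,[1,4,1]), (74,[1,4,4]), (53,[2,0,4]), (74,[1,2,1,1]), (68,[2,0,4]), (74,[0,2]), (19,[2,0,4]), (54,[2,0,4]), (74,[3,4]), (74,[5,3]), (97,[1,1,4,4]), (37,[2,0,4]), (128,[1,3,1,1]), (93,[2,0,4]),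 (74,[2,4]), (74,[4,4,4]), (74,[0,4]), (74,[0,0,2,0]), (74,[3,0,5]), (23,[2,0,4]), (128,[2,1]), (111,[1,1,4,4]), (10,[1,1,4,4]), (50,[2,0,4]), (8,[2,0,4]), (93,[1,1,4,4]), (118,[1,1,4,4]), (32,[2,0,4]), (74,[1,1,2]), (111,[2,0,4]), (74,[3,5,5]), (26,[2,0,4]), (96,[1,1,4,4]), (55,[1,1,4,4]), (9,[1,1,4,4]), (16,[1,1,4,4]), (37,[1,1,4,4]), (74,[0,2,2,2]), (61,[2,0,4]), (56,[1,1,4,4]), (128,[1,2,1,1]), (110,[2,0,4]), (16,[2,0,4]), (74,[0,2,2,4]), (120,[2,0,4]), (128,[5,1]), (65,[2,0,4]), (67,[2,0,4]), (69,[2,0,4]), (74,[1,3,5]), (128,[1,3,4,1]), (128,[0,4]), (74,[1,3,0]), (74,[0,3]), (109,[2,0,4])]),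
    (19,[])]
def js34c4 : List (ℕ × List (ℕ × List ℕ)) := [
    (4,[]),
    (15,[(77,[4,4,4]), (97,[3,0,2]), (97,[0,3,5]), (82,[4,4,4]), (97,[2,2,2]), (46,[2,2,2]), (97,[2,1,4]), (46,[0,3,5])]),
    (11,[(77,[3,4]), (24,[3,0,2]), (24,[2,2,2]), (77,[2,0,2,5])]),
    (15,[(128,[3,0,2]), (82,[2,0,4]), (128,[2,2,2]), (82,[1,1,4,4]), (74,[2,2,2]), (133,[1,3,1,1]), (74,[3,0,2])]),
    (4,[]),
    (19,[(110,[2,2,2]), (77,[0,2,2,2]), (2,[3,0,2]), (77,[0,3,0,2]), (2,[1,4]), (70,[1,1,4]), (82,[0,2,2,2]), (105,[1]), (119,[1,5,0]), (1,[1,4]), (110,[0,0,3,4]), (1,[0]), (82,[0,3,0,2]), (2,[1]), (108,[1,1]), (113,[1]), (138,[1,5,0]), (105,[3,0,2]), (138,[0,0,3,4]), (110,[3,0,2]), (114,[0,3,1,2]), (1,[0,3,1,2]), (62,[2,2,2,4]), (110,[1]), (105,[0,0,3,4]), (121,[5,0,0]), (15,[0,0,3,4]), (98,[0,4,2,5]), (2,[2,2,2]),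 (138,[5,3,4]), (121,[1,5,0]), (15,[2,2,2]), (98,[1,2,1,1]), (70,[1,1]), (12,[1,5,0]), (114,[0,3,0,2]), (127,[1,1]), (2,[1,1]), (113,[3,0,2]), (113,[2,2,2]), (30,[0,5,3,4]), (1,[0,5,3,4]), (1,[2,0,2,2]), (15,[1,4]), (113,[0,0,3,4]), (122,[0,2,0,0]), (15,[3,0,2]), (100,[5]), (6,[5]), (114,[0]), (55,[0,4,2,5]), (108,[0,0,3,4]), (30,[0,3,1,2]), (119,[5,0,0]), (108,[1]), (12,[5,0,0]), (100,[0,5,3,4]), (138,[0,4,0,2]), (2,[0,0,3,4]), (45,[5,0]), (7,[1,3,1]), (62,[1,1,4]), (122,[5,3,4]), (70,[0,3,4]), (1,[0,3,0,2]), (70,[2,2,2,4]), (1,[5,0]), (30,[5,0]), (121,[0,0,3,4]), (12,[5,0]), (10,[2,2,2,4]), (12,[5]), (105,[5,3,4]), (6,[5,3,4]), (124,[0,3,1,2]), (62,[0,0]), (15,[1,1]), (114,[5,0]), (12,[3,0,2]), (15,[0]), (15,[1]), (12,[0,4,2]), (2,[0,2,0,0]), (122,[0,4]), (138,[5,0,0]), (124,[0]), (6,[5,0,0]),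 (122,[1,5,0]), (15,[0,2,0,0]), (6,[0,2,0,0]), (6,[1,4]), (12,[0,4,2,5]), (15,[0,3,4]), (122,[1,4]), (124,[0,4,2,5]), (45,[5,3,4]), (124,[2,0,2,2]), (10,[1,1,4,1]), (7,[0,5,3,4]), (100,[5,0]), (138,[1,1]), (1,[0,4,2,5]), (119,[0,4,0,2]), (12,[0,5,3,4]), (98,[0,2,0,0]), (6,[1,5,0]), (100,[2,0,2,2]), (70,[1,3,1]), (98,[1,4]), (121,[0,4,2,5]), (119,[0,4,2]), (70,[0]), (45,[1,5,0]), (108,[1,4]), (105,[1,5,0]), (121,[5,3,4]), (121,[1,1]), (114,[0,5,3,4]), (105,[1,4]), (98,[5,0]), (108,[3,0,2]), (45,[0,2,0,0]), (48,[1,3,1]), (122,[5,0,0]), (121,[0,4,0,2]), (55,[5]), (10,[2,0,2,2]), (45,[0,4,2,5]), (98,[5]), (45,[1,2,1,1]), (121,[5]), (105,[2,2,2]), (12,[5,3,4]), (12,[0,4,0,2]), (113,[1,4]), (45,[1,4]), (124,[0,5,0,0]), (121,[0,4,2]), (105,[0,2,0,0])]),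
    (17,[(37,[3,0,2]), (87,[4,1,1]), (37,[2,2,2]), (131,[4,1,1]), (82,[4,1,1]), (97,[1,4,0,2]), (77,[1,3,0,0]), (77,[4,1,1]), (82,[0,0,5]), (125,[1,3]), (92,[3,0,2]), (131,[1,3,0,0]), (82,[3,3,1]), (82,[1,3,0,0]), (87,[3,3,1]), (77,[0,0,5]), (87,[4,4,4]), (77,[4,4,4]), (37,[0,2,2]), (14,[0,2,2]), (97,[3,0,2]), (97,[0,2,2]), (46,[1,1,2,0]), (14,[1,3]), (136,[3,3,1]), (82,[4,4,4]), (131,[4,4,4]), (97,[2,2,2]), (131,[0,0,5]), (39,[1,1,2,0]), (39,[1,3,0,0]), (92,[2,2,2]), (75,[0,2,2]), (97,[1,3]), (39,[0,2,2]), (131,[3,3,1]), (92,[1,3]), (14,[1,3,0,0]), (125,[3,0,2]), (125,[3,3,1]), (14,[1,4,0,2]), (131,[0,2,2])]),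
    (17,[(65,[2,2,2]), (82,[2,1,5]), (77,[1,3,5]), (112,[3,0,2]), (82,[0,2,2,4]), (77,[0,2,2,4]), (64,[0,2,2,5]), (111,[2,2,2]), (97,[0,2,2,5]), (82,[1,3,5]), (36,[0,0,4]), (82,[4,4,4]), (112,[2,1,4]), (76,[0,2,2,4]), (111,[0,2,2,5]), (77,[4,4,4]), (46,[0,2,2,5]), (65,[3,0,2]), (76,[0,3,4]), (111,[0,0,4]), (76,[2,1,5]), (97,[3,0,2]), (36,[0,3,5]), (36,[0,3,4]), (97,[2,2,2]), (45,[1,3,5]), (45,[4,4,4]), (75,[0,0,4]), (82,[0,3,4]), (46,[2,2,2]), (65,[0,3,5]), (111,[3,0,2]), (45,[0,3,4]), (45,[0,2,2,4]), (97,[0,0,4]), (97,[2,1,4]), (112,[0,0,4]), (76,[4,4,4]), (112,[0,3,4]), (46,[0,0,4]), (77,[2,1,5]), (112,[0,3,5])]),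
    (15,[(77,[4,4,4]), (97,[3,0,2]), (82,[1,3,1,1]), (82,[4,4,4]), (97,[2,2,2]), (77,[0,0,2,0])]),
    (17,[(65,[2,2,2]), (82,[2,1,5]), (37,[2,2,2]), (131,[4,1,1]), (82,[0,2,2,4]), (77,[1,3,0,0]), (111,[2,2,2]), (82,[0,0,5]), (92,[3,0,2]), (131,[1,3,0,0]), (76,[0,0,5]), (82,[1,3,0,0]), (82,[1,3,5]), (77,[0,0,5]), (65,[3,0,2]), (77,[4,4,4]), (76,[4,1,1]), (76,[2,1,5]), (97,[3,0,2]), (77,[0,2,2,4]), (14,[1,3]), (82,[1,3,1,1]), (82,[4,4,4]), (97,[2,2,2]), (131,[0,0,5]), (37,[3,0,2]), (131,[2,1,5]), (92,[2,2,2]), (77,[1,3,5]), (111,[3,0,2]), (39,[0,2,2,5]), (131,[1,3,5]), (77,[4,1,1]), (77,[0,0,2,0]), (76,[1,3,0,0]), (82,[4,1,1]), (77,[2,1,5]), (131,[0,2,2])]),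
    (19,[(110,[2,2,2]), (77,[0,2,2,2]), (21,[3,0,2]), (59,[2,5]), (82,[2,0,4]), (2,[1,1,5]), (82,[2,5]), (21,[0,5,0]), (82,[0,4,0]), (2,[1,1,3]), (77,[2,5]), (89,[3,3,5]), (59,[1,2,4]), (77,[0,3,3,5]), (50,[1,2,5]), (47,[2,2,2]), (16,[0,2,2,2]), (50,[1]), (21,[2,2,2]), (95,[4,2,2]), (74,[2,2,2]), (77,[0,4,0]), (133,[0,0,2,2]), (16,[2,5]), (77,[0,3,0,2]), (59,[0,2,2,2]), (116,[3,0,2]), (1,[1,2,1]), (82,[0,2,2,2]), (105,[1,1,5]), (47,[3,0,2]), (16,[1,4,4]), (74,[3,0,2]), (59,[0,0,2,0]), (59,[4,2,2]), (116,[3,3,5]), (82,[1,2,4]), (77,[0,5,0,3]), (103,[1,1,5]), (89,[1,1,3]), (16,[1,2,4]), (113,[3,0,2]), (101,[1,4,4]), (89,[1]), (16,[4,2,2]), (95,[1,5]), (82,[1,5]), (110,[3,0,2]), (30,[0,3,1,2]), (103,[3,3,5]), (2,[0,0,2,0]), (69,[0,5,0,3]), (82,[0,5,0,3]), (110,[3,3,5]), (82,[0,3,3,5]), (69,[1,1,4,4]),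 (101,[3,3,5]), (2,[0,0,3,4]), (128,[3,0,2]), (116,[1,1,3]), (95,[0,3,0,2]), (82,[4,2,2]), (55,[0,0,2,2]), (50,[1,5]), (55,[1,1,3]), (69,[0,2,2,2]), (89,[0,0,2,2]), (89,[1,5]), (95,[0,5,0,3]), (50,[3,3,5]), (59,[0,5,0,3]), (101,[4,2,2]), (123,[3,0,2]), (69,[1,5]), (89,[1,4,4]), (103,[1,1,3]), (123,[3,3,5]), (103,[1,4,4]), (128,[2,2,2]), (89,[0,5,0]), (113,[2,2,2]), (124,[1,4,4]), (95,[1,4,4]), (82,[1,1,4,4]), (95,[0,2,2,2]), (82,[0,3,0,2]), (26,[0,2,0,0]), (103,[0,0,2,2]), (89,[3,0,2]), (60,[0,0,3,4]), (123,[1,1,3]), (69,[0,3,3,5]), (128,[3,3,5]), (50,[0,0,3,4]), (108,[3,3,5]), (55,[1,4,4]), (26,[1,1,5]), (16,[1,3,1,1]), (133,[1,3,1,1]), (110,[1,1,3]), (116,[2,2,2]), (107,[0,0,5,1]), (89,[1,3,1,1]), (59,[0,3,0,2]), (77,[4,2,2]), (123,[2,2,2]), (89,[1,1,5]), (95,[2,5]), (114,[1,2,4]), (95,[1,2,4]),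 (103,[0,0,2,0]), (69,[0,0,2,0]), (69,[1,4,4]), (101,[1,2,5]), (16,[0,3,3,5]), (77,[1,5]), (16,[0,4,0]), (128,[1]), (59,[3,3,5]), (124,[1,2,4]), (133,[1,5]), (95,[0,3,3,5]), (116,[1,1,5]), (16,[0,3,0,2]), (95,[1,3,1,1]), (15,[3,3,5]), (95,[0,0,2,2]), (113,[1]), (59,[0,3,3,5]), (55,[1,1,5]), (50,[0,5,0]), (103,[0,5,0]), (103,[3,0,2])]),
    (11,[]),
    (17,[(121,[2,2,2]), (77,[5,5]), (77,[0,4,2,5]), (33,[2,2,2]), (77,[3,3,0]), (82,[4,4]), (121,[3,0,2]), (82,[1,3]), (33,[3,0,2]), (77,[5]), (77,[4,4,4]), (48,[2,2,2]), (97,[3,0,2]), (5,[3,0,2]), (5,[2,2,2]), (77,[0,2,2,5]), (29,[3,0,2]), (82,[1,3,1,1]), (82,[4,4,4]), (82,[4]), (97,[2,2,2]), (77,[4,4]), (77,[4]), (29,[2,2,2]), (141,[1,1,5,5]), (6,[2,2,2]), (82,[3,3,0,5]), (112,[5]), (82,[0,4,2]), (48,[3,0,2]), (142,[3,0,2]), (77,[0,0,2,0]), (82,[5,5]),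 (142,[2,2,2])]),
    (19,[(82,[1,3,4,1]), (130,[3,0,2]), (82,[1,3,5]), (104,[0,0,4]), (53,[2,2,2]), (42,[4,4,4]), (10,[2,2,2]), (70,[1,5,0]), (77,[1,3,5]), (112,[3,0,2]), (82,[0,2,2,4]), (82,[0,5,5]), (107,[0,0,4]), (77,[0,5,5]), (82,[0,4]), (62,[0,3,1,2]), (93,[0,2,2,5]), (111,[2,2,2]), (65,[2,2,2]), (76,[0,0,2,5]), (97,[0,2,2,5]), (130,[2,2,2]), (31,[3,0,2]), (65,[3,0,2]), (66,[0,3,4]), (42,[4,1,2]), (77,[3,0,5]), (25,[3,5]), (36,[0,3,1,2]), (42,[0,3,0]), (31,[2,2,2]), (66,[0,3,4,1]), (104,[0,2,2,5]), (85,[2,2,2]), (143,[2,1,5]), (82,[5,1]), (36,[5,0]), (53,[3,0,2]), (70,[0,0,2,2]), (65,[1,3,1]), (93,[3,0,2]), (76,[0,2,2,4]), (82,[3,0,5]), (59,[0,0,5,1]), (111,[0,2,2,5]), (134,[0,2,2,5]), (85,[3,0,2]), (59,[0,3,1,2]), (93,[2,2,2]), (76,[0,3,4]), (104,[3,0,2]), (76,[0,5,5]), (45,[5,1]),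 (103,[1,3,4,1]), (77,[4,4,4]), (10,[3,0,2]), (117,[5,3,4]), (66,[1,4,0]), (42,[1,5,0]), (117,[0,3,0]), (82,[0,0,2,5]), (42,[0,0,2,5]), (59,[0,2,2,5]), (62,[3,0,2]), (76,[2,1,5]), (97,[3,0,2]), (82,[4,1,2]), (77,[0,3,0]), (62,[0,3,5]), (103,[0,3,4,1]), (77,[0,2,2,4]), (62,[0,3,0]), (28,[0,0,2,0,2]), (117,[2,1,5]), (25,[0,2,2,5]), (103,[4,4,4]), (77,[4,1,2]), (93,[1,3,1]), (82,[4,4,4]), (53,[1,3,1]), (76,[1,5,0]), (97,[2,2,2]), (42,[5,3,4]), (97,[5,0]), (76,[5,3,4]), (103,[1,2,1,1]), (45,[4,4,4]), (76,[4,1,2]), (104,[2,2,2]), (62,[5,0]), (103,[0,2,2,5]), (42,[0,0,2,2]), (42,[3,0,5]), (77,[0,0,2,5]), (36,[1,3,1]), (82,[0,3,4]), (66,[0,2,2,5]), (70,[0,3,0]), (42,[0,5,5]), (134,[2,2,2]), (42,[2,1,5]), (134,[3,0,2]), (76,[0,3,0]), (62,[2,1,5]), (70,[2,1,5]), (111,[3,0,2]), (117,[1,5,0]), (62,[1,3,1]),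 (45,[0,3,4]), (114,[0,0,4]), (100,[0,3,4,1]), (85,[1,3,1]), (100,[1,4,0]), (82,[1,2,1,1]), (103,[1,4,0]), (100,[0,2,2,5]), (62,[1,5,0]), (114,[0,3,0]), (112,[0,0,4]), (76,[4,4,4]), (103,[1,3,5]), (117,[0,0,2,2]), (42,[0,2,2,4]), (93,[5,0]), (97,[1,3,1]), (107,[0,3,0]), (62,[0,0,5,1]), (76,[3,0,5]), (77,[2,1,5]), (103,[5,1])]),
    (19,[(110,[2,2,2]), (77,[0,2,2,2]), (77,[3,5,5]), (13,[3,0,2]), (90,[3,0,2]), (13,[3,0,3]), (65,[2,2,2]), (82,[2,1,5]), (77,[1,3,5]), (112,[3,0,2]), (82,[0,2,2,4]), (82,[3,5,5]), (44,[2,2,2]), (13,[0,3,3]), (65,[3,0,2]), (13,[0,3,4]), (120,[3,0,2]), (111,[2,2,2]), (97,[0,2,2,5]), (77,[0,3,0,2]), (44,[0,2,2,5]), (82,[1,3,5]), (36,[0,0,4]), (82,[4,4,4]), (112,[2,1,4]), (24,[3,0,2]), (79,[0,3,4]), (44,[2,1,5]), (97,[1,2]), (96,[3,0,2]), (44,[3,0,2]), (76,[4,4,2]),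 (77,[4,4,2]), (140,[0,3,3]), (82,[4,4,2]), (76,[0,2,2,2]), (76,[0,2,2,4]), (113,[3,0,2]), (77,[3,4]), (112,[0,5,3]), (112,[2,4,1]), (111,[0,2,2,5]), (77,[0,4,0,3]), (90,[0,2,2,5]), (140,[2,0,3,3]), (76,[0,3,0,2]), (76,[0,3,4]), (27,[0,3,3]), (118,[0,0,4]), (27,[1,2]), (118,[3,0,2]), (77,[4,4,4]), (97,[0,3,3]), (111,[0,0,4]), (76,[0,4,0,3]), (140,[0,0,4]), (36,[1,2]), (83,[0,3,4]), (90,[2,2,2]), (52,[4,0,5]), (75,[0,3,3]), (76,[2,1,5]), (97,[3,0,2]), (45,[3,5,5]), (45,[0,4,0,3]), (140,[1,2]), (96,[2,2,2]), (135,[2,1,5]), (113,[0,0,4]), (76,[3,5,5]), (77,[0,2,2,4]), (113,[0,2,2,5]), (135,[1,1,5]), (135,[1,3,5,0]), (83,[4,0,5]), (110,[0,0,4]), (120,[2,2,2]), (52,[2,1,5]), (45,[0,3,5,3]), (36,[0,3,4]), (77,[0,3,5,3]), (97,[2,2,2]), (36,[2,4,1]), (24,[2,2,2]), (82,[0,2,2,2]), (105,[0,2,2,5]),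 (45,[1,3,5]), (45,[4,4,4]), (13,[2,1,5]), (96,[0,0,4]), (75,[0,0,4]), (112,[0,3,3]), (82,[0,3,5,3]), (65,[1,2]), (82,[0,3,4]), (77,[2,0,2,5]), (112,[3,0,4]), (79,[4,0,5]), (113,[0,3,3]), (118,[0,2,2,5]), (112,[1,2]), (13,[0,0,4]), (120,[1,2]), (82,[0,3,0,2]), (84,[2,1,5]), (110,[3,0,2]), (111,[3,0,2]), (96,[1,2]), (84,[0,3,4]), (45,[0,3,4]), (45,[0,2,2,4]), (76,[0,3,5,3]), (96,[0,3,3]), (113,[2,2,2]), (97,[0,0,4]), (82,[0,4,0,3]), (120,[0,2,2,5]), (118,[1,2]), (112,[0,0,4]), (13,[2,0,3,3]), (76,[4,4,4]), (118,[2,2,2]), (112,[0,3,4]), (36,[3,0,4]), (135,[0,2,2,2]), (45,[4,4,2]), (113,[1]), (77,[2,1,5]), (112,[0,3,5]), (36,[2,0,3,3])]),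
    (15,[]),
    (17,[(98,[3,0,2]), (77,[5,0,0]), (82,[0,2,2,4]), (111,[2,2,2]), (9,[3,0,2]), (92,[3,0,2]), (82,[2,1]), (77,[0,3]), (82,[1,3,5]), (9,[2,2,2]), (65,[3,0,2]), (77,[4,4,4]), (56,[2,2,2]), (97,[3,0,2]), (77,[0,2,2,4]), (82,[1,3,1,1]), (82,[4,4,4]), (65,[2,2,2]), (97,[2,2,2]), (18,[2,2,2]), (77,[2,1]), (82,[1,4,2]), (77,[1,3,5]), (82,[1,1,4]), (56,[3,0,2]), (68,[2,2,2]), (77,[0,0,2,0]), (37,[2,2,2]), (68,[3,0,2]), (77,[1,4,2])]),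
    (17,[]),
    (19,[(110,[2,2,2]), (77,[0,2,2,2]), (23,[2,2,2]), (19,[2,2,2]), (98,[3,0,2]), (77,[5,0,0]), (82,[0,2,2,4]), (77,[5,3]), (111,[2,2,2]), (54,[3,0,2]), (9,[3,0,2]), (77,[0,3,0,2]), (92,[3,0,2]), (82,[0,5,0]), (82,[2,2]), (50,[3,0,2]), (82,[4,4,2]), (93,[3,0,2]), (82,[2,1]), (82,[5,1]), (77,[0,3]), (8,[3,0,2]), (82,[1,5]), (82,[1,3,5]), (77,[1,4,1]), (9,[2,2,2]), (82,[4,0]), (61,[2,2,2]), (53,[2,2,2]), (77,[1,3,0]), (8,[2,2,2]), (65,[3,0,2]), (77,[4,4,4]), (16,[2,2,2]), (56,[2,2,2]), (77,[1,1,2]), (50,[2,2,2]), (77,[3,4]), (97,[3,0,2]), (67,[2,2,2]), (69,[2,2,2]), (60,[2,2,2]), (77,[0,2]), (77,[0,2,2,4]), (31,[3,0,2]), (10,[2,2,2]), (82,[1,1,2]), (19,[3,0,2]), (60,[3,0,2]), (82,[1,3,1,1]), (82,[4,4,4]), (65,[2,2,2]), (20,[2,2,2]), (24,[3,0,2]), (97,[2,2,2]), (32,[2,2,2]), (82,[3,3]),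 (24,[2,2,2]), (18,[2,2,2]), (77,[2,1]), (77,[2,4]), (77,[0,5,0]), (82,[0,2]), (109,[3,0,2]), (69,[3,0,2]), (77,[2,0,2,5]), (10,[3,0,2]), (82,[1,4,2]), (77,[1,1,3]), (82,[0,2,2,2]), (67,[3,0,2]), (82,[0,3,0,2]), (77,[1,3,5]), (82,[0,4]), (82,[1,1,4]), (77,[1,2,5]), (31,[2,2,2]), (56,[3,0,2]), (55,[2,2,2]), (77,[4,0]), (113,[2,2,2]), (68,[2,2,2]), (54,[2,2,2]), (55,[3,0,2]), (77,[0,0,2,0]), (37,[2,2,2]), (82,[2,4]), (96,[2,2,2]), (68,[3,0,2]), (26,[2,2,2]), (26,[3,0,2]), (20,[3,0,2]), (77,[1,4,2]), (77,[1,4,4])]),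
    (19,[])]
def js34c5 : List (ℕ × List (ℕ × List ℕ)) := [
    (5,[]),
    (14,[(110,[4,4,4]), (118,[0,3,0,2]), (97,[0,2,2,2]), (110,[0,4,0,3]), (97,[0,3,0,2]), (113,[4,4,4]), (120,[0,4,0,3]), (113,[0,4,0,3])]),
    (14,[(24,[0,3,0,2]), (113,[3,4]), (139,[0,3,0,2]), (24,[0,2,2,2]), (111,[1,3,5]), (139,[0,2,2,2]), (113,[2,0,2,5])]),
    (10,[(113,[1,1,4,4]), (74,[0,3,0,2]), (74,[0,2,2,2]), (110,[2,0,4])]),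
    (19,[(110,[2,2,2]), (77,[0,2,2,2]), (2,[3,0,2]), (77,[0,3,0,2]), (2,[1,4]), (70,[1,1,4]), (82,[0,2,2,2]), (105,[1]), (119,[1,5,0]), (1,[1,4]), (110,[0,0,3,4]), (1,[0]), (82,[0,3,0,2]), (2,[1]), (108,[1,1]), (113,[1]), (138,[1,5,0]), (105,[3,0,2]), (138,[0,0,3,4]), (110,[3,0,2]), (114,[0,3,1,2]), (1,[0,3,1,2]), (62,[2,2,2,4]), (110,[1]), (105,[0,0,3,4]), (121,[5,0,0]), (15,[0,0,3,4]), (98,[0,4,2,5]), (2,[2,2,2]), (138,[5,3,4]), (121,[1,5,0]), (15,[2,2,2]), (98,[1,2,1,1]), (70,[1,1]), (12,[1,5,0]), (114,[0,3,0,2]), (127,[1,1]), (2,[1,1]), (113,[3,0,2]), (113,[2,2,2]), (30,[0,5,3,4]), (1,[0,5,3,4]), (1,[2,0,2,2]), (15,[1,4]), (113,[0,0,3,4]), (122,[0,2,0,0]), (15,[3,0,2]), (100,[5]), (6,[5]), (114,[0]), (55,[0,4,2,5]), (108,[0,0,3,4]), (30,[0,3,1,2]), (119,[5,0,0]), (108,[1]), (12,[5,0,0]),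 (100,[0,5,3,4]), (138,[0,4,0,2]), (2,[0,0,3,4]), (45,[5,0]), (7,[1,3,1]), (62,[1,1,4]), (122,[5,3,4]), (70,[0,3,4]), (1,[0,3,0,2]), (70,[2,2,2,4]), (1,[5,0]), (30,[5,0]), (121,[0,0,3,4]), (12,[5,0]), (10,[2,2,2,4]), (12,[5]), (105,[5,3,4]), (6,[5,3,4]), (124,[0,3,1,2]), (62,[0,0]), (15,[1,1]), (114,[5,0]), (12,[3,0,2]), (15,[0]), (15,[1]), (12,[0,4,2]), (2,[0,2,0,0]), (122,[0,4]), (138,[5,0,0]), (124,[0]), (6,[5,0,0]), (122,[1,5,0]), (15,[0,2,0,0]), (6,[0,2,0,0]), (6,[1,4]), (12,[0,4,2,5]), (15,[0,3,4]), (122,[1,4]), (124,[0,4,2,5]), (45,[5,3,4]), (124,[2,0,2,2]), (10,[1,1,4,1]), (7,[0,5,3,4]), (100,[5,0]), (138,[1,1]), (1,[0,4,2,5]), (119,[0,4,0,2]), (12,[0,5,3,4]), (98,[0,2,0,0]), (6,[1,5,0]), (100,[2,0,2,2]), (70,[1,3,1]), (98,[1,4]), (121,[0,4,2,5]), (119,[0,4,2]), (70,[0]), (45,[1,5,0]),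 (108,[1,4]), (105,[1,5,0]), (121,[5,3,4]), (121,[1,1]), (114,[0,5,3,4]), (105,[1,4]), (98,[5,0]), (108,[3,0,2]), (45,[0,2,0,0]), (48,[1,3,1]), (122,[5,0,0]), (121,[0,4,0,2]), (55,[5]), (10,[2,0,2,2]), (45,[0,4,2,5]), (98,[5]), (45,[1,2,1,1]), (121,[5]), (105,[2,2,2]), (12,[5,3,4]), (12,[0,4,0,2]), (113,[1,4]), (45,[1,4]), (124,[0,5,0,0]), (121,[0,4,2]), (105,[0,2,0,0])]),
    (5,[]),
    (18,[(110,[4,1,1]), (110,[4,4,4]), (37,[0,3,0,2]), (118,[2,4]), (92,[0,2,2,2]), (109,[4,1,1]), (37,[0,2,2,2]), (61,[0,2,0,3]), (113,[0,2,0,3]), (92,[0,3,0,2]), (113,[4,1,1]), (118,[0,3,0,2]), (20,[4,4,4]), (110,[0,0,5]), (109,[5,3]), (61,[4,4,4]), (109,[0,2]), (113,[0,0,5]), (109,[4,4,4]), (8,[5,3]), (20,[0,3,5,3]), (97,[0,2,2,2]), (110,[0,4,0,3]), (61,[1,3,0]), (113,[1,3,0]), (120,[0,2]), (61,[5,3]), (97,[0,3,0,2]),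 (61,[4,1,1]), (113,[4,4,4]), (20,[1,3,0]), (109,[0,4,0,3]), (110,[1,3,0]), (120,[5,3]), (120,[0,4,0,3]), (20,[0,2,0,3]), (113,[2,4]), (61,[0,0,5]), (61,[0,4,0,3]), (61,[0,2]), (113,[0,4,0,3]), (32,[0,2])]),
    (14,[(110,[0,2,2,4]), (97,[0,3,0,2]), (65,[0,2,2,2]), (110,[4,4,4]), (97,[0,2,2,2]), (111,[0,3,0,2])]),
    (18,[(97,[0,2,2,2]), (120,[1,3,1,1]), (97,[0,3,0,2]), (101,[0,3,0,2]), (90,[0,5,0]), (101,[0,2,2,2]), (26,[0,0,2,0]), (110,[1,3,1,1]), (90,[4,0]), (110,[4,4,4]), (101,[0,3,5,3]), (26,[4,4,4]), (110,[0,0,2,0]), (120,[1,4,1]), (118,[0,3,0,2]), (67,[0,3,0,2]), (120,[0,0,2,0]), (118,[1,4,1]), (67,[0,3,5,3]), (90,[1,3,1,1]), (133,[0,3,0,2]), (113,[4,0]), (133,[0,2,2,2]), (50,[4,4,4]), (110,[0,4,0,3]), (113,[0,0,2,0]), (69,[1,5]), (26,[1,4,1]), (26,[0,4,0,3]), (133,[1,4,1]), (113,[4,4,4]),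 (118,[0,5,0]), (120,[4,0]), (113,[1,3,1,1]), (101,[4,4,2]), (120,[0,4,0,3]), (113,[0,5,0]), (50,[4,0]), (110,[4,0]), (50,[1,3,1,1]), (113,[0,4,0,3]), (118,[4,0])]),
    (18,[(110,[4,1,1]), (110,[4,4,4]), (37,[0,3,0,2]), (118,[2,4]), (92,[0,2,2,2]), (109,[4,1,1]), (110,[1,3,1,1]), (113,[0,2,0,3]), (92,[0,3,0,2]), (113,[4,1,1]), (110,[0,2,2,4]), (101,[0,2,2,2]), (110,[0,0,5]), (109,[5,3]), (101,[0,3,0,2]), (109,[0,2]), (113,[0,0,5]), (133,[0,3,0,2]), (113,[4,0]), (133,[0,2,2,2]), (37,[0,2,2,2]), (110,[0,0,2,0]), (113,[1,3,0]), (113,[0,0,2,0]), (61,[5,3]), (97,[0,3,0,2]), (61,[4,1,1]), (65,[0,2,2,2]), (20,[1,3,0]), (110,[1,3,0]), (113,[1,3,1,1]), (20,[0,2,0,3]), (97,[0,2,2,2]), (113,[2,4]), (61,[0,0,5]), (26,[5,3]), (111,[0,3,0,2]), (32,[0,2])]),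
    (10,[]),
    (19,[(110,[2,2,2]), (77,[0,2,2,2]), (52,[0,2,2,2]), (64,[0,5,3]), (84,[0,2,2,2]), (110,[0,5,3]), (7,[0,5]), (24,[0,3,0,2]), (52,[0,3,0,2]), (65,[0,2,2,5]), (24,[0,2,2,2]), (111,[1,3,4]), (82,[0,2,2,2]), (105,[3,0,4]), (64,[0,2,2,5]), (105,[3,0,2]), (113,[3,0,4]), (79,[0,2,2,2]), (78,[1,3,5]), (79,[0,3,0,2]), (140,[2,4,0]), (77,[0,3,0,2]), (15,[0,0,3,4]), (110,[5,0,4]), (11,[1,5,3]), (105,[2,4,0]), (78,[1,3,4]), (78,[2,2,2]), (99,[0,3,0,2]), (27,[4,1]), (99,[0,2,2,2]), (94,[1,3,4]), (7,[0,5,3]), (11,[0,3,0,2]), (110,[2,4,1]), (1,[0,3,1,3]), (110,[4,1,5]), (110,[2,4,0]), (113,[3,0,2]), (64,[0,0,3,4]), (2,[0,5,3]), (111,[0,2,2,5]), (110,[3,0,4]), (1,[4,0,5]), (115,[0,3,0,2]), (84,[0,3,0,2]), (1,[0,5]), (7,[4,1,5]), (82,[0,3,0,2]), (78,[0,2,0,0]), (71,[1,1]), (78,[2,4,1]), (113,[0,5,3]),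 (71,[0,3,4]), (24,[0,3,1,3]), (115,[0,5]), (7,[1,3,5]), (94,[0,2,2,5]), (105,[2,4,1]), (105,[5,0,4]), (11,[0]), (113,[1,3,4]), (108,[0,0,4]), (64,[3,0,4]), (110,[3,0,2]), (114,[0]), (64,[3,0,2]), (24,[0,5]), (112,[4,1,5]), (2,[0,2,2,5]), (78,[2,4,0]), (78,[3,0,2]), (114,[0,3,1,2]), (64,[5,0,4]), (113,[0,2,2,5]), (64,[4,1,5]), (71,[0,3,1,2]), (15,[2,4,0]), (64,[2,4,1]), (112,[1,5,3]), (113,[0,0]), (78,[0,5,3]), (64,[1,3,5]), (113,[5,0,4]), (139,[4,0,5]), (105,[0,5,3]), (113,[2,4,1]), (115,[0]), (71,[0,3,0,2]), (2,[2,4,0]), (94,[2,2,2]), (11,[0,3,1,3]), (113,[3,4]), (78,[4,1,5]), (15,[0,0]), (7,[2,4,0]), (139,[0,3,0,2]), (1,[2,4,0]), (64,[1,3,4]), (111,[1]), (78,[3,0,4]), (112,[0,0]), (113,[2,2,2]), (45,[0,5,3,4]), (64,[2,4,0]), (105,[4,1,5]), (15,[0,0,4]), (112,[0]), (94,[2,4,0]), (110,[1,3,4]),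 (139,[0,2,2,2]), (64,[2,2,2]), (113,[2,0,2,5]), (110,[1]), (113,[0,0,3,4]), (11,[0,5]), (94,[4,1,5]), (114,[0,5]), (114,[0,3,0,2]), (78,[5,0,4]), (112,[0,0,4]), (112,[5,0,4]), (7,[0,2,2,5]), (94,[1]), (94,[0,5,3]), (64,[1]), (65,[0]), (71,[0]), (2,[4,1,5]), (113,[1]), (1,[0,3,1,2]), (113,[4,1,5]), (113,[2,4,0])]),
    (19,[(121,[0,2,2,2]), (113,[0,4,2,5]), (6,[0,2,2,2]), (30,[3,3,0,5]), (29,[0,2,2,2]), (48,[0,2,2,2]), (83,[1,1,4,1]), (101,[0,2,2,2]), (86,[0,2,2,2]), (26,[3,5]), (5,[0,2,2,2]), (83,[1,4,1,5]), (110,[4,4]), (110,[3,3,0]), (143,[0,2,0]), (137,[1,1,4,1]), (142,[0,3,0,2]), (25,[3,0,3]), (110,[4]), (133,[0,2,0,0]), (97,[0,2,2,2]), (120,[3,5]), (113,[0,4,2]), (110,[1,3,1,1]), (26,[3,0,3]), (25,[3,5]), (83,[3,3,0]), (30,[3,3,0]), (26,[4]), (33,[0,2,2,2]), (62,[1,4,1,5]), (110,[0,0,2,0]),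 (120,[1,4,1]), (62,[3,3,0,5]), (113,[3,3,0]), (110,[3,3,0,5]), (67,[0,3,0,2]), (62,[4]), (25,[1,4,1]), (113,[5,5]), (113,[1,3,1]), (110,[5,5]), (140,[2,0,3,3]), (97,[0,3,0,2]), (86,[0,3,0,2]), (90,[0,5,1]), (83,[1,4,1]), (33,[0,3,0,2]), (73,[0,0,2,0]), (25,[5,5]), (26,[5,5]), (83,[1,3,1,1]), (62,[0,4,0,3]), (29,[0,3,0,2]), (91,[4,0]), (30,[1,3,1,1]), (6,[0,0,2,0,2]), (101,[0,3,0,2]), (110,[5]), (122,[0,5,0,0]), (121,[2,0,3,3]), (62,[5,5]), (133,[0,3,0,2]), (127,[3,5]), (73,[1,3,1]), (133,[0,2,0]), (83,[3,3,0,5]), (133,[0,2,2,2]), (83,[4,4]), (83,[4,4,4]), (6,[0,3,0,2]), (67,[0,5,3,4]), (137,[3,0,3]), (62,[3,3,0]), (51,[5,0]), (113,[0,0,2,0]), (110,[1,3,1]), (142,[0,2,2,2]), (120,[5,5]), (143,[2,0,3,3]), (143,[0,0,2,0,2]), (127,[3,0,3]), (137,[3,5]), (113,[4,4]), (137,[1,4,1,5]), (62,[3,5]),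 (26,[3,3,0]), (113,[5,0]), (62,[1,4,1]), (122,[0,2,0]), (91,[4,0,5]), (62,[1,3,1,1]), (25,[1,3,1,1]), (26,[0,4,0,3]), (62,[1,1,4,1]), (113,[3,3,0,5]), (30,[4,4,4]), (113,[4,4,4]), (83,[3,5]), (30,[4]), (62,[4,4]), (30,[3,0,3]), (62,[0,0,2,0]), (25,[1,4,1,5]), (113,[5]), (113,[1,3,1,1]), (26,[3,3,0,5]), (30,[4,4]), (62,[3,0,3]), (110,[3,5]), (121,[0,3,0,2]), (110,[3,0,3]), (127,[1,4,1]), (25,[3,3,0,5]), (110,[4,4,4]), (5,[0,3,0,2]), (108,[2,0,2,2]), (83,[5,5]), (73,[5,0]), (30,[5,5]), (108,[1,4,1]), (30,[3,5]), (127,[1,4,1,5]), (83,[3,0,3]), (30,[0,0,2,0]), (142,[2,0,3,3]), (137,[1,4,1]), (73,[0,5,3,4]), (137,[1,3,1]), (108,[0,2,0,0])]),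
    (18,[(93,[0,2,2,2]), (53,[0,2,2,2]), (10,[0,2,2,2]), (110,[4,1,2]), (113,[0,5,5]), (110,[3,0,5]), (93,[0,3,0,2]), (110,[0,2,2,4]), (110,[1,2,1,1]), (104,[0,2,2,2]), (8,[5,1]), (110,[5,1]), (104,[0,3,0,2]), (113,[1,3,4,1]), (113,[1,2,1,1]), (113,[0,4]), (110,[0,0,2,5]), (130,[0,2,2,2]), (85,[0,3,0,2]), (10,[0,3,0,2]), (97,[0,3,0,2]), (16,[5,1]), (65,[0,2,2,2]), (31,[0,2,2,2]), (85,[0,2,2,2]), (129,[5,0,0]), (130,[0,3,0,2]), (113,[4,1,2]), (110,[4,4,4]), (113,[5,1]), (97,[0,2,2,2]), (110,[1,5]), (111,[0,3,0,2]), (110,[0,4])]),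
    (14,[]),
    (19,[(110,[2,2,2]), (77,[0,2,2,2]), (97,[0,2,2,2]), (120,[0,3,5]), (57,[0,2,2,2]), (110,[0,3,0]), (101,[0,2,2,2]), (26,[1]), (82,[0,2,2,2]), (110,[0,0,3,4]), (75,[0,2,2,2]), (126,[0,4,0,3]), (46,[0,2,2,2]), (2,[0,0,2]), (42,[1]), (74,[0,2,2,2]), (116,[1,1,3,3]), (126,[0,0,2,0]), (2,[1]), (75,[0,3,0,2]), (42,[0,4,0,3]), (77,[0,3,0,2]), (110,[1,3,1,1]), (113,[0,0,2]), (126,[0,0,3,4]), (80,[0,2,2,2]), (40,[0,2,4]), (42,[0,3,0]), (113,[1,1,4,4]), (110,[1,1,5]), (126,[0,3,5]), (34,[3,0]), (2,[0,3,5]), (42,[3,0]), (40,[2,2,2]), (120,[0,0,3,4]), (113,[3,0,2]), (42,[0,3,5]), (126,[3,0,2]), (46,[0,3,0,2]), (44,[0,3,3]), (105,[1,3,1,1]), (2,[0,4,0,3]), (110,[2,1,4]), (107,[0]), (2,[0,0,2,0]), (113,[0,3,0]), (105,[3,0]), (113,[1,1,5]), (2,[0,0,3,4]), (74,[0,3,0,2]), (26,[0,0,3,4]),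 (34,[2,2,2]), (101,[0,3,0,2]), (126,[0,0,2]), (120,[3,0]), (42,[2,2,2]), (34,[2,1,4]), (133,[0,3,0,2]), (113,[4,0]), (113,[0,3,5]), (110,[0,3,5]), (133,[0,2,2,2]), (2,[3,0]), (105,[2,1,4]), (110,[0,0,2]), (34,[0,4,0,3]), (110,[0,4,0,3]), (42,[1,3,1,1]), (110,[0,0,2,0]), (126,[1]), (113,[0,0,2,0]), (2,[3,0,2]), (126,[2,1,4]), (26,[3,0]), (42,[0,0,2,0]), (40,[1]), (126,[0,2,4]), (34,[4,4,4]), (34,[3,0,2]), (34,[0,3,5]), (126,[3,0]), (105,[0,3,5]), (44,[1,2]), (34,[0,0,3,4]), (116,[0,3,0]), (80,[0,3,0,2]), (97,[0,3,0,2]), (34,[1,3,1,1]), (26,[0,4,0,3]), (42,[3,0,2]), (34,[0,3,0]), (113,[2,1,4]), (113,[4,4,4]), (105,[0,0,3,4]), (34,[1,1,5]), (2,[2,2,2]), (34,[1]), (57,[0,3,0,2]), (34,[0,0,2]), (113,[1,3,1,1]), (82,[0,3,0,2]), (40,[3,0]), (120,[0,4,0,3]), (105,[0,4,0,3]), (110,[3,0,2]), (40,[0,0,3,4]),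 (101,[1,2,4]), (110,[4,4,4]), (105,[1]), (110,[1]), (2,[1,3,1,1]), (110,[2,0,4]), (113,[2,2,2]), (40,[0,4,0,3]), (40,[0,3,5]), (42,[0,0,3,4]), (116,[0,0,2]), (113,[1,1,3,3]), (110,[2,4,2]), (40,[2,1,4]), (113,[2,4,2]), (113,[0,2,4]), (42,[2,1,4]), (113,[1]), (34,[2,4,2]), (40,[1,3,0,5]), (59,[0,0,3,4]), (120,[1]), (26,[0,3,5])]),
    (18,[(110,[4,1,1]), (119,[0,3,0,2]), (56,[0,3,0,2]), (110,[0,3]), (37,[0,3,0,2]), (18,[0,2,2,2]), (110,[0,2,2,4]), (101,[0,2,2,2]), (98,[0,2,2,2]), (110,[0,0,5]), (101,[0,3,0,2]), (9,[0,2,2,2]), (68,[0,2,2,2]), (110,[5,0,0]), (133,[0,2,2,2]), (37,[0,2,2,2]), (110,[0,0,2,0]), (56,[0,2,2,2]), (110,[1,1,5,5]), (97,[0,3,0,2]), (110,[2,1]), (65,[0,2,2,2]), (113,[1,4,2]), (113,[1,3,1,1]), (92,[0,2,2,2]), (110,[4,4,4]), (97,[0,2,2,2]), (110,[1,1,4]), (113,[5,0,0]),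 (111,[0,3,0,2])]),
    (19,[(110,[2,2,2]), (77,[0,2,2,2]), (87,[0,2,2,2]), (110,[0,2,2]), (110,[4,1,1]), (119,[0,3,0,2]), (113,[0,3,4]), (110,[3,3,1]), (77,[0,3,0,2]), (56,[0,3,0,2]), (110,[0,3]), (37,[0,3,0,2]), (113,[1,1,4,4]), (110,[1,1,5]), (18,[0,2,2,2]), (110,[0,2,2,4]), (86,[0,2,2,2]), (101,[0,2,2,2]), (112,[0,2,2,2]), (76,[0,2,2,2]), (6,[0,2,2,2]), (98,[0,2,2,2]), (110,[0,0,5]), (46,[0,2,2,2]), (113,[5,5]), (110,[3,3,0]), (80,[0,2,2,2]), (14,[0,2,2,2]), (57,[0,2,2,2]), (39,[0,2,2,2]), (110,[0,0,2,1]), (74,[0,3,0,2]), (102,[0,2,2,2]), (101,[0,3,0,2]), (86,[0,3,0,2]), (64,[0,2,2,2]), (9,[0,2,2,2]), (68,[0,2,2,2]), (110,[5,0,0]), (113,[0,3,5]), (17,[0,2,2,2]), (133,[0,2,2,2]), (37,[0,2,2,2]), (33,[0,2,2,2]), (110,[2,0]), (45,[0,3,0,2]), (110,[0,0,2,0]), (56,[0,2,2,2]), (110,[0,0,4]),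 (110,[2,1,5]), (113,[1,3]), (33,[0,3,0,2]), (36,[0,3,0,2]), (7,[0,3,0,2]), (102,[0,3,0,2]), (29,[0,2,2,2]), (7,[0,2,2,2]), (110,[1,1,5,5]), (14,[0,3,0,2]), (80,[0,3,0,2]), (97,[0,3,0,2]), (29,[0,3,0,2]), (110,[2,1]), (112,[0,3,0,2]), (17,[0,3,0,2]), (65,[0,2,2,2]), (64,[0,3,0,2]), (12,[0,2,2,2]), (110,[1,3]), (113,[1,4,2]), (82,[0,2,2,2]), (113,[1,3,1,1]), (110,[2,1,4]), (110,[4]), (92,[0,2,2,2]), (110,[3,0,2]), (74,[0,2,2,2]), (45,[0,2,2,2]), (110,[4,4,4]), (97,[0,2,2,2]), (110,[5]), (110,[2,0,4]), (6,[0,3,0,2]), (75,[0,2,2,2]), (48,[0,2,2,2]), (110,[1,1,4]), (110,[2,4,2]), (113,[5,0,0]), (113,[2,4,2]), (5,[0,2,2,2]), (5,[0,3,0,2]), (111,[0,3,0,2]), (36,[0,2,2,2]), (110,[4,4])]),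
    (18,[]),
    (19,[])]
def js34c6 : List (ℕ × List (ℕ × List ℕ)) := [
    (6,[]),
    (6,[]),
    (18,[(24,[0,0,5]), (97,[1,5]), (24,[4,4,4]), (37,[2,0,2,5]), (90,[0,5,0]), (92,[1,5]), (24,[4,1,1]), (16,[1,4,1]), (92,[3,4]), (60,[4,4,4]), (37,[3,4]), (26,[4,4,4]), (26,[0,5,0]), (60,[1,4,1]), (97,[1,4,1]), (16,[2,0,2,5]), (90,[1,5]), (92,[2,0,2,5]), (60,[1,1,3]), (67,[1,5]), (67,[4,0]), (139,[4,0]), (139,[0,0,5]), (26,[1,4,1]), (37,[1,5]), (97,[3,4]), (55,[4,0]), (50,[4,4,2]), (26,[4,1,1]), (139,[4,1,1]), (55,[4,4,4]), (90,[2,0,2,5]), (16,[0,5,0]), (97,[3,5,5]), (97,[2,0,2,5]), (96,[1,1,3]), (139,[4,4,4]), (139,[0,5,0]), (92,[1,4,1]), (90,[1,4,1]), (16,[3,5,5]), (67,[1,4,1])]),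
    (17,[(92,[2,0,4]), (74,[0,0,5]), (12,[0,0,4]), (37,[0,0,4]), (128,[0,0,5]), (37,[2,0,4]), (74,[2,1,5]), (74,[4,4,4]), (80,[0,0,4]), (36,[0,0,4]), (74,[4,1,1]), (36,[1,3,4]), (76,[0,0,5]), (76,[0,0,4]), (97,[1,3,4]), (92,[1,1,4,4]), (97,[2,0,4]), (76,[4,1,1]), (76,[2,1,5]), (128,[4,4,4]), (80,[1,3,4]), (64,[2,0,4]), (97,[1,1,4,4]), (97,[2,4,2]), (64,[1,1]), (37,[1,3,4]), (76,[2,4,2]), (64,[1,3,4]), (64,[2,1,5]), (12,[4,4,4]), (76,[0,3,5]), (128,[4,1,1]), (37,[1,1,4,4]), (46,[2,1,5]), (64,[2,4,2]), (97,[0,0,4]), (36,[1,1,4,4]), (76,[4,4,4]), (80,[1,1,4,4]), (76,[1,1]), (76,[0,3,1,3]), (128,[2,1,5])]),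
    (17,[(37,[3,0,2]), (87,[4,1,1]), (37,[2,2,2]), (131,[4,1,1]), (82,[4,1,1]), (97,[1,4,0,2]), (77,[1,3,0,0]), (77,[4,1,1]), (82,[0,0,5]), (125,[1,3]), (92,[3,0,2]), (131,[1,3,0,0]), (82,[3,3,1]), (82,[1,3,0,0]), (87,[3,3,1]), (77,[0,0,5]), (87,[4,4,4]), (77,[4,4,4]), (37,[0,2,2]), (14,[0,2,2]), (97,[3,0,2]), (97,[0,2,2]), (46,[1,1,2,0]), (14,[1,3]), (136,[3,3,1]), (82,[4,4,4]), (131,[4,4,4]), (97,[2,2,2]), (131,[0,0,5]), (39,[1,1,2,0]), (39,[1,3,0,0]), (92,[2,2,2]), (75,[0,2,2]), (97,[1,3]), (39,[0,2,2]), (131,[3,3,1]), (92,[1,3]), (14,[1,3,0,0]), (125,[3,0,2]), (125,[3,3,1]), (14,[1,4,0,2]), (131,[0,2,2])]),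
    (18,[(110,[4,1,1]), (110,[4,4,4]), (37,[0,3,0,2]), (118,[2,4]), (92,[0,2,2,2]), (109,[4,1,1]), (37,[0,2,2,2]), (61,[0,2,0,3]), (113,[0,2,0,3]), (92,[0,3,0,2]), (113,[4,1,1]), (118,[0,3,0,2]), (20,[4,4,4]), (110,[0,0,5]), (109,[5,3]), (61,[4,4,4]), (109,[0,2]), (113,[0,0,5]), (109,[4,4,4]), (8,[5,3]), (20,[0,3,5,3]), (97,[0,2,2,2]), (110,[0,4,0,3]), (61,[1,3,0]), (113,[1,3,0]), (120,[0,2]), (61,[5,3]), (97,[0,3,0,2]), (61,[4,1,1]), (113,[4,4,4]), (20,[1,3,0]), (109,[0,4,0,3]), (110,[1,3,0]), (120,[5,3]), (120,[0,4,0,3]), (20,[0,2,0,3]), (113,[2,4]), (61,[0,0,5]), (61,[0,4,0,3]), (61,[0,2]), (113,[0,4,0,3]), (32,[0,2])]),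
    (6,[]),
    (9,[(37,[1,3,5]), (65,[4,1,1])]),
    (9,[(92,[0,0,2,0]), (37,[0,0,2,0])]),
    (9,[]),
    (19,[(21,[4,4,4]), (43,[1,1,4,4]), (37,[0,2,2,2]), (97,[2,5]), (61,[1,2]), (74,[0,0,5]), (36,[0,3,1]), (92,[2,0,4]), (37,[2,5]), (12,[0,0,3]), (47,[0,0,5]), (35,[1,3,1]), (37,[0,0,4]), (128,[0,0,5]), (110,[4,1,1]), (37,[2,0,4]), (74,[2,1,5]), (21,[4,1,1]), (35,[3,5]), (37,[0,4,0]), (128,[0,2,0]), (43,[0,3,0,2]), (36,[0,0,3]), (76,[0,2,0]), (36,[0,0,4]), (123,[0,2,0]), (92,[0,3,0,2]), (37,[0,3,0,2]), (116,[4,4,4]), (113,[4,1,1]), (74,[4,4,4]), (13,[2,4,2]), (47,[4,4,4]), (76,[1,3,5,0]), (113,[0,2,0]), (92,[0,3,3,5]), (21,[0,0,5]), (38,[5,3,4]), (25,[2,1,5]), (35,[0,0,4]), (110,[0,0,5]), (110,[0,0,3]), (97,[0,3,3,5]), (74,[4,1,1]), (97,[1,3,4]), (43,[1,3,4]), (97,[2,0,4]), (92,[0,2,2,2]),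 (46,[0,2,0,3]), (61,[0,3,5]), (97,[0,4,0]), (92,[1,1,4,4]), (62,[0,0,3]), (25,[1,3,4]), (64,[0,2,0]), (123,[4,1,1]), (35,[4,1,1]), (62,[2,0,4]), (113,[0,0,5]), (92,[2,5]), (64,[1,4,0]), (76,[2,1,5]), (128,[4,4,4]), (76,[1,2]), (110,[0,3,5]), (47,[4,1,1]), (36,[0,3,4,1]), (62,[0,0,4]), (80,[1,3,4]), (66,[1,1]), (116,[0,0,3]), (117,[2,1,5]), (92,[0,4,0]), (110,[2,1,5]), (46,[1,3,0]), (116,[0,0,5]), (97,[1,1,4,4]), (97,[2,4,2]), (76,[0,0,3]), (117,[0,0,4]), (12,[1,2]), (64,[1,1]), (76,[1,3,0]), (47,[0,0,3]), (62,[1,1,4,4]), (110,[0,2,0]), (100,[1,3,5,0]), (13,[2,1,5]), (80,[0,3,0,2]), (97,[0,3,0,2]), (74,[0,0,3]), (74,[0,2,0]), (21,[2,1,5]), (135,[2,4,2]), (113,[4,4,4]), (100,[0,0,3]), (113,[2,1,5]), (64,[2,1,5]), (12,[4,4,4]), (135,[0,0,4]), (128,[0,0,3]), (36,[5,3,4]), (135,[1,1,4,4]), (97,[0,2,2,2]),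 (12,[0,4,0,3]), (36,[1,5,0]), (76,[0,3,5]), (128,[4,1,1]), (66,[2,1,5]), (37,[1,1,4,4]), (110,[4,4,4]), (117,[0,2,0]), (100,[0,3,4,1]), (62,[5,3,4]), (46,[0,0,3]), (97,[0,0,4]), (97,[0,5,0,3]), (35,[4,4,4]), (62,[0,5,0,3]), (100,[5,3,4]), (76,[4,4,4]), (123,[4,4,4]), (80,[1,1,4,4]), (117,[1,3,4]), (76,[1,1]), (38,[4,4,4]), (35,[1,3,5,0]), (44,[1,3,5,0]), (113,[0,0,3]), (62,[0,3,4,1]), (128,[2,1,5]), (37,[0,5,0,3])]),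
    (19,[(24,[4,1,1]), (84,[0,0,5]), (67,[0,5,0,0]), (92,[3,0,2]), (92,[3,0,4]), (17,[1,3,1]), (37,[2,4,1]), (37,[3,0,2]), (138,[3,3,1]), (77,[0,0,5]), (39,[2,0,2,2]), (87,[4,1,1]), (37,[2,2,2]), (131,[4,1,1]), (37,[3,4]), (37,[0,5,3]), (26,[3,5]), (24,[0,0,5]), (97,[1,5]), (52,[3,5]), (92,[1,5]), (52,[4,4,4]), (77,[4,4,4]), (13,[0,3,5]), (77,[4,1,1]), (82,[0,0,5]), (125,[1,3]), (37,[3,0,4]), (137,[4,0]), (25,[3,5]), (14,[2,0,2,2]), (26,[4,4,4]), (25,[0,0,5]), (97,[2,4,1]), (84,[4,1,1]), (38,[3,3,1]), (125,[4,0]), (79,[4,1,1]), (16,[5,0,4]), (52,[0,0,5]), (35,[1,1,2,0]), (79,[0,0,5]), (127,[2,0,2,2]), (137,[3,3,1]), (16,[0,5,3]), (79,[4,4,4]), (87,[3,3,1]), (82,[4,0]), (16,[0,2,2]), (35,[3,0,2]), (97,[0,5,3]), (84,[4,4,4]), (16,[2,0,2,2]), (16,[2,2,2]), (37,[0,2,2]), (35,[1,3,0,0]), (37,[2,0,2,5]),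 (37,[5,0,4]), (16,[2,0,2,5]), (122,[1,3,0,0]), (92,[2,0,2,5]), (127,[3,5]), (97,[3,0,2]), (84,[4,0]), (77,[3,5]), (92,[3,4]), (35,[0,2,2]), (127,[1,3,0,0]), (97,[0,2,2]), (67,[4,0]), (25,[4,4,4]), (139,[4,0]), (139,[0,0,5]), (26,[1,3,0,0]), (16,[1,3,0,0]), (39,[1,4,1,5]), (92,[2,4,1]), (82,[4,1,1]), (136,[3,3,1]), (82,[4,4,4]), (131,[4,4,4]), (46,[2,0,2,5]), (97,[2,2,2]), (28,[3,3,1]), (67,[3,3,1]), (82,[3,5]), (131,[0,0,5]), (125,[0,5,0,0]), (39,[2,0,2,5]), (24,[4,4,4]), (90,[2,2,2]), (37,[1,5]), (75,[2,0,2,5]), (25,[1,3,0,0]), (97,[3,4]), (35,[2,0,2,2]), (67,[1,3]), (39,[1,3,0,0]), (92,[2,2,2]), (139,[3,5]), (26,[4,1,1]), (102,[3,5]), (139,[4,1,1]), (35,[2,0,2,5]), (28,[4,0]), (14,[1,4,1,5]), (90,[2,0,2,5]), (75,[0,2,2]), (138,[4,0]), (97,[3,5,5]), (16,[3,5]), (39,[0,2,2]), (16,[3,0,2]),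 (131,[4,0]), (97,[2,0,2,5]), (131,[3,3,1]), (139,[4,4,4]), (25,[1,5]), (77,[4,0]), (125,[1,4,1]), (99,[4,4,4]), (14,[1,3,0,0]), (125,[3,0,2]), (127,[1,4,1,5]), (97,[5,0,4]), (125,[3,3,1]), (131,[1,1,4,1]), (97,[3,0,4]), (136,[4,0]), (35,[1,4,1,5]), (79,[4,0]), (99,[0,0,5])]),
    (17,[(37,[4]), (5,[0,0,5]), (87,[4,4]), (86,[0,0,5]), (92,[0,4,2,5]), (33,[0,0,5]), (6,[0,0,5]), (131,[1,3,0,0]), (37,[5]), (37,[0,4,2]), (33,[4,1,1]), (87,[4]), (87,[0,4,2,5]), (92,[3,3,1]), (37,[3,3,0]), (92,[0,0,2,0]), (87,[3,3,0]), (29,[0,0,5]), (102,[0,4,2,5]), (131,[5]), (48,[0,0,5]), (87,[5,5]), (87,[3,3,0,5]), (37,[3,3,1]), (131,[4]), (37,[0,0,2,0]), (37,[0,4,2,5]), (5,[4,1,1]), (131,[3,3,1]), (92,[5]), (87,[0,4,2]), (102,[0,0,2,1]), (92,[4]), (87,[5])]),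
    (18,[(37,[0,4]), (31,[0,0,5]), (55,[0,0,2,5]), (92,[0,4]), (8,[0,2]), (85,[4,1,1]), (53,[0,0,5]), (37,[0,5,5]), (55,[4,1,2]), (10,[4,1,1]), (37,[0,0,2,5]), (85,[0,0,5]), (92,[5,1]), (10,[0,0,5]), (109,[0,5,5]), (93,[4,1,1]), (93,[0,0,5]), (92,[0,0,2,5]), (109,[1,3,4,1]), (92,[0,5,5]), (55,[1,3,4,1]), (109,[1,2,1,1]), (104,[0,2]), (37,[1,3,5]), (37,[5,1]), (92,[0,2,0,3]), (109,[3,0,5]), (109,[5,1]), (109,[4,1,2]), (37,[0,2,0,3]), (109,[0,4]), (65,[4,1,1]), (37,[1,1,3]), (109,[1,1,3])]),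
    (18,[(96,[0,0,5]), (37,[3,5,5]), (118,[2,4]), (24,[0,0,5]), (92,[1,5]), (37,[3,4]), (90,[4,0]), (92,[3,5,5]), (113,[4,1,1]), (120,[2,4]), (96,[4,1,1]), (92,[0,3,5,3]), (16,[2,0,2,5]), (113,[0,0,5]), (37,[0,3,5,3]), (113,[4,0]), (92,[3,4]), (37,[0,2,2,2]), (24,[4,1,1]), (16,[4,4,2]), (90,[4,1,1]), (16,[0,3,5,3]), (37,[1,5]), (90,[2,4]), (37,[1,3,5]), (120,[4,0]), (90,[0,0,5]), (92,[0,2,2,2]), (139,[2,4]), (113,[2,4]), (16,[0,4,0,3]), (65,[4,1,1]), (16,[3,5,5]), (118,[4,0])]),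
    (17,[(37,[0,3,5]), (46,[1,1]), (12,[0,0,5]), (57,[4,1,1]), (57,[1,1]), (82,[0,0,5]), (37,[1,1,5]), (46,[0,0,5]), (125,[1,1,2,0]), (92,[1,1,2,0]), (74,[1,1]), (74,[0,0,5]), (77,[0,0,5]), (92,[2,1,4]), (80,[2,0]), (128,[2,0]), (80,[0,0,5]), (92,[0,0,2,0]), (128,[1,1]), (37,[2,0,4]), (12,[4,1,1]), (37,[3,0,2]), (125,[1,1,4,4]), (37,[2,4,2]), (37,[0,0,2,0]), (57,[0,0,5]), (37,[2,1,4]), (82,[1,1]), (77,[1,1]), (125,[3,0,2]), (37,[2,2,2]), (75,[0,0,5]), (75,[1,1]), (80,[1,1])]),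
    (16,[]),
    (17,[]),
    (18,[]),
    (19,[])]
def js34c7 : List (ℕ × List (ℕ × List ℕ)) := [
    (7,[]),
    (7,[]),
    (14,[(24,[4,4,4]), (24,[1,3,5]), (24,[0,2,2,4]), (111,[2,0,2,5]), (97,[2,0,2,5]), (65,[3,4])]),
    (17,[(74,[1,3,5]), (97,[2,0,4]), (136,[0,3,5]), (136,[1,1,4,4]), (97,[1,4,0,2]), (136,[1,4,0,2]), (74,[4,4,4]), (111,[2,4,2]), (128,[0,2,2,4]), (65,[1,1,4,4]), (65,[2,0,4]), (131,[1,3,0,0]), (131,[1,4,0,2]), (74,[0,2,2,4]), (125,[2,4,2]), (80,[1,4,0,2]), (80,[1,1,2,0]), (128,[1,3,5]), (111,[2,0,4]), (102,[2,4,2]), (65,[1,1,2,0]), (102,[1,3,0,0]), (128,[4,4,4]), (46,[1,4,0,2]), (46,[1,3,0,0]), (97,[1,1,4,4]), (131,[4,4,4]), (97,[2,4,2]), (136,[1,3,0,0]), (131,[0,2,2,4]), (111,[1,1,4,4]), (131,[0,3,5]), (125,[1,1,4,4]), (80,[2,0,4]), (75,[0,2,2,4]), (131,[2,4,2]), (80,[1,3,0,0]),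 (128,[1,3,0,0]), (102,[0,0,2,1]), (80,[1,1,4,4]), (74,[1,3,0,0]), (65,[1,4,0,2])]),
    (17,[(65,[2,2,2]), (82,[2,1,5]), (77,[1,3,5]), (112,[3,0,2]), (82,[0,2,2,4]), (77,[0,2,2,4]), (64,[0,2,2,5]), (111,[2,2,2]), (97,[0,2,2,5]), (82,[1,3,5]), (36,[0,0,4]), (82,[4,4,4]), (112,[2,1,4]), (76,[0,2,2,4]), (111,[0,2,2,5]), (77,[4,4,4]), (46,[0,2,2,5]), (65,[3,0,2]), (76,[0,3,4]), (111,[0,0,4]), (76,[2,1,5]), (97,[3,0,2]), (36,[0,3,5]), (36,[0,3,4]), (97,[2,2,2]), (45,[1,3,5]), (45,[4,4,4]), (75,[0,0,4]), (82,[0,3,4]), (46,[2,2,2]), (65,[0,3,5]), (111,[3,0,2]), (45,[0,3,4]), (45,[0,2,2,4]), (97,[0,0,4]), (97,[2,1,4]), (112,[0,0,4]), (76,[4,4,4]), (112,[0,3,4]), (46,[0,0,4]), (77,[2,1,5]), (112,[0,3,5])]),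
    (14,[(110,[0,2,2,4]), (97,[0,3,0,2]), (65,[0,2,2,2]), (110,[4,4,4]), (97,[0,2,2,2]), (111,[0,3,0,2])]),
    (9,[(37,[1,3,5]), (65,[4,1,1])]),
    (7,[]),
    (9,[(65,[0,0,2,0]), (111,[0,0,2,0])]),
    (9,[]),
    (19,[(21,[4,4,4]), (43,[1,1,4,4]), (65,[0,4,0]), (21,[2,5,1]), (111,[0,5,0,3]), (21,[1,3,5]), (97,[0,4,0]), (47,[0,3,3]), (4,[2,5]), (74,[1,3,5]), (97,[1,4,0,2]), (97,[2,0,4]), (81,[0,3,5]), (136,[1,4,0,2]), (4,[2,0,4]), (97,[2,5]), (13,[0,3,5]), (74,[4,4,4]), (111,[2,4,2]), (128,[0,2,2,4]), (80,[2,5]), (47,[4,4,4]), (4,[1,3,5,0]), (65,[1,1,4,4]), (65,[2,0,4]), (131,[1,3,0,0]), (47,[1,3,5]), (80,[3,3,4]), (80,[3]), (116,[4,4,4]), (4,[3]), (110,[0,2,2,4]), (88,[3]), (65,[2,5]), (123,[1,3,3]), (80,[0,3,1]), (63,[2,5,1]), (131,[1,4,0,2]), (88,[1,3,0,0]), (4,[2,5,1]), (43,[1,4,0,2]),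 (43,[1,3,5,0]), (97,[0,3,3,5]), (63,[0,2,2,4]), (80,[1,4,0,2]), (21,[0,2,2,4]), (47,[0,2,2,4]), (103,[3,3,5]), (81,[0,2,2,4]), (128,[1,3,5]), (123,[1,3,5]), (123,[0,2,2,4]), (116,[1,3,5]), (110,[4,4,4]), (118,[0,3,1]), (88,[0,3,3,5]), (65,[0,3,3,5]), (135,[1,3,0,0]), (65,[3]), (97,[0,3,1]), (88,[1,4,0,2]), (111,[0,4,0]), (58,[1,2,1]), (128,[1,2]), (88,[2,5]), (128,[4,4,4]), (65,[0,5,0,3]), (47,[2,5,1]), (81,[2,5,1]), (63,[0,0,2,2]), (13,[3,3,4]), (136,[3]), (4,[0,5,0,3]), (135,[1,3,5,0]), (4,[1,3,0,0]), (135,[1,4,0,2]), (81,[4,4,4]), (116,[0,2,2,4]), (111,[3,3,4]), (97,[1,1,4,4]), (131,[4,4,4]), (97,[2,4,2]), (97,[3]), (13,[1,3,5,0]), (136,[1,3,0,0]), (63,[4,4,4]), (97,[1,3,5,0]), (136,[0,3,1]), (131,[0,2,2,4]), (111,[1,1,4,4]), (97,[0,3,0,2]), (118,[1,3,5,0]), (131,[0,3,5]), (43,[0,3,1]),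 (97,[3,3,4]), (111,[2,5]), (65,[0,2,2,2]), (4,[0,3,3,5]), (97,[0,2,2,2]), (120,[2,4,2]), (63,[3]), (135,[2,5,1]), (111,[2,0,4]), (131,[2,5,1]), (116,[1,3,3]), (135,[1,1,4,4]), (111,[0,3,3,5]), (136,[2,5,1]), (81,[1,3,0,0]), (81,[0,3,3]), (88,[0,5,0,3]), (43,[3]), (88,[0,0,2,2]), (80,[1,3,0,0]), (4,[0,4,0]), (111,[3]), (96,[2,4,2]), (74,[0,2,2,4]), (97,[0,5,0,3]), (88,[2,5,1]), (88,[0,3,1]), (4,[1,1,4,4]), (123,[4,4,4]), (80,[1,1,4,4]), (43,[2,5]), (136,[0,3,3,5]), (65,[3,3,4]), (111,[0,3,0,2]), (89,[2,4,2]), (4,[3,3,4]), (65,[1,4,0,2]), (81,[1,4,0,2])]),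
    (19,[(65,[3,0,4]), (52,[0,2,2,4]), (65,[2,4,1]), (79,[0,5]), (52,[1,3,5]), (27,[0,5,3]), (65,[2,2,2]), (82,[2,1,5]), (65,[0,5,3]), (79,[5,0]), (82,[0,2,2,4]), (76,[0,5]), (52,[4,4,4]), (84,[4,4,4]), (13,[0,3,3]), (65,[3,0,2]), (13,[0,3,4]), (111,[2,2,2]), (77,[1,3,5]), (97,[0,2,2,5]), (79,[1,3,5]), (44,[0,2,2,5]), (15,[4,1]), (79,[4,4,4]), (13,[0,0,2]), (27,[3,0,2]), (27,[3,0,4]), (27,[4,1]), (97,[2,4,1]), (99,[0,5]), (24,[1,3,5]), (76,[4,4,2]), (77,[4,4,4]), (27,[0,3,5]), (15,[1,4]), (76,[0,2,2,4]), (77,[5,0]), (112,[2,4,1]), (111,[0,2,2,5]), (76,[1,4]), (82,[1,3,5]), (1,[0,5]), (30,[4,4,2]), (11,[5,0]), (76,[0]), (97,[4,1]), (45,[5,0]), (97,[0,5,3]), (45,[0,5]), (11,[4,4,2]), (65,[3,4]), (76,[0,4,0,3]), (11,[0,3,4]), (30,[5,0]), (112,[4,1]), (82,[4,4,4]), (34,[2,1,4]), (75,[0,3,3]),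 (76,[2,1,5]), (97,[3,0,2]), (11,[0,4,0,3]), (45,[0,4,0,3]), (1,[2,1,5]), (34,[0,3,4]), (65,[4,1]), (24,[4,4,4]), (76,[3,5,5]), (77,[0,2,2,4]), (79,[2,1,5]), (112,[1,4]), (36,[0,3,5]), (84,[1,3,5]), (112,[2,0,3,3]), (120,[4,1]), (111,[3,0,4]), (27,[5,0,4]), (36,[0,3,3]), (27,[2,4,1]), (99,[0,2,2,4]), (97,[2,2,2]), (82,[0,5]), (111,[0,5,3]), (34,[0,3,3]), (120,[1,4]), (45,[4,4,4]), (99,[0]), (96,[4,1]), (111,[5,0,4]), (140,[1,4]), (15,[0,3,5]), (79,[0,2,2,4]), (30,[4,4,4]), (99,[5,0]), (30,[0,2,2,4]), (46,[2,2,2]), (30,[3,5,5]), (11,[2,1,5]), (112,[1,2]), (84,[0,2,2,4]), (13,[0,0,4]), (15,[0,0,4]), (99,[1,3,5]), (27,[2,2,2]), (24,[0,2,2,4]), (111,[2,0,2,5]), (111,[2,4,1]), (111,[3,0,2]), (96,[1,2]), (82,[5,0]), (97,[2,0,2,5]), (15,[3,0,4]), (45,[0,2,2,4]), (15,[2,0,3,3]), (11,[0,5]), (65,[5,0,4]),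 (96,[1,4]), (99,[4,4,4]), (30,[2,1,5]), (97,[2,1,4]), (112,[0,0,4]), (99,[2,1,5]), (30,[0,4,0,3]), (97,[5,0,4]), (84,[0,5]), (76,[5,0]), (97,[3,0,4]), (27,[1,4]), (111,[4,1]), (11,[0,2,2,4]), (77,[2,1,5]), (112,[0,3,5]), (36,[2,0,3,3])]),
    (17,[(65,[0,4,2,5]), (29,[1,3,5]), (87,[4,4]), (33,[1,3,5]), (65,[4]), (6,[1,3,5]), (5,[1,3,5]), (76,[4]), (65,[0,4,2]), (65,[0,0,2,0]), (111,[5]), (86,[1,3,5]), (87,[4]), (76,[2,1,5]), (12,[5]), (65,[5]), (17,[2,0]), (17,[4]), (76,[4,4]), (65,[2,1,5]), (111,[2,1,5]), (76,[5]), (111,[0,0,2,0]), (76,[5,5]), (48,[0,2,2,4]), (111,[4]), (48,[1,3,5]), (17,[4,4]), (111,[0,4,2]), (111,[2,0]), (12,[5,5]), (86,[0,2,2,4]), (111,[0,4,2,5]), (76,[0,4,2])]),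
    (13,[]),
    (14,[]),
    (17,[(65,[0,3,5]), (128,[0,0,2,1]), (46,[1,3,5]), (7,[1,1,5]), (46,[0,0,2,1]), (111,[2,2,2]), (80,[1,3,5]), (111,[2,1,4]), (57,[1,3,5]), (125,[1,1,2,0]), (7,[1,1,4,4]), (7,[0,3,5]), (82,[1,3,5]), (65,[0,0,2,0]), (80,[0,2,2,4]), (65,[3,0,2]), (7,[3,0,2]), (65,[1,1,5]), (77,[0,3,1,3]), (75,[1,3,5]), (125,[2,2,2]), (65,[2,2,2]), (111,[1,1,2,0]), (65,[2,1,4]), (111,[0,0,2,0]), (125,[1,1,4,4]), (77,[1,3,5]), (7,[2,4,2]), (111,[0,0]), (7,[2,1,4]), (65,[2,0,4]), (74,[1,3,5]), (125,[0,3,5]), (65,[0,0])]),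
    (16,[]),
    (17,[]),
    (18,[]),
    (19,[])]
def js34c8 : List (ℕ × List (ℕ × List ℕ)) := [
    (8,[]),
    (8,[]),
    (18,[(24,[0,0,2,0]), (97,[2,0,2,5]), (101,[2,0,2,5]), (118,[2,4]), (8,[3,4]), (97,[3,4]), (96,[0,0,2,0]), (8,[0,2]), (133,[2,0,2,5]), (139,[1,3,1,1]), (20,[4,4,4]), (24,[1,3,1,1]), (32,[2,0,2,5]), (24,[4,4,4]), (90,[0,2]), (101,[3,5,5]), (8,[3,5,5]), (139,[0,0,2,0]), (133,[3,5,5]), (101,[3,4]), (139,[1,3,0]), (20,[3,5,5]), (139,[4,4,2]), (96,[1,3,1,1]), (32,[5,3]), (96,[5,3]), (61,[5,3]), (90,[5,3]), (96,[1,3,0]), (90,[2,4]), (101,[0,2]), (96,[0,2]), (133,[3,4]), (90,[2,0,2,5]), (24,[0,3,5,3]), (97,[3,5,5]), (139,[2,4]), (139,[4,4,4]), (96,[2,2]), (133,[0,2]), (8,[2,0,2,5]), (8,[4,4,2])]),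
    (15,[(97,[2,0,4]), (101,[1,1,4,4]), (97,[1,1,4,4]), (128,[1,3,1,1]), (74,[4,4,4]), (74,[0,0,2,0])]),
    (15,[(77,[4,4,4]), (97,[3,0,2]), (82,[1,3,1,1]), (82,[4,4,4]), (97,[2,2,2]), (77,[0,0,2,0])]),
    (18,[(97,[0,2,2,2]), (120,[1,3,1,1]), (97,[0,3,0,2]), (101,[0,3,0,2]), (90,[0,5,0]), (101,[0,2,2,2]), (26,[0,0,2,0]), (110,[1,3,1,1]), (90,[4,0]), (110,[4,4,4]), (101,[0,3,5,3]), (26,[4,4,4]), (110,[0,0,2,0]), (120,[1,4,1]), (118,[0,3,0,2]), (67,[0,3,0,2]), (120,[0,0,2,0]), (118,[1,4,1]), (67,[0,3,5,3]), (90,[1,3,1,1]), (133,[0,3,0,2]), (113,[4,0]), (133,[0,2,2,2]), (50,[4,4,4]), (110,[0,4,0,3]), (113,[0,0,2,0]), (69,[1,5]), (26,[1,4,1]), (26,[0,4,0,3]), (133,[1,4,1]), (113,[4,4,4]), (118,[0,5,0]), (120,[4,0]), (113,[1,3,1,1]), (101,[4,4,2]), (120,[0,4,0,3]), (113,[0,5,0]), (50,[4,0]),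 (110,[4,0]), (50,[1,3,1,1]), (113,[0,4,0,3]), (118,[4,0])]),
    (9,[(92,[0,0,2,0]), (37,[0,0,2,0])]),
    (9,[(65,[0,0,2,0]), (111,[0,0,2,0])]),
    (8,[]),
    (9,[]),
    (19,[(21,[1,3,1,1]), (133,[0,3,3,5]), (97,[2,5]), (13,[0,0,2,0]), (47,[0,0,2,0]), (30,[0,3,3,5]), (97,[0,4,0]), (47,[0,3,3]), (30,[0,2,2,2]), (97,[0,3,0,2]), (101,[0,3,3,5]), (90,[0,2,4]), (21,[0,0,2,0]), (59,[1,2,4]), (13,[0,3,3]), (101,[0,2,2,2]), (26,[0,0,2,0]), (97,[2,0,4]), (13,[0,3,5]), (101,[0,4,0]), (101,[0,3,0,2]), (15,[0,5,0]), (21,[4,4,4]), (43,[0,3,0,2]), (110,[1,3,1,1]), (59,[0,2,2,2]), (101,[2,5]), (108,[1,2]), (110,[4,4,4]), (101,[0,3,5,3]), (47,[4,4,4]), (135,[5,0]), (116,[4,4,4]), (46,[1,2,4]), (74,[4,4,4]), (13,[2,4,2]), (101,[5,0]), (133,[1,3,5,0]), (15,[1,4]), (15,[1,2]), (43,[0,4,0]), (44,[0,3,5]),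 (43,[1,3,5,0]), (97,[0,3,3,5]), (113,[0,0,2,0]), (69,[0,3,1]), (34,[3,5,5]), (110,[0,0,2,0]), (118,[1,4,1]), (135,[0,3,1]), (43,[0,2,2,2]), (101,[1,3,5,0]), (101,[0,5,0,3]), (118,[0,3,1]), (47,[1,2]), (110,[1,2]), (30,[5,0]), (97,[0,3,1]), (13,[1,4]), (90,[1,3,1,1]), (133,[0,3,0,2]), (113,[4,0]), (101,[1,1,4,4]), (116,[0,0,2,0]), (133,[0,2,2,2]), (80,[1,3,5,0]), (135,[1,4,1]), (116,[4,0]), (67,[1,2,4]), (59,[0,5,0,3]), (30,[1,2,4]), (135,[1,3,5,0]), (80,[1,4,1]), (13,[1,3,1,1]), (133,[0,3,1]), (108,[0,3,5]), (97,[1,1,4,4]), (15,[0,2,0,0]), (128,[1,3,1,1]), (43,[5,0]), (13,[1,3,5,0]), (97,[0,2,2,2]), (120,[1,2,4]), (74,[0,0,2,0]), (44,[0,0,2,0]), (97,[1,3,5,0]), (80,[5,0]), (44,[1,2]), (113,[1,2]), (108,[1,3,5,0]), (133,[0,4,0]), (59,[0,3,1]), (26,[0,4,0,3]), (43,[0,3,1]), (44,[0,4,0,3]),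 (123,[1,3,1,1]), (113,[4,4,4]), (21,[1,2]), (108,[0,4,0,3]), (43,[1,4,1]), (113,[0,3,3]), (133,[2,5]), (30,[0,3,1]), (133,[0,5,0,3]), (113,[1,3,1,1]), (47,[1,3,1,1]), (108,[2,4,2]), (59,[1,3,5,0]), (67,[5,0]), (123,[0,0,2,0]), (108,[4,0]), (101,[1,2,4]), (21,[0,3,3]), (43,[0,5,0,3]), (43,[0,3,3,5]), (116,[1,3,1,1]), (135,[0,3,0,2]), (97,[0,5,0,3]), (135,[0,4,0]), (13,[1,2]), (135,[0,3,3,5]), (44,[0,2,0,0]), (123,[4,4,4]), (43,[2,5]), (135,[0,2,2,2]), (135,[2,5]), (43,[4,0]), (44,[1,3,5,0]), (101,[0,3,1]), (135,[0,5,0,3]), (15,[0,3,3]), (133,[1,2,4])]),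
    (19,[(97,[2,4,1]), (22,[0,0,2,0]), (52,[4,4,4]), (13,[2,0,2,5]), (79,[1,3,1,1]), (101,[5,0,4]), (13,[3,0,4]), (99,[3,0]), (79,[4,4,4]), (34,[2,0,2,5]), (24,[0,0,2,0]), (84,[4,4,4]), (13,[0,3,3]), (34,[0,5,3]), (84,[1,3,1,1]), (24,[4,4,4]), (90,[5,0,4]), (97,[5,0,4]), (97,[3,4]), (132,[4,4,2]), (13,[3,4]), (96,[0,0,2,0]), (90,[1,2]), (13,[0,0,2]), (133,[2,0,2,5]), (101,[2,0,2,5]), (97,[1,2]), (139,[1,3,1,1]), (99,[4,4,4]), (126,[0,3,3]), (82,[4,4,4]), (75,[1,1,3,3]), (101,[3,0,4]), (97,[0,5,3]), (43,[1,3,0,5]), (44,[0,0,2]), (90,[2,4,1]), (13,[2,4,1]), (24,[1,3,1,1]), (44,[0,3,3]), (97,[3,0,4]), (22,[1,3,5,0]), (34,[3,4]), (90,[0,2]), (135,[0,3,1]), (13,[0,2]), (101,[0,0,2]), (133,[3,0,4]), (77,[4,4,4]), (46,[0,0,2]), (139,[3,0]), (97,[0,3,3]), (44,[0,5,3]), (99,[0,0,2,0]), (101,[3,5,5]),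 (126,[0,0,2]), (34,[1,2]), (139,[0,0,2,0]), (133,[3,5,5]), (13,[0,5,3]), (97,[3,0,2]), (43,[1,3,1,1]), (22,[1,3,1,1]), (75,[0,0,2]), (101,[3,4]), (126,[1,2]), (84,[0,0,2,0]), (126,[2,0,2,5]), (139,[4,4,2]), (34,[3,0,4]), (96,[1,3,1,1]), (135,[1,3,5,0]), (132,[1,1,5]), (84,[0,3,1]), (79,[0,0,2,0]), (101,[0,5,3]), (126,[1,1,3,3]), (82,[1,3,1,1]), (90,[3,0,4]), (133,[5,0,4]), (97,[2,2,2]), (52,[1,3,1,1]), (99,[1,3,1,1]), (34,[0,3,3]), (44,[1,2]), (90,[0,0,2]), (101,[2,4,1]), (46,[1,2]), (52,[0,0,2,0]), (91,[1,5,3]), (43,[0,3,1]), (133,[2,4,1]), (135,[0,0,2,0]), (34,[2,4,1]), (52,[1,3,0,5]), (90,[1,1,3,3]), (101,[1,2]), (34,[0,0,2]), (44,[2,0,2,5]), (22,[2,4,2]), (132,[0,0,2,0]), (133,[1,2]), (133,[3,4]), (90,[2,0,2,5]), (63,[3,0]), (99,[4,4,2]), (97,[3,5,5]), (24,[0,3,1]), (90,[0,5,3]), (97,[0,0,2]),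 (44,[2,4,1]), (97,[2,0,2,5]), (13,[5,0,4]), (139,[4,4,4]), (44,[5,0,4]), (75,[0,2]), (96,[0,3,5]), (43,[0,0,2,0]), (22,[4,4,2]), (126,[0,2]), (77,[0,0,2,0]), (13,[1,2]), (99,[1,3,5,0]), (90,[0,3,3]), (34,[5,0,4]), (63,[1,5,3]), (101,[1,5,3]), (8,[0,4,4]), (133,[0,5,3]), (44,[3,0,4]), (22,[1,3,0,5]), (135,[3,0])]),
    (12,[]),
    (18,[(101,[0,0,2,5]), (31,[0,0,2,0]), (20,[1,2,1,1]), (101,[1,2,1,1]), (20,[5,1]), (85,[0,0,2,0]), (133,[5,1]), (10,[0,0,2,0]), (101,[0,2,0,3]), (104,[0,0,2,0]), (133,[0,4]), (65,[0,0,2,0]), (85,[1,3,1,1]), (133,[0,5,5]), (53,[0,0,2,0]), (109,[0,5,5]), (130,[0,0,2,0]), (93,[0,0,2,0]), (101,[0,4]), (109,[1,3,4,1]), (101,[5,1]), (133,[1,1,3]), (111,[0,0,2,0]), (133,[0,2,0,3]), (19,[0,0,2,5]), (101,[0,5,5]), (20,[4,1,2]), (109,[3,0,5]), (109,[5,1]), (109,[4,1,2]),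 (109,[0,0,2,5]), (109,[0,4]), (133,[2,4]), (20,[3,0,5])]),
    (18,[(24,[0,0,2,0]), (90,[0,0,2,0]), (8,[3,3]), (8,[3,4]), (96,[0,0,2,0]), (8,[0,2]), (101,[0,3,5,3]), (133,[0,3,5,3]), (101,[0,2,2,2]), (8,[0,3,5,3]), (120,[0,0,2,0]), (65,[0,0,2,0]), (101,[3,5,5]), (8,[3,5,5]), (90,[1,3,1,1]), (133,[3,5,5]), (16,[0,2]), (101,[0,4,0,3]), (101,[3,4]), (110,[0,0,2,0]), (23,[0,4,0,3]), (113,[0,0,2,0]), (101,[3,3]), (111,[0,0,2,0]), (8,[0,2,2,2]), (23,[2,0,2,5]), (101,[0,2]), (118,[0,0,2,0]), (101,[4,4,2]), (23,[0,3,5,3]), (139,[0,5,0]), (133,[0,2]), (8,[2,0,2,5]), (8,[4,4,2])]),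
    (15,[]),
    (16,[]),
    (17,[]),
    (18,[]),
    (19,[])]
def js34c9 : List (ℕ × List (ℕ × List ℕ)) := [
    (9,[]),
    (9,[]),
    (18,[(24,[0,0,2,0]), (24,[4,4,4]), (37,[2,0,2,5]), (90,[0,5,0]), (24,[0,0,5]), (92,[1,5]), (24,[4,1,1]), (16,[1,4,1]), (133,[2,0,2,5]), (101,[2,0,2,5]), (139,[1,3,1,1]), (37,[3,4]), (92,[3,4]), (60,[1,4,1]), (24,[1,3,1,1]), (16,[2,0,2,5]), (139,[0,0,2,0]), (92,[2,0,2,5]), (16,[0,2]), (101,[3,4]), (139,[4,0]), (139,[0,0,5]), (26,[1,4,1]), (37,[1,5]), (24,[1,3,5]), (133,[3,4]), (50,[0,2,0,3]), (101,[1,5]), (139,[4,1,1]), (24,[0,2,2,4]), (111,[2,0,2,5]), (97,[2,0,2,5]), (50,[1,3,0]), (65,[3,4]), (139,[0,5,0]), (133,[1,5]), (16,[3,5,5]), (67,[1,4,1])]),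
    (17,[(37,[2,0,4]), (76,[1,3,5]), (65,[2,0,4]), (131,[4,1,1]), (128,[0,0,5]), (74,[2,1,5]), (92,[2,0,4]), (128,[0,2,2,4]), (65,[1,1,4,4]), (131,[1,3,0,0]), (76,[0,0,5]), (74,[0,0,5]), (76,[0,0,4]), (128,[1,3,5]), (92,[1,1,4,4]), (97,[2,0,4]), (76,[4,1,1]), (76,[2,1,5]), (101,[1,1,4,4]), (74,[4,1,1]), (64,[2,0,4]), (97,[1,1,4,4]), (128,[1,3,1,1]), (74,[4,4,4]), (74,[0,0,2,0]), (131,[0,0,5]), (111,[1,1,4,4]), (131,[2,1,5]), (111,[2,0,4]), (128,[4,1,1]), (37,[1,1,4,4]), (80,[1,3,0,0]), (128,[1,3,0,0]), (74,[0,2,2,4]), (76,[1,3,0,0]), (74,[1,3,5]), (74,[1,3,0,0]), (128,[2,1,5])]),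
    (17,[(65,[2,2,2]), (82,[2,1,5]), (37,[2,2,2]), (131,[4,1,1]), (82,[0,2,2,4]), (77,[1,3,0,0]), (111,[2,2,2]), (82,[0,0,5]), (92,[3,0,2]), (131,[1,3,0,0]), (76,[0,0,5]), (82,[1,3,0,0]), (82,[1,3,5]), (77,[0,0,5]), (65,[3,0,2]), (77,[4,4,4]), (76,[4,1,1]), (76,[2,1,5]), (97,[3,0,2]), (77,[0,2,2,4]), (14,[1,3]), (82,[1,3,1,1]), (82,[4,4,4]), (97,[2,2,2]), (131,[0,0,5]), (37,[3,0,2]), (131,[2,1,5]), (92,[2,2,2]), (77,[1,3,5]), (111,[3,0,2]), (39,[0,2,2,5]), (131,[1,3,5]), (77,[4,1,1]), (77,[0,0,2,0]), (76,[1,3,0,0]), (82,[4,1,1]), (77,[2,1,5]), (131,[0,2,2])]),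
    (18,[(110,[4,1,1]), (110,[4,4,4]), (37,[0,3,0,2]), (118,[2,4]), (92,[0,2,2,2]), (109,[4,1,1]), (110,[1,3,1,1]), (113,[0,2,0,3]), (92,[0,3,0,2]), (113,[4,1,1]), (110,[0,2,2,4]), (101,[0,2,2,2]), (110,[0,0,5]), (109,[5,3]), (101,[0,3,0,2]), (109,[0,2]), (113,[0,0,5]), (133,[0,3,0,2]), (113,[4,0]), (133,[0,2,2,2]), (37,[0,2,2,2]), (110,[0,0,2,0]), (113,[1,3,0]), (113,[0,0,2,0]), (61,[5,3]), (97,[0,3,0,2]), (61,[4,1,1]), (65,[0,2,2,2]), (20,[1,3,0]), (110,[1,3,0]), (113,[1,3,1,1]), (20,[0,2,0,3]), (97,[0,2,2,2]), (113,[2,4]), (61,[0,0,5]), (26,[5,3]), (111,[0,3,0,2]), (32,[0,2])]),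
    (9,[]),
    (9,[]),
    (9,[]),
    (9,[]),
    (19,[(21,[1,3,1,1]), (133,[0,3,3,5]), (111,[0,5,0,3]), (21,[1,3,5]), (37,[2,5]), (47,[0,0,5]), (35,[1,3,1]), (4,[2,5]), (128,[0,0,5]), (110,[4,1,1]), (37,[0,4,0]), (65,[2,5]), (38,[1,3,3]), (4,[2,0,4]), (128,[0,2,0]), (92,[2,0,4]), (97,[2,5]), (128,[0,2,2,4]), (101,[0,4,0]), (110,[1,3,1,1]), (65,[1,1,4,4]), (123,[0,2,0]), (92,[0,3,0,2]), (37,[0,3,0,2]), (116,[4,4,4]), (113,[4,1,1]), (110,[0,2,2,4]), (21,[4,1,1]), (101,[0,2,2,2]), (35,[1,3,1,1]), (92,[0,3,3,5]), (21,[0,0,5]), (38,[5,3,4]), (47,[0,0,2,0]), (47,[1,3,5]), (88,[0,0,3]), (110,[0,0,5]), (110,[0,0,3]), (97,[0,3,3,5]), (74,[0,0,5]), (128,[1,3,5]), (101,[0,3,3,5]), (123,[0,2,2,4]), (116,[1,3,5]), (21,[4,4,4]), (97,[0,4,0]), (92,[1,1,4,4]), (97,[2,0,4]), (62,[0,0,3]), (65,[0,3,3,5]),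 (101,[0,3,0,2]), (123,[4,1,1]), (35,[4,1,1]), (62,[2,0,4]), (113,[0,0,5]), (133,[0,3,0,2]), (88,[2,5]), (101,[1,1,4,4]), (111,[0,4,0]), (21,[0,0,2,0]), (133,[0,2,2,2]), (37,[0,2,2,2]), (74,[4,1,1]), (92,[2,5]), (110,[0,0,2,0]), (116,[0,0,3]), (113,[0,0,2,0]), (92,[0,4,0]), (133,[1,3,1]), (116,[0,2,2,4]), (116,[0,0,5]), (97,[1,1,4,4]), (37,[2,0,4]), (128,[1,3,1,1]), (97,[3]), (133,[3,3,4]), (74,[4,4,4]), (65,[0,4,0]), (74,[0,0,2,0]), (63,[4,4,4]), (47,[0,0,3]), (62,[1,1,4,4]), (110,[0,2,0]), (111,[1,1,4,4]), (47,[0,2,2,4]), (97,[0,3,0,2]), (74,[0,0,3]), (74,[0,2,0]), (97,[3,3,4]), (111,[2,5]), (65,[0,2,2,2]), (100,[0,0,3]), (133,[3]), (111,[2,0,4]), (21,[0,2,2,4]), (128,[0,0,3]), (133,[0,5,0,3]), (113,[1,3,1,1]), (111,[0,3,3,5]), (101,[2,5]), (92,[0,2,2,2]), (128,[4,1,1]), (123,[0,0,2,0]),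 (37,[1,1,4,4]), (47,[4,1,1]), (110,[4,4,4]), (117,[0,2,0]), (97,[0,2,2,2]), (4,[0,4,0]), (62,[5,3,4]), (116,[1,3,1,1]), (74,[0,2,2,4]), (97,[0,5,0,3]), (35,[4,4,4]), (62,[0,5,0,3]), (100,[5,3,4]), (65,[2,0,4]), (123,[4,4,4]), (4,[0,2,0]), (47,[4,4,4]), (74,[1,3,5]), (38,[4,4,4]), (65,[3,3,4]), (111,[0,3,0,2]), (113,[0,0,3]), (4,[3,3,4]), (128,[2,1,5]), (37,[0,5,0,3])]),
    (19,[(65,[3,0,4]), (52,[0,2,2,4]), (79,[1,3,1,1]), (101,[5,0,4]), (24,[1,3,5]), (37,[0,5,3]), (96,[3,5]), (65,[0,5,3]), (79,[5,0]), (82,[0,2,2,4]), (24,[0,0,2,0]), (52,[3,5]), (24,[0,0,5]), (92,[1,5]), (65,[2,4,1]), (111,[2,2,2]), (52,[4,4,4]), (82,[0,0,5]), (79,[1,3,5]), (92,[3,0,2]), (25,[3,5]), (133,[2,0,2,5]), (101,[2,0,2,5]), (25,[0,0,5]), (97,[2,4,1]), (139,[1,3,1,1]), (37,[3,4]), (52,[1,3,5]), (79,[4,1,1]), (16,[5,0,4]),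 (77,[5,0]), (24,[1,3,1,1]), (16,[0,5,3]), (79,[4,4,4]), (52,[0,0,5]), (82,[1,3,5]), (84,[4,1,1]), (77,[0,0,5]), (82,[4,0]), (133,[3,0,4]), (35,[3,0,2]), (97,[0,5,3]), (84,[4,4,4]), (65,[3,0,2]), (77,[4,4,4]), (16,[2,2,2]), (65,[2,2,2]), (76,[4,1,1]), (99,[0,0,2,0]), (37,[2,0,2,5]), (37,[5,0,4]), (16,[2,0,2,5]), (139,[0,0,2,0]), (92,[2,0,2,5]), (76,[2,1,5]), (97,[3,0,2]), (84,[4,0]), (77,[3,5]), (92,[3,4]), (101,[3,4]), (92,[3,0,4]), (84,[0,0,2,0]), (77,[0,2,2,4]), (25,[4,4,4]), (24,[4,1,1]), (139,[4,0]), (139,[0,0,5]), (27,[4,0]), (79,[0,0,2,0]), (101,[0,5,3]), (92,[2,4,1]), (82,[1,3,1,1]), (82,[4,4,4]), (99,[0,2,2,4]), (97,[2,2,2]), (52,[1,3,1,1]), (111,[0,5,3]), (82,[3,5]), (37,[2,2,2]), (131,[0,0,5]), (37,[3,0,2]), (101,[2,4,1]), (25,[1,3,1,1]), (24,[4,4,4]), (52,[0,0,2,0]), (37,[1,5]),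 (79,[0,2,2,4]), (101,[0,0,3]), (99,[5,0]), (30,[0,2,2,4]), (92,[2,2,2]), (139,[3,5]), (101,[1,5]), (84,[0,2,2,4]), (139,[4,1,1]), (25,[0,2,2,4]), (99,[1,3,5]), (133,[3,4]), (24,[0,2,2,4]), (77,[1,3,5]), (111,[2,0,2,5]), (111,[2,4,1]), (111,[3,0,2]), (16,[3,0,2]), (82,[5,0]), (97,[2,0,2,5]), (35,[4,1]), (65,[3,4]), (25,[1,5]), (84,[0,0,5]), (77,[4,0]), (65,[5,0,4]), (77,[4,1,1]), (99,[4,4,4]), (79,[0,0,5]), (77,[0,0,2,0]), (30,[3,5]), (133,[1,5]), (97,[5,0,4]), (76,[5,0]), (97,[3,0,4]), (82,[4,1,1]), (37,[3,0,4]), (37,[2,4,1]), (84,[1,3,5]), (77,[2,1,5]), (79,[4,0]), (99,[0,0,5])]),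
    (17,[(37,[4]), (5,[0,0,5]), (87,[4,4]), (33,[1,3,5]), (65,[4]), (33,[0,0,5]), (6,[0,0,5]), (131,[1,3,0,0]), (37,[5]), (37,[0,4,2]), (86,[1,3,5]), (87,[4]), (87,[0,4,2,5]), (92,[3,3,1]), (65,[5]), (87,[3,3,0]), (111,[1,3,0,0]), (111,[3,3,1]), (48,[0,0,5]), (87,[5,5]), (87,[3,3,0,5]), (37,[3,3,1]), (131,[4]), (29,[0,0,5]), (111,[4]), (48,[1,3,5]), (131,[3,3,1]), (92,[5]), (65,[3,3,1]), (102,[0,0,2,1]), (92,[4]), (87,[5])]),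
    (18,[(37,[0,4]), (31,[0,0,5]), (55,[0,0,2,5]), (92,[0,4]), (8,[0,2]), (85,[4,1,1]), (53,[0,0,5]), (37,[0,5,5]), (10,[0,0,5]), (101,[0,2,0,3]), (10,[4,1,1]), (37,[0,0,2,5]), (85,[0,0,5]), (92,[5,1]), (109,[0,5,5]), (93,[4,1,1]), (93,[0,0,5]), (101,[0,4]), (109,[1,3,4,1]), (92,[0,5,5]), (133,[1,1,3]), (133,[0,2,0,3]), (104,[0,2]), (37,[5,1]), (92,[0,2,0,3]), (109,[3,0,5]), (109,[5,1]), (109,[4,1,2]), (37,[0,2,0,3]), (109,[0,4]), (37,[1,1,3]), (109,[1,1,3])]),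
    (18,[(96,[0,0,5]), (37,[3,5,5]), (118,[2,4]), (24,[0,0,5]), (92,[1,5]), (37,[3,4]), (90,[4,0]), (92,[3,5,5]), (90,[0,0,2,0]), (120,[2,4]), (96,[4,1,1]), (101,[3,5,5]), (16,[2,0,2,5]), (113,[0,0,5]), (37,[0,3,5,3]), (113,[4,0]), (92,[3,4]), (101,[3,4]), (24,[4,1,1]), (16,[4,4,2]), (90,[4,1,1]), (16,[0,3,5,3]), (37,[1,5]), (90,[2,4]), (101,[1,5]), (90,[0,0,5]), (101,[4,4,2]), (139,[2,4]), (113,[2,4]), (133,[1,5]), (16,[3,5,5]), (118,[4,0])]),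
    (17,[(37,[0,3,5]), (46,[1,1]), (12,[0,0,5]), (46,[1,3,5]), (57,[1,1]), (80,[1,3,5]), (37,[1,1,5]), (46,[0,0,5]), (125,[1,1,2,0]), (92,[1,1,2,0]), (74,[1,1]), (74,[0,0,5]), (77,[0,0,5]), (65,[3,0,2]), (65,[1,1,2,0]), (128,[2,0]), (75,[1,3,5]), (128,[1,1]), (37,[2,0,4]), (12,[4,1,1]), (65,[2,1,4]), (125,[1,1,4,4]), (65,[0,3,5]), (57,[0,0,5]), (65,[1,1,5]), (82,[1,1]), (77,[1,1]), (125,[3,0,2]), (65,[2,0,4]), (74,[1,3,5]), (75,[1,1]), (80,[1,1])]),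
    (16,[]),
    (17,[]),
    (18,[]),
    (19,[])]
def js34c10 : List (ℕ × List (ℕ × List ℕ)) := [
    (10,[]),
    (19,[(21,[4,4,4]), (43,[1,1,4,4]), (97,[2,0,4]), (97,[0,2,2,2]), (46,[0,4,0,3]), (97,[0,4,0]), (110,[0,3,3]), (21,[0,4,0,3]), (47,[0,3,3]), (97,[0,3,3,5]), (47,[0,0,2]), (97,[0,5,0,3]), (126,[0,4,0,3]), (97,[2,5]), (97,[1,1,4,4]), (13,[2,1,4]), (13,[0,3,3]), (116,[1,1,3,3]), (13,[0,3,5]), (113,[4,4,4]), (47,[4,4,4]), (96,[1,3,5,0]), (43,[0,3,0,2]), (74,[4,4,4]), (80,[2,5]), (43,[2,4,2]), (110,[4,4,4]), (118,[0,3,3,5]), (13,[0,0,2]), (123,[4,4,4]), (80,[1,3,0,5]), (128,[4,4,4]), (116,[4,4,4]), (57,[3,0]), (126,[0,3,5]), (13,[2,4,2]), (126,[0,3,3]), (80,[0,3,3,5]), (80,[0,3,1]), (43,[1,3,0,5]), (44,[0,0,2]), (43,[2,0,4]), (43,[0,4,0]), (44,[0,3,5]), (43,[1,3,5,0]), (22,[1,3,5,0]),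 (97,[0,3,0,2]), (34,[3,5,5]), (97,[0,3,1]), (43,[0,3,3,5]), (52,[0,5,0,0]), (135,[0,3,1]), (43,[0,2,2,2]), (80,[0,2,2,2]), (21,[3,5,5]), (128,[0,4,0,3]), (118,[0,3,1]), (47,[1,2]), (110,[1,2]), (128,[0,3,3]), (126,[0,0,2]), (34,[1,2]), (34,[2,1,4]), (128,[1,2]), (21,[0,0,2]), (113,[0,3,5]), (110,[0,3,5]), (80,[0,5,0,3]), (80,[1,3,5,0]), (126,[1,2]), (96,[0,3,3,5]), (34,[0,4,0,3]), (110,[0,4,0,3]), (135,[0,2,2]), (47,[0,3,5]), (135,[1,3,5,0]), (135,[2,0,4]), (126,[0,5,3]), (96,[1,3,0,5]), (47,[3,5,5]), (126,[1,1,3,3]), (118,[1,3,0,5]), (97,[2,4,2]), (13,[0,4,0,3]), (13,[1,3,5,0]), (118,[0,5,0,3]), (128,[0,3,5]), (34,[0,3,5]), (97,[1,3,5,0]), (34,[0,3,3]), (44,[1,2]), (113,[1,2]), (47,[0,4,0,3]), (80,[0,3,0,2]), (118,[1,3,5,0]), (57,[0,2,2]), (43,[0,3,1]), (44,[0,4,0,3]), (135,[2,4,2]), (21,[1,2]),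 (120,[2,4,2]), (52,[1,3,0,5]), (80,[2,0,4]), (113,[0,3,3]), (46,[0,3,3]), (34,[0,0,2]), (74,[0,0,2]), (135,[1,1,4,4]), (120,[1,2]), (80,[0,4,0]), (57,[0,3,1]), (120,[0,4,0,3]), (126,[3,5,5]), (21,[0,3,5]), (118,[3,0]), (93,[2,4,2]), (21,[0,3,3]), (43,[0,5,0,3]), (96,[2,4,2]), (135,[0,3,0,2]), (135,[0,4,0]), (13,[1,2]), (135,[0,3,3,5]), (90,[0,3,3]), (80,[1,1,4,4]), (43,[2,5]), (135,[0,2,2,2]), (135,[2,5]), (22,[0,5,0,3]), (44,[1,3,5,0]), (44,[3,5,5]), (135,[0,5,0,3]), (44,[1,1,3,3]), (135,[3,0])]),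
    (19,[(24,[2,5]), (128,[0,0,5,1]), (123,[3,4]), (24,[2,0,4]), (14,[2]), (74,[2,0,2,5]), (21,[2]), (3,[2,0,2,5]), (21,[3,4]), (89,[3,3,5]), (24,[0,4,0]), (59,[1,2,4]), (24,[1,1,4,4]), (59,[0,4,4]), (128,[3,4]), (41,[2]), (74,[3,4]), (116,[3,4]), (72,[1,1,2,0]), (47,[3,4]), (72,[0,0,2,2]), (113,[3,4]), (90,[1,1,4,4]), (103,[1,1,4,4]), (123,[0,0,5,1]), (139,[2,5]), (125,[1,1,2,0]), (3,[2]), (59,[2]), (24,[0,3,0,2]), (89,[1,3,5]), (24,[0,3,3,5]), (59,[4,2,2]), (139,[0,0,2,2]), (21,[2,0,2,5]), (40,[2,5]), (90,[1,1,2,0]), (3,[1,3,5]), (59,[2,0,2,5]), (128,[1,2,4]), (74,[2]), (59,[0,0,5,1]), (59,[3,4]), (65,[0,0,5,1]), (24,[0,2,2,2]), (111,[0,0,2,2]), (90,[3,3,5]), (103,[3,3,5]), (65,[3,3,5]), (123,[2,0,2,5]), (47,[2,0,2,5]), (89,[3,5,5]), (110,[2]), (14,[1,1,2,0]), (113,[1,2,4]), (107,[0,0,2,2]),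 (89,[2,0,4]), (95,[1,3,5]), (103,[1,1,2,0]), (24,[0,5,0,3]), (102,[2]), (72,[3,3,5]), (89,[1,1,4,4]), (42,[0,4,4]), (125,[1,3,5]), (139,[0,5,0,3]), (125,[2]), (89,[0,0,2,2]), (24,[3,3,5]), (139,[1,1,4,4]), (40,[0,0,2,2]), (107,[2]), (123,[1,2,4]), (14,[1,3]), (74,[1,2,4]), (111,[3,3,5]), (116,[2,0,2,5]), (4,[1,4,0,2]), (125,[3,3,5]), (113,[0,0,5,1]), (95,[0,0,5,1]), (89,[2,5]), (113,[2,0,2,5]), (120,[0,3,0]), (107,[1,2,4]), (72,[3,5,5]), (139,[2,0,4]), (89,[0,4,0]), (136,[0,3,0]), (103,[0,0,2,2]), (39,[0,3,0]), (139,[3,3,5]), (139,[0,3,3,5]), (128,[2,0,2,5]), (14,[0,0,2,2]), (89,[0,3,0]), (41,[1,1,2,0]), (120,[0,2,4]), (139,[0,3,0,2]), (3,[0,0,2,2]), (125,[1,1,4,4]), (107,[0,0,5,1]), (59,[1,3,5]), (47,[1,2,4]), (125,[0,0,2,2]), (40,[1,1,4,4]), (74,[0,0,5,1]), (103,[2,0,4]), (89,[1,1,2,0]),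 (95,[2]), (116,[1,2,4]), (95,[1,2,4]), (107,[1,3,5]), (139,[0,2,2,2]), (47,[2]), (103,[2]), (102,[2,0,2,5]), (116,[0,0,5,1]), (111,[2]), (59,[3,3,5]), (102,[0,0,2,1]), (42,[0,0,5,1]), (139,[0,4,0]), (103,[1,3,5]), (89,[0,3,3,5]), (74,[0,4,4]), (72,[1,3,5]), (72,[1,1,4,4]), (72,[2]), (90,[0,0,2,2]), (89,[2]), (107,[2,0,2,5]), (49,[1,3,5])]),
    (10,[]),
    (19,[(110,[2,2,2]), (77,[0,2,2,2]), (21,[3,0,2]), (59,[2,5]), (82,[2,0,4]), (2,[1,1,5]), (82,[2,5]), (21,[0,5,0]), (82,[0,4,0]), (2,[1,1,3]), (77,[2,5]), (89,[3,3,5]), (59,[1,2,4]), (77,[0,3,3,5]), (50,[1,2,5]), (47,[2,2,2]), (16,[0,2,2,2]), (50,[1]), (21,[2,2,2]), (95,[4,2,2]), (74,[2,2,2]), (77,[0,4,0]), (133,[0,0,2,2]), (16,[2,5]), (77,[0,3,0,2]), (59,[0,2,2,2]), (116,[3,0,2]), (1,[1,2,1]), (82,[0,2,2,2]), (105,[1,1,5]), (47,[3,0,2]),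 (16,[1,4,4]), (74,[3,0,2]), (59,[0,0,2,0]), (59,[4,2,2]), (116,[3,3,5]), (82,[1,2,4]), (77,[0,5,0,3]), (103,[1,1,5]), (89,[1,1,3]), (16,[1,2,4]), (113,[3,0,2]), (101,[1,4,4]), (89,[1]), (16,[4,2,2]), (95,[1,5]), (82,[1,5]), (110,[3,0,2]), (30,[0,3,1,2]), (103,[3,3,5]), (2,[0,0,2,0]), (69,[0,5,0,3]), (82,[0,5,0,3]), (110,[3,3,5]), (82,[0,3,3,5]), (69,[1,1,4,4]), (101,[3,3,5]), (2,[0,0,3,4]), (128,[3,0,2]), (116,[1,1,3]), (95,[0,3,0,2]), (82,[4,2,2]), (55,[0,0,2,2]), (50,[1,5]), (55,[1,1,3]), (69,[0,2,2,2]), (89,[0,0,2,2]), (89,[1,5]), (95,[0,5,0,3]), (50,[3,3,5]), (59,[0,5,0,3]), (101,[4,2,2]), (123,[3,0,2]), (69,[1,5]), (89,[1,4,4]), (103,[1,1,3]), (123,[3,3,5]), (103,[1,4,4]), (128,[2,2,2]), (89,[0,5,0]), (113,[2,2,2]), (124,[1,4,4]), (95,[1,4,4]), (82,[1,1,4,4]), (95,[0,2,2,2]), (82,[0,3,0,2]),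 (26,[0,2,0,0]), (103,[0,0,2,2]), (89,[3,0,2]), (60,[0,0,3,4]), (123,[1,1,3]), (69,[0,3,3,5]), (128,[3,3,5]), (50,[0,0,3,4]), (108,[3,3,5]), (55,[1,4,4]), (26,[1,1,5]), (16,[1,3,1,1]), (133,[1,3,1,1]), (110,[1,1,3]), (116,[2,2,2]), (107,[0,0,5,1]), (89,[1,3,1,1]), (59,[0,3,0,2]), (77,[4,2,2]), (123,[2,2,2]), (89,[1,1,5]), (95,[2,5]), (114,[1,2,4]), (95,[1,2,4]), (103,[0,0,2,0]), (69,[0,0,2,0]), (69,[1,4,4]), (101,[1,2,5]), (16,[0,3,3,5]), (77,[1,5]), (16,[0,4,0]), (128,[1]), (59,[3,3,5]), (124,[1,2,4]), (133,[1,5]), (95,[0,3,3,5]), (116,[1,1,5]), (16,[0,3,0,2]), (95,[1,3,1,1]), (15,[3,3,5]), (95,[0,0,2,2]), (113,[1]), (59,[0,3,3,5]), (55,[1,1,5]), (50,[0,5,0]), (103,[0,5,0]), (103,[3,0,2])]),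
    (10,[]),
    (19,[(21,[4,4,4]), (43,[1,1,4,4]), (37,[0,2,2,2]), (97,[2,5]), (61,[1,2]), (74,[0,0,5]), (36,[0,3,1]), (92,[2,0,4]), (37,[2,5]), (12,[0,0,3]), (47,[0,0,5]), (35,[1,3,1]), (37,[0,0,4]), (128,[0,0,5]), (110,[4,1,1]), (37,[2,0,4]), (74,[2,1,5]), (21,[4,1,1]), (35,[3,5]), (37,[0,4,0]), (128,[0,2,0]), (43,[0,3,0,2]), (36,[0,0,3]), (76,[0,2,0]), (36,[0,0,4]), (123,[0,2,0]), (92,[0,3,0,2]), (37,[0,3,0,2]), (116,[4,4,4]), (113,[4,1,1]), (74,[4,4,4]), (13,[2,4,2]), (47,[4,4,4]), (76,[1,3,5,0]), (113,[0,2,0]), (92,[0,3,3,5]), (21,[0,0,5]), (38,[5,3,4]), (25,[2,1,5]), (35,[0,0,4]), (110,[0,0,5]), (110,[0,0,3]), (97,[0,3,3,5]), (74,[4,1,1]), (97,[1,3,4]), (43,[1,3,4]), (97,[2,0,4]), (92,[0,2,2,2]), (46,[0,2,0,3]), (61,[0,3,5]), (97,[0,4,0]), (92,[1,1,4,4]), (62,[0,0,3]), (25,[1,3,4]),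 (64,[0,2,0]), (123,[4,1,1]), (35,[4,1,1]), (62,[2,0,4]), (113,[0,0,5]), (92,[2,5]), (64,[1,4,0]), (76,[2,1,5]), (128,[4,4,4]), (76,[1,2]), (110,[0,3,5]), (47,[4,1,1]), (36,[0,3,4,1]), (62,[0,0,4]), (80,[1,3,4]), (66,[1,1]), (116,[0,0,3]), (117,[2,1,5]), (92,[0,4,0]), (110,[2,1,5]), (46,[1,3,0]), (116,[0,0,5]), (97,[1,1,4,4]), (97,[2,4,2]), (76,[0,0,3]), (117,[0,0,4]), (12,[1,2]), (64,[1,1]), (76,[1,3,0]), (47,[0,0,3]), (62,[1,1,4,4]), (110,[0,2,0]), (100,[1,3,5,0]), (13,[2,1,5]), (80,[0,3,0,2]), (97,[0,3,0,2]), (74,[0,0,3]), (74,[0,2,0]), (21,[2,1,5]), (135,[2,4,2]), (113,[4,4,4]), (100,[0,0,3]), (113,[2,1,5]), (64,[2,1,5]), (12,[4,4,4]), (135,[0,0,4]), (128,[0,0,3]), (36,[5,3,4]), (135,[1,1,4,4]), (97,[0,2,2,2]), (12,[0,4,0,3]), (36,[1,5,0]), (76,[0,3,5]), (128,[4,1,1]), (66,[2,1,5]), (37,[1,1,4,4]),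 (110,[4,4,4]), (117,[0,2,0]), (100,[0,3,4,1]), (62,[5,3,4]), (46,[0,0,3]), (97,[0,0,4]), (97,[0,5,0,3]), (35,[4,4,4]), (62,[0,5,0,3]), (100,[5,3,4]), (76,[4,4,4]), (123,[4,4,4]), (80,[1,1,4,4]), (117,[1,3,4]), (76,[1,1]), (38,[4,4,4]), (35,[1,3,5,0]), (44,[1,3,5,0]), (113,[0,0,3]), (62,[0,3,4,1]), (128,[2,1,5]), (37,[0,5,0,3])]),
    (19,[(21,[4,4,4]), (43,[1,1,4,4]), (65,[0,4,0]), (21,[2,5,1]), (111,[0,5,0,3]), (21,[1,3,5]), (97,[0,4,0]), (47,[0,3,3]), (4,[2,5]), (74,[1,3,5]), (97,[1,4,0,2]), (97,[2,0,4]), (81,[0,3,5]), (136,[1,4,0,2]), (4,[2,0,4]), (97,[2,5]), (13,[0,3,5]), (74,[4,4,4]), (111,[2,4,2]), (128,[0,2,2,4]), (80,[2,5]), (47,[4,4,4]), (4,[1,3,5,0]), (65,[1,1,4,4]), (65,[2,0,4]), (131,[1,3,0,0]), (47,[1,3,5]), (80,[3,3,4]), (80,[3]), (116,[4,4,4]), (4,[3]), (110,[0,2,2,4]), (88,[3]),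 (65,[2,5]), (123,[1,3,3]), (80,[0,3,1]), (63,[2,5,1]), (131,[1,4,0,2]), (88,[1,3,0,0]), (4,[2,5,1]), (43,[1,4,0,2]), (43,[1,3,5,0]), (97,[0,3,3,5]), (63,[0,2,2,4]), (80,[1,4,0,2]), (21,[0,2,2,4]), (47,[0,2,2,4]), (103,[3,3,5]), (81,[0,2,2,4]), (128,[1,3,5]), (123,[1,3,5]), (123,[0,2,2,4]), (116,[1,3,5]), (110,[4,4,4]), (118,[0,3,1]), (88,[0,3,3,5]), (65,[0,3,3,5]), (135,[1,3,0,0]), (65,[3]), (97,[0,3,1]), (88,[1,4,0,2]), (111,[0,4,0]), (58,[1,2,1]), (128,[1,2]), (88,[2,5]), (128,[4,4,4]), (65,[0,5,0,3]), (47,[2,5,1]), (81,[2,5,1]), (63,[0,0,2,2]), (13,[3,3,4]), (136,[3]), (4,[0,5,0,3]), (135,[1,3,5,0]), (4,[1,3,0,0]), (135,[1,4,0,2]), (81,[4,4,4]), (116,[0,2,2,4]), (111,[3,3,4]), (97,[1,1,4,4]), (131,[4,4,4]), (97,[2,4,2]), (97,[3]), (13,[1,3,5,0]), (136,[1,3,0,0]), (63,[4,4,4]), (97,[1,3,5,0]),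 (136,[0,3,1]), (131,[0,2,2,4]), (111,[1,1,4,4]), (97,[0,3,0,2]), (118,[1,3,5,0]), (131,[0,3,5]), (43,[0,3,1]), (97,[3,3,4]), (111,[2,5]), (65,[0,2,2,2]), (4,[0,3,3,5]), (97,[0,2,2,2]), (120,[2,4,2]), (63,[3]), (135,[2,5,1]), (111,[2,0,4]), (131,[2,5,1]), (116,[1,3,3]), (135,[1,1,4,4]), (111,[0,3,3,5]), (136,[2,5,1]), (81,[1,3,0,0]), (81,[0,3,3]), (88,[0,5,0,3]), (43,[3]), (88,[0,0,2,2]), (80,[1,3,0,0]), (4,[0,4,0]), (111,[3]), (96,[2,4,2]), (74,[0,2,2,4]), (97,[0,5,0,3]), (88,[2,5,1]), (88,[0,3,1]), (4,[1,1,4,4]), (123,[4,4,4]), (80,[1,1,4,4]), (43,[2,5]), (136,[0,3,3,5]), (65,[3,3,4]), (111,[0,3,0,2]), (89,[2,4,2]), (4,[3,3,4]), (65,[1,4,0,2]), (81,[1,4,0,2])]),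
    (19,[(21,[1,3,1,1]), (133,[0,3,3,5]), (97,[2,5]), (13,[0,0,2,0]), (47,[0,0,2,0]), (30,[0,3,3,5]), (97,[0,4,0]), (47,[0,3,3]), (30,[0,2,2,2]), (97,[0,3,0,2]), (101,[0,3,3,5]), (90,[0,2,4]), (21,[0,0,2,0]), (59,[1,2,4]), (13,[0,3,3]), (101,[0,2,2,2]), (26,[0,0,2,0]), (97,[2,0,4]), (13,[0,3,5]), (101,[0,4,0]), (101,[0,3,0,2]), (15,[0,5,0]), (21,[4,4,4]), (43,[0,3,0,2]), (110,[1,3,1,1]), (59,[0,2,2,2]), (101,[2,5]), (108,[1,2]), (110,[4,4,4]), (101,[0,3,5,3]), (47,[4,4,4]), (135,[5,0]), (116,[4,4,4]), (46,[1,2,4]), (74,[4,4,4]), (13,[2,4,2]), (101,[5,0]), (133,[1,3,5,0]), (15,[1,4]), (15,[1,2]), (43,[0,4,0]), (44,[0,3,5]), (43,[1,3,5,0]), (97,[0,3,3,5]), (113,[0,0,2,0]), (69,[0,3,1]), (34,[3,5,5]), (110,[0,0,2,0]), (118,[1,4,1]), (135,[0,3,1]), (43,[0,2,2,2]), (101,[1,3,5,0]), (101,[0,5,0,3]),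 (118,[0,3,1]), (47,[1,2]), (110,[1,2]), (30,[5,0]), (97,[0,3,1]), (13,[1,4]), (90,[1,3,1,1]), (133,[0,3,0,2]), (113,[4,0]), (101,[1,1,4,4]), (116,[0,0,2,0]), (133,[0,2,2,2]), (80,[1,3,5,0]), (135,[1,4,1]), (116,[4,0]), (67,[1,2,4]), (59,[0,5,0,3]), (30,[1,2,4]), (135,[1,3,5,0]), (80,[1,4,1]), (13,[1,3,1,1]), (133,[0,3,1]), (108,[0,3,5]), (97,[1,1,4,4]), (15,[0,2,0,0]), (128,[1,3,1,1]), (43,[5,0]), (13,[1,3,5,0]), (97,[0,2,2,2]), (120,[1,2,4]), (74,[0,0,2,0]), (44,[0,0,2,0]), (97,[1,3,5,0]), (80,[5,0]), (44,[1,2]), (113,[1,2]), (108,[1,3,5,0]), (133,[0,4,0]), (59,[0,3,1]), (26,[0,4,0,3]), (43,[0,3,1]), (44,[0,4,0,3]), (123,[1,3,1,1]), (113,[4,4,4]), (21,[1,2]), (108,[0,4,0,3]), (43,[1,4,1]), (113,[0,3,3]), (133,[2,5]), (30,[0,3,1]), (133,[0,5,0,3]), (113,[1,3,1,1]), (47,[1,3,1,1]), (108,[2,4,2]),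 (59,[1,3,5,0]), (67,[5,0]), (123,[0,0,2,0]), (108,[4,0]), (101,[1,2,4]), (21,[0,3,3]), (43,[0,5,0,3]), (43,[0,3,3,5]), (116,[1,3,1,1]), (135,[0,3,0,2]), (97,[0,5,0,3]), (135,[0,4,0]), (13,[1,2]), (135,[0,3,3,5]), (44,[0,2,0,0]), (123,[4,4,4]), (43,[2,5]), (135,[0,2,2,2]), (135,[2,5]), (43,[4,0]), (44,[1,3,5,0]), (101,[0,3,1]), (135,[0,5,0,3]), (15,[0,3,3]), (133,[1,2,4])]),
    (19,[(21,[1,3,1,1]), (133,[0,3,3,5]), (111,[0,5,0,3]), (21,[1,3,5]), (37,[2,5]), (47,[0,0,5]), (35,[1,3,1]), (4,[2,5]), (128,[0,0,5]), (110,[4,1,1]), (37,[0,4,0]), (65,[2,5]), (38,[1,3,3]), (4,[2,0,4]), (128,[0,2,0]), (92,[2,0,4]), (97,[2,5]), (128,[0,2,2,4]), (101,[0,4,0]), (110,[1,3,1,1]), (65,[1,1,4,4]), (123,[0,2,0]), (92,[0,3,0,2]), (37,[0,3,0,2]), (116,[4,4,4]), (113,[4,1,1]), (110,[0,2,2,4]), (21,[4,1,1]), (101,[0,2,2,2]),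 (35,[1,3,1,1]), (92,[0,3,3,5]), (21,[0,0,5]), (38,[5,3,4]), (47,[0,0,2,0]), (47,[1,3,5]), (88,[0,0,3]), (110,[0,0,5]), (110,[0,0,3]), (97,[0,3,3,5]), (74,[0,0,5]), (128,[1,3,5]), (101,[0,3,3,5]), (123,[0,2,2,4]), (116,[1,3,5]), (21,[4,4,4]), (97,[0,4,0]), (92,[1,1,4,4]), (97,[2,0,4]), (62,[0,0,3]), (65,[0,3,3,5]), (101,[0,3,0,2]), (123,[4,1,1]), (35,[4,1,1]), (62,[2,0,4]), (113,[0,0,5]), (133,[0,3,0,2]), (88,[2,5]), (101,[1,1,4,4]), (111,[0,4,0]), (21,[0,0,2,0]), (133,[0,2,2,2]), (37,[0,2,2,2]), (74,[4,1,1]), (92,[2,5]), (110,[0,0,2,0]), (116,[0,0,3]), (113,[0,0,2,0]), (92,[0,4,0]), (133,[1,3,1]), (116,[0,2,2,4]), (116,[0,0,5]), (97,[1,1,4,4]), (37,[2,0,4]), (128,[1,3,1,1]), (97,[3]), (133,[3,3,4]), (74,[4,4,4]), (65,[0,4,0]), (74,[0,0,2,0]), (63,[4,4,4]), (47,[0,0,3]), (62,[1,1,4,4]), (110,[0,2,0]),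 (111,[1,1,4,4]), (47,[0,2,2,4]), (97,[0,3,0,2]), (74,[0,0,3]), (74,[0,2,0]), (97,[3,3,4]), (111,[2,5]), (65,[0,2,2,2]), (100,[0,0,3]), (133,[3]), (111,[2,0,4]), (21,[0,2,2,4]), (128,[0,0,3]), (133,[0,5,0,3]), (113,[1,3,1,1]), (111,[0,3,3,5]), (101,[2,5]), (92,[0,2,2,2]), (128,[4,1,1]), (123,[0,0,2,0]), (37,[1,1,4,4]), (47,[4,1,1]), (110,[4,4,4]), (117,[0,2,0]), (97,[0,2,2,2]), (4,[0,4,0]), (62,[5,3,4]), (116,[1,3,1,1]), (74,[0,2,2,4]), (97,[0,5,0,3]), (35,[4,4,4]), (62,[0,5,0,3]), (100,[5,3,4]), (65,[2,0,4]), (123,[4,4,4]), (4,[0,2,0]), (47,[4,4,4]), (74,[1,3,5]), (38,[4,4,4]), (65,[3,3,4]), (111,[0,3,0,2]), (113,[0,0,3]), (4,[3,3,4]), (128,[2,1,5]), (37,[0,5,0,3])]),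
    (10,[]),
    (19,[(110,[2,2,2]), (77,[0,2,2,2]), (24,[2,0,4]), (74,[2,0,2,5]), (47,[0,5,3]), (86,[3,3,0]), (3,[2,0,2,5]), (84,[0,2,2,2]), (99,[1,1,4,4]), (79,[0,4,0]), (47,[3,4]), (86,[0,0,2,2]), (79,[2,0,4]), (113,[3,0,4]), (74,[2,2,2]), (3,[1,3,1,1]), (123,[3,4]), (77,[0,3,0,2]), (47,[2,2,2]), (139,[2,5]), (21,[0,5,3]), (128,[5,0,4]), (128,[2,4,1]), (3,[2,1]), (84,[2,0,4]), (84,[0,4,0]), (77,[0,5,0,3]), (74,[0,5,3]), (123,[5,0,4]), (79,[0,3,3,5]), (113,[3,0,2]), (74,[2]), (99,[2,0,4]), (21,[3,0,4]), (21,[2,2,2]), (95,[1,5]), (116,[3,0,4]), (84,[0,3,0,2]), (21,[3,4]), (103,[3,3,5]), (123,[0,5,3]), (123,[2,0,2,5]), (82,[0,5,0,3]), (128,[3,4]), (82,[0,3,3,5]), (74,[2,4,1]), (95,[2,4,0]), (110,[2]), (113,[0,5,3]), (128,[3,0,2]), (24,[2,5]), (107,[0,0,2,2]), (24,[1,1,4,4]), (82,[2,5]), (52,[0,3,3,5]),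 (52,[2,5]), (84,[1,1,4,4]), (82,[0,4,0]), (47,[3,0,2]), (53,[1,4,4]), (82,[2,0,4]), (116,[3,0,2]), (24,[0,4,0]), (77,[0,3,3,5]), (74,[3,0,4]), (84,[2,5]), (139,[1,1,4,4]), (52,[0,2,2,2]), (24,[0,3,0,2]), (107,[2]), (123,[3,0,2]), (47,[3,0,4]), (74,[3,4]), (72,[1,3,1,1]), (110,[5,0,4]), (79,[0,5,0,3]), (128,[2,2,2]), (113,[5,0,4]), (82,[1,1,4,4]), (139,[2,0,4]), (52,[2,0,4]), (52,[0,4,0]), (139,[0,3,3,5]), (128,[2,0,2,5]), (113,[3,4]), (110,[3,0,4]), (18,[2,1]), (116,[0,5,3]), (74,[5,0,4]), (139,[0,3,0,2]), (3,[0,0,2,2]), (103,[4,1]), (103,[1,5]), (74,[3,0,2]), (24,[0,5,0,3]), (84,[0,3,3,5]), (82,[0,2,2,2]), (123,[2,2,2]), (82,[0,3,0,2]), (128,[0,5,3]), (24,[0,2,2,2]), (52,[0,3,0,2]), (110,[3,0,2]), (110,[2,4,1]), (133,[2]), (139,[0,2,2,2]), (47,[2]), (113,[2,0,2,5]), (103,[2]), (77,[1,5]),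 (113,[2,2,2]), (116,[3,4]), (11,[0,0,2,2]), (59,[3,3,5]), (79,[2,5]), (107,[3,3,0]), (139,[0,4,0]), (85,[2]), (16,[0,3,0,2]), (82,[2,0,2]), (116,[2,0,2,5]), (72,[1,1,4,4]), (18,[0,0,2,2]), (79,[0,3,0,2]), (89,[2]), (47,[5,0,4]), (47,[2,4,1])]),
    (19,[(121,[0,2,2,2]), (113,[0,4,2,5]), (21,[4]), (6,[2,5]), (142,[2,0,4]), (33,[0,4,0]), (86,[1,1,4,4]), (116,[0,4,2,5]), (123,[3,3,0]), (128,[5,5]), (21,[0,4,2]), (5,[2,0,4]), (101,[0,4,0]), (5,[0,4,0]), (74,[5]), (29,[2,0,4]), (47,[3,3,0,5]), (21,[4,4]), (48,[0,4,0]), (86,[0,3,3,5]), (4,[4]), (86,[0,2,2,2]), (21,[5]), (113,[3,3,0]), (110,[3,3,0,5]), (47,[0,0,2,0]), (47,[4]), (33,[2,5]), (47,[5]), (113,[5,5]), (33,[1,1,4,4]), (21,[5,5]), (91,[2]), (110,[3,3,0]), (121,[1,1,4,4]), (101,[0,3,3,5]), (121,[0,3,3,5]), (101,[0,5,0,3]), (21,[4,4,4]),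 (97,[0,4,0]), (74,[3,3,0]), (97,[2,0,4]), (116,[0,4,2]), (101,[0,3,0,2]), (86,[0,3,0,2]), (47,[3,3,0]), (86,[0,5,0,3]), (29,[0,5,0,3]), (47,[0,4,2]), (6,[2,0,4]), (101,[1,1,4,4]), (116,[0,0,2,0]), (21,[0,0,2,0]), (21,[0,4,2,5]), (123,[5,5]), (33,[0,2,2,2]), (123,[5]), (142,[1,1,4,4]), (123,[3]), (4,[4,4]), (5,[2,5]), (74,[5,5]), (113,[0,0,2,0]), (33,[2,4]), (116,[3,3,0,5]), (5,[0,5,0,3]), (33,[0,3,0,2]), (97,[1,1,4,4]), (128,[3,3,0,5]), (128,[1,3,1,1]), (29,[2,5]), (47,[4,4]), (74,[4,4,4]), (123,[0,4,2,5]), (74,[0,0,2,0]), (29,[0,2,2,2]), (33,[0,3,3,5]), (29,[0,3,3,5]), (128,[0,4,2]), (6,[0,4,0]), (133,[0,4,0]), (97,[0,3,0,2]), (29,[0,4,0]), (78,[4,1,5]), (116,[3,3,0]), (123,[1,3,1,1]), (113,[4,4,4]), (48,[2,0,4]), (86,[2,5]), (4,[3,3,0]), (128,[4]), (133,[2,5]), (47,[5,5]), (113,[5]), (6,[0,5,0,3]),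 (47,[1,3,1,1]), (101,[2,5]), (21,[3,3,0]), (3,[0,5,0,3]), (33,[2,0,4]), (121,[0,3,0,2]), (74,[4,4]), (133,[2]), (110,[4,4,4]), (74,[4]), (97,[0,2,2,2]), (110,[5]), (6,[0,3,0,2]), (5,[1,1,4,4]), (47,[0,4,2,5]), (48,[0,2,2,2]), (86,[2,0,4]), (116,[5]), (74,[0,4,2,5]), (48,[2,5]), (48,[0,5,0,3]), (47,[4,4,4]), (121,[2,0,4]), (5,[0,2,2,2]), (5,[0,3,0,2]), (74,[3]), (110,[5,5]), (6,[1,1,4,4]), (110,[4,4])]),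
    (19,[(31,[0,4,0]), (21,[0,4]), (74,[5,1]), (21,[1,3,5]), (21,[5,1]), (10,[0,4,0]), (104,[2,5]), (93,[0,2,2,2]), (53,[0,2,2,2]), (74,[4,1,2]), (21,[0,0,2,5]), (97,[2,5]), (10,[0,3,3,5]), (21,[1,3,4,1]), (10,[0,2,2,2]), (65,[1,1,4,4]), (110,[4,1,2]), (113,[0,5,5]), (110,[3,0,5]), (31,[0,3,3,5]), (93,[0,3,0,2]), (110,[0,2,2,4]), (53,[1,1,4,4]), (110,[1,2,1,1]), (85,[2,0,4]), (128,[0,5,5]), (21,[3,0,5]), (31,[2,5]), (104,[0,2,2,2]), (47,[0,0,2,5]), (97,[0,3,3,5]), (74,[0,0,2,5]), (85,[0,5,0,3]), (21,[0,5,5]), (4,[4,1,5]), (128,[4,1,2]), (128,[1,3,5]), (123,[1,3,5]), (31,[2,0,4]), (116,[1,3,5]), (21,[4,4,4]), (97,[0,4,0]), (123,[4,1,2]), (97,[2,0,4]), (116,[1,3,4,1]), (65,[0,3,3,5]), (110,[5,1]), (104,[2,0,4]), (53,[2,5]), (104,[0,3,0,2]), (113,[1,3,4,1]), (113,[1,2,1,1]), (128,[4,4,4]), (111,[0,4,0]),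 (65,[0,5,0,3]), (113,[0,4]), (110,[0,0,2,5]), (53,[2,0,4]), (65,[2,5]), (104,[0,4,0]), (93,[1]), (130,[0,2,2,2]), (85,[0,3,0,2]), (10,[0,3,0,2]), (2,[5,0]), (74,[0,5,5]), (116,[0,2,2,4]), (104,[1,1,4,4]), (97,[1,1,4,4]), (123,[0,5,5]), (2,[0,2,2,2]), (93,[2,0,4]), (85,[0,3,3,5]), (74,[4,4,4]), (65,[0,4,0]), (134,[1]), (74,[3,0,5]), (53,[0,4,0]), (116,[4,1,2]), (111,[1,1,4,4]), (47,[1,3,5]), (47,[0,2,2,4]), (97,[0,3,0,2]), (104,[0,5,0,3]), (71,[2,5,1]), (111,[2,5]), (65,[0,2,2,2]), (31,[0,2,2,2]), (47,[0,5,5]), (111,[1]), (10,[2,5]), (121,[0,4,2,5]), (47,[5,1]), (21,[0,2,2,4]), (116,[1,2,1,1]), (130,[0,3,0,2]), (111,[0,3,3,5]), (116,[5,1]), (113,[4,1,2]), (93,[0,3,3,5]), (134,[0,3,3,5]), (47,[3,0,5]), (30,[0,0,2,5]), (110,[4,4,4]), (113,[5,1]), (97,[0,2,2,2]), (128,[1,2,1,1]), (130,[0,5,0,3]),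 (74,[0,2,2,4]), (47,[0,4]), (128,[5,1]), (85,[0,2,2,2]), (65,[2,0,4]), (10,[0,5,0,3]), (121,[5]), (47,[4,4,4]), (74,[1,3,5]), (128,[1,3,4,1]), (128,[0,4]), (111,[0,3,0,2]), (123,[0,0,2,5]), (110,[0,4]), (93,[2,5]), (128,[3,0,5])]),
    (19,[(24,[2,5]), (128,[0,0,5,1]), (47,[1,3,5]), (120,[3,3,4]), (24,[2,0,4]), (21,[1,3,5]), (24,[0,4,0]), (59,[3,5,5]), (107,[0,4,0,3]), (21,[3,4]), (89,[3,3,5]), (59,[1,2,4]), (74,[1,3,5]), (136,[1,4,0,2]), (4,[2,0,4]), (59,[4,4,2]), (65,[2,5]), (63,[0,0,5,1]), (97,[2,5]), (123,[3,4]), (97,[3,3,5]), (123,[0,0,5,1]), (118,[0,3,3,5]), (88,[3,3,5]), (3,[2]), (59,[2]), (116,[4,4,4]), (4,[3]), (107,[0,2,2,4]), (89,[3]), (120,[3,3,5]), (96,[3,3,4]), (59,[2,0,2,5]), (128,[1,2,4]), (65,[0,4,0]), (4,[2,5,1]), (59,[0,0,5,1]), (59,[3,4]), (97,[0,3,3,5]), (47,[3,4]), (111,[0,0,2,2]),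 (90,[3,3,5]), (103,[3,3,5]), (65,[3,3,5]), (116,[0,4,0,3]), (74,[0,4,0,3]), (21,[3,5,5]), (116,[1,3,5]), (74,[4,4,2]), (90,[2,0,4]), (4,[3,3,5]), (90,[0,4,0]), (118,[3,3,5]), (96,[2,5]), (89,[2,0,4]), (65,[3]), (46,[4,4,2]), (88,[1,4,0,2]), (65,[2,0,4]), (131,[1,2,4]), (89,[1,1,4,4]), (4,[0,0,5,1]), (47,[4,4,2]), (111,[0,4,0]), (47,[2,5,1]), (89,[0,0,2,2]), (24,[3,3,5]), (120,[3]), (65,[0,0,2,2]), (123,[1,2,4]), (41,[0,0,2,2]), (74,[1,2,4]), (111,[3,3,5]), (81,[4,4,4]), (74,[3,4]), (111,[3,3,4]), (90,[2,5]), (59,[0,3,5,3]), (89,[2,5]), (97,[3]), (107,[1,2,4]), (21,[4,4,2]), (89,[0,4,0]), (63,[4,4,4]), (103,[0,0,2,2]), (46,[2]), (139,[3,3,5]), (118,[2,5]), (107,[4,4,2]), (81,[0,0,5,1]), (136,[3,3,5]), (97,[3,3,4]), (111,[2,5]), (4,[0,3,3,5]), (107,[0,0,5,1]), (59,[1,3,5]), (47,[1,2,4]), (111,[2,0,4]),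 (59,[1,3,0,0]), (90,[3]), (74,[0,0,5,1]), (97,[0,0,2,2]), (3,[1,3,3]), (120,[0,0,2,2]), (107,[4,4,4]), (107,[0,3,5,3]), (107,[1,3,5]), (47,[2]), (59,[0,4,0,3]), (111,[3]), (116,[0,0,5,1]), (74,[0,2,2,4]), (120,[0,4,0]), (59,[3,3,5]), (63,[0,3,3]), (4,[1,1,4,4]), (116,[4,4,2]), (89,[0,3,3,5]), (131,[2]), (47,[4,4,4]), (96,[3,3,5]), (65,[3,3,4]), (90,[0,0,2,2]), (4,[1,2,4]), (107,[2,0,2,5]), (118,[3])]),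
    (19,[(110,[2,2,2]), (77,[0,2,2,2]), (46,[2,5]), (110,[0,3,3]), (47,[0,3,5]), (67,[0,5,0,3]), (47,[0,3,3]), (21,[2,1,4]), (47,[2,1,4]), (16,[0,5,3,4]), (77,[2,5]), (89,[3,3,5]), (44,[2,2,2]), (46,[0,4,0]), (13,[0,3,3]), (21,[0,3,5]), (77,[0,3,1,2]), (97,[0,3,1,2]), (47,[1,1,5]), (21,[1,1,5]), (96,[1,3,5,0]), (67,[1,2]), (80,[2,5]), (75,[2,5]), (90,[1,2]), (135,[0,3,1,2]), (89,[1,3,5,0]), (15,[1,3,5,0]), (110,[1,1,5]), (44,[3,0,2]), (44,[1,1,5]), (57,[0,4,0]), (50,[3,0,2]), (101,[0,2,2,2]), (133,[1,3,5,0]), (57,[2,5]), (89,[1,1,3]), (15,[1,2]), (47,[0,0,2,0]), (116,[0,3,3]), (46,[0,3,1,2]), (44,[0,3,3]), (46,[0,2,2,2]), (50,[2,1,4]), (90,[3,3,5]), (77,[0,4,0]), (103,[3,3,5]), (57,[0,3,1,2]), (114,[0,3,3,5]), (80,[0,2,2,2]), (101,[1,3,5,0]), (57,[0,2,2,2]), (47,[2,4,2]), (96,[0,3,1,2]),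 (47,[1,2]), (44,[1,3,1,1]), (50,[2,2,2]), (44,[2,4,2]), (55,[1,3,1,1]), (96,[1,4,1]), (124,[0,5,3,4]), (113,[0,3,5]), (21,[3,0,2]), (77,[0,3,3,5]), (80,[1,3,5,0]), (114,[0,3,1,2]), (13,[2,2,2]), (135,[1,5]), (96,[0,2,2,2]), (55,[2,1,4]), (135,[1,3,5,0]), (47,[3,0,2]), (82,[0,3,1,2]), (13,[1,3,1,1]), (82,[1,3,5,0]), (101,[0,3,1,2]), (55,[0,3,3]), (55,[1,3,5,0]), (13,[1,3,5,0]), (75,[0,3,1,2]), (44,[0,0,2,0]), (44,[4,4,4]), (50,[0,0,2,0]), (44,[1,2]), (113,[1,2]), (114,[0,5,0,3]), (44,[2,1,4]), (96,[1,5]), (80,[0,3,1,2]), (103,[1,3,5,0]), (21,[2,2,2]), (114,[0,4,0]), (90,[1,3,5,0]), (67,[0,3,1,2]), (113,[0,3,3]), (101,[1,5]), (82,[0,2,2,2]), (116,[2,1,4]), (110,[2,1,4]), (80,[0,4,0]), (77,[1,3,5,0]), (114,[0,3,3]), (114,[0,5,3,4]), (55,[1,2]), (103,[0,0,2,0]), (110,[4,4,4]), (114,[2,5]), (97,[0,2,2,2]),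 (114,[1,4,1]), (114,[0,2,2,2]), (67,[0,3,3]), (75,[0,2,2,2]), (114,[0,3,0,2]), (13,[1,2]), (67,[0,2,2,2]), (96,[0,5,0,3]), (110,[2,4,2]), (116,[1,2]), (67,[0,3,3,5]), (123,[1,2]), (133,[0,3,1,2]), (44,[1,3,5,0]), (57,[1,3,5,0]), (67,[1,4,1]), (103,[0,5,0]), (103,[3,0,2])]),
    (19,[(56,[0,5,0,3]), (133,[0,3,3,5]), (21,[0,4,0,2]), (56,[0,4,0]), (74,[0,4,0,2]), (56,[2,0,4]), (68,[1,1,4,4]), (110,[4,1,1]), (119,[0,3,0,2]), (9,[2,5]), (92,[2,0,4]), (97,[2,5]), (119,[1,1,4,4]), (101,[0,4,0]), (56,[0,3,0,2]), (65,[1,1,4,4]), (110,[0,3]), (37,[0,3,0,2]), (98,[2,5]), (18,[0,2,2,2]), (110,[0,2,2,4]), (21,[4,1,1]), (101,[0,2,2,2]), (21,[2,1]), (47,[0,3]), (18,[2,0,4]), (47,[0,0,2,0]), (98,[0,2,2,2]), (110,[0,0,5]), (74,[1,4,2]), (21,[1,1,4]), (37,[2,5]), (9,[2,0,4]), (37,[0,4,0]), (128,[1,3,5]), (101,[0,3,3,5]),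 (119,[0,5,0,3]), (116,[1,3,5]), (21,[4,4,4]), (97,[0,4,0]), (74,[2,1]), (97,[2,0,4]), (74,[5,0,0]), (21,[5,0,0]), (101,[0,3,0,2]), (68,[0,4,0]), (47,[2,1]), (9,[0,2,2,2]), (68,[0,2,2,2]), (110,[5,0,0]), (101,[1,1,4,4]), (111,[0,4,0]), (21,[0,0,2,0]), (133,[0,2,2,2]), (37,[0,2,2,2]), (47,[0,0,5]), (65,[2,5]), (68,[2,0,4]), (92,[2,5]), (110,[0,0,2,0]), (56,[0,2,2,2]), (92,[0,4,0]), (21,[0,3]), (116,[0,2,2,4]), (68,[2,5]), (97,[1,1,4,4]), (37,[2,0,4]), (128,[1,3,1,1]), (18,[0,4,0]), (21,[1,1,5,5]), (74,[4,4,4]), (65,[0,4,0]), (74,[0,0,2,0]), (116,[1,1,5,5]), (116,[1,4,2]), (110,[1,1,5,5]), (128,[2,1]), (111,[1,1,4,4]), (56,[2,5]), (47,[0,2,2,4]), (97,[0,3,0,2]), (9,[0,4,0]), (110,[2,1]), (18,[2,5]), (111,[2,5]), (65,[0,2,2,2]), (116,[0,3]), (21,[0,0,5]), (111,[2,0,4]), (21,[0,2,2,4]), (113,[1,4,2]),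 (47,[1,1,4]), (113,[1,3,1,1]), (111,[0,3,3,5]), (101,[2,5]), (92,[0,2,2,2]), (9,[1,1,4,4]), (119,[2,5]), (37,[1,1,4,4]), (47,[4,1,1]), (110,[4,4,4]), (97,[0,2,2,2]), (56,[1,1,4,4]), (123,[1,1,4]), (119,[0,4,0]), (74,[0,2,2,4]), (97,[0,5,0,3]), (56,[0,3,3,5]), (110,[1,1,4]), (65,[2,0,4]), (98,[0,4,0]), (113,[5,0,0]), (47,[4,4,4]), (74,[1,3,5]), (47,[5,0,0]), (123,[2,2,2,4]), (111,[0,3,0,2]), (68,[0,3,3,5]), (74,[0,3]), (37,[0,5,0,3])]),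
    (19,[(110,[2,2,2]), (77,[0,2,2,2]), (21,[4]), (6,[2,5]), (33,[0,4,0]), (119,[0,3,0,2]), (9,[2,5]), (46,[0,4,0]), (80,[2,5]), (14,[2,5]), (45,[2,5]), (21,[4,4]), (48,[0,4,0]), (18,[0,2,2,2]), (21,[1,3]), (21,[4,1,1]), (21,[5]), (21,[2,1]), (47,[0,3]), (47,[0,0,2,0]), (47,[4]), (33,[2,5]), (47,[5]), (37,[2,5]), (37,[0,4,0]), (47,[0,2,2]), (47,[1,3]), (57,[0,2,2,2]), (47,[2,4,2]), (46,[2,5]), (21,[5,0,0]), (57,[0,4,0]), (64,[2,5]), (47,[2,1]), (9,[0,2,2,2]), (21,[0,0,4]), (47,[0,4,2]), (102,[2,5]), (21,[3,0,2]), (77,[0,3,3,5]), (37,[0,2,2,2]), (47,[0,0,5]), (65,[2,5]), (12,[0,4,0]), (5,[2,5]), (47,[3,0,2]), (12,[2,5]), (21,[0,3]), (113,[1,3]), (64,[0,4,0]), (29,[2,5]), (47,[4,4]), (65,[0,4,0]), (29,[0,2,2,2]), (7,[0,2,2,2]), (29,[0,3,3,5]), (6,[0,4,0]), (77,[2,5]), (75,[2,5]), (21,[5,5]),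 (21,[0,3,4]), (18,[2,5]), (21,[2,2,2]), (47,[1,1,5]), (86,[2,5]), (21,[0,0,5]), (77,[0,4,0]), (7,[2,5]), (47,[2,0]), (116,[2,1,4]), (110,[2,1,4]), (80,[0,4,0]), (21,[3,3,0]), (21,[0,3,5]), (47,[4,1,1]), (87,[2,5]), (21,[0,2,2]), (39,[2,5]), (47,[2,1,4]), (75,[0,2,2,2]), (21,[0,0,2,1]), (110,[1,1,4]), (48,[2,5]), (47,[3,3,1]), (21,[1,1,5]), (21,[3,3,1]), (39,[0,4,0]), (17,[2,5]), (36,[0,2,2,2]), (110,[4,4])]),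
    (19,[(31,[0,4,0]), (21,[0,4]), (24,[2,0,4]), (56,[0,4,0]), (21,[5,1]), (10,[0,4,0]), (47,[5,3]), (9,[2,5]), (19,[0,4,0]), (74,[1,1,3]), (16,[2,5]), (55,[2,0,4]), (21,[4,0]), (98,[2,5]), (23,[2,5]), (21,[2,1]), (21,[2,2]), (21,[2,4]), (31,[2,5]), (32,[2,5]), (21,[1,1,4]), (37,[2,5]), (21,[5,3]), (37,[0,4,0]), (116,[0,4,0,3]), (26,[2,5]), (31,[2,0,4]), (26,[0,4,0]), (74,[4,4,2]), (74,[0,5,0]), (19,[2,5]), (47,[1,4,1]), (67,[0,4,0]), (47,[1,1,3]), (68,[0,4,0]), (47,[2,1]), (55,[2,5]), (47,[1,4,4]), (24,[0,4,0]), (23,[0,4,0]), (65,[2,5]), (21,[0,2]), (74,[0,2]), (19,[2,0,4]), (21,[0,3]), (74,[3,4]), (68,[2,5]), (90,[2,5]), (20,[0,4,0]), (50,[0,4,0]), (18,[0,4,0]), (74,[2,4]), (55,[0,4,0]), (65,[0,4,0]), (50,[2,5]), (74,[3,0,5]), (53,[0,4,0]), (32,[0,4,0]), (118,[2,5]), (56,[2,5]), (21,[3,4]),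 (9,[0,4,0]), (18,[2,5]), (111,[2,5]), (47,[0,5,5]), (21,[0,0,5]), (47,[5,1]), (47,[3,4]), (47,[1,1,4]), (21,[1,5]), (101,[2,5]), (8,[2,5]), (21,[1,4,4]), (20,[2,5]), (61,[0,4,0]), (10,[2,5]), (16,[0,5,0,3]), (16,[2,0,4]), (16,[0,4,0]), (47,[0,4]), (69,[2,5]), (21,[1,2,5]), (67,[2,0,4]), (69,[2,0,4]), (74,[1,3,5]), (21,[1,1,3]), (106,[0,3,3,5]), (54,[2,5]), (74,[0,3]), (109,[0,4,0])]),
    (19,[])]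
def js34c11 : List (ℕ × List (ℕ × List ℕ)) := [
    (11,[]),
    (19,[(97,[5,0,4]), (24,[1,3,0,5]), (52,[4,4,4]), (13,[2,0,2,5]), (13,[3,0,2]), (77,[4,4,4]), (46,[2,4,1]), (13,[3,0,4]), (97,[2,4,1]), (99,[3,0]), (79,[4,4,4]), (34,[2,0,2,5]), (82,[4,4,4]), (13,[2,1,4]), (84,[4,4,4]), (13,[0,3,3]), (34,[0,5,3]), (13,[0,3,5]), (24,[4,4,4]), (90,[5,0,4]), (97,[3,4]), (132,[4,4,2]), (13,[3,4]), (97,[0,5,3]), (97,[2,2,2]), (43,[2,4,2]), (90,[1,2]), (13,[0,0,2]), (75,[2,4,1]), (75,[5,0,4]), (97,[1,2]), (44,[3,0,2]), (99,[4,4,4]), (126,[0,3,3]), (75,[1,1,3,3]), (13,[3,5,5]), (43,[1,3,0,5]), (44,[0,0,2]), (90,[2,4,1]), (13,[2,4,1]), (44,[0,3,5]), (44,[0,3,3]), (97,[3,0,4]), (22,[1,3,5,0]), (34,[3,4]), (90,[0,5,3]), (115,[2,4,2]), (135,[0,3,1]), (97,[2,0,2,5]), (135,[0,3,5,3]), (46,[1,1,3,3]), (46,[0,5,3]),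 (46,[0,0,2]), (139,[3,0]), (97,[0,3,3]), (44,[0,5,3]), (34,[2,2,2]), (75,[1,2]), (126,[0,0,2]), (34,[1,2]), (34,[2,1,4]), (75,[0,3,3]), (13,[0,5,3]), (97,[3,0,2]), (43,[1,1,5]), (22,[1,1,5]), (75,[0,0,2]), (75,[0,5,3]), (126,[1,2]), (13,[2,2,2]), (126,[2,0,2,5]), (139,[4,4,2]), (34,[3,0,4]), (135,[1,1,5]), (135,[1,3,5,0]), (132,[1,1,5]), (84,[0,3,1]), (139,[2,4,2]), (75,[3,0,4]), (126,[1,1,3,3]), (97,[0,3,5]), (90,[3,0,4]), (46,[2,0,2,5]), (90,[0,3,5]), (90,[3,0,2]), (34,[0,3,3]), (44,[1,2]), (90,[0,0,2]), (46,[5,0,4]), (46,[1,2]), (90,[2,2,2]), (76,[1,1,5]), (43,[0,3,1]), (75,[2,0,2,5]), (135,[2,4,2]), (34,[2,4,1]), (52,[1,3,0,5]), (46,[2,2,2]), (90,[1,1,3,3]), (46,[0,3,3]), (34,[0,0,2]), (44,[2,0,2,5]), (22,[2,4,2]), (132,[2,4,2]), (46,[3,5,5]), (46,[3,0,4]), (90,[2,0,2,5]), (24,[0,3,5,3]),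 (99,[4,4,2]), (97,[3,5,5]), (24,[0,3,1]), (97,[0,0,2]), (44,[2,4,1]), (13,[5,0,4]), (139,[4,4,4]), (44,[5,0,4]), (83,[5,0]), (96,[0,3,5]), (96,[2,4,2]), (22,[4,4,2]), (30,[2,1,5]), (97,[2,1,4]), (13,[1,2]), (99,[1,3,5,0]), (90,[0,3,3]), (46,[0,3,5]), (34,[5,0,4]), (43,[0,3,5,3]), (30,[0,3,1,3]), (115,[1,3,0,5]), (46,[3,4]), (44,[3,0,4]), (22,[1,3,0,5]), (135,[3,0])]),
    (11,[]),
    (19,[(99,[2,0,4]), (74,[2,4,1]), (32,[2,4,0]), (24,[2,0,4]), (3,[5,0,4]), (74,[2,0,2,5]), (3,[3,4]), (3,[2,0,2,5]), (52,[2,4,0]), (99,[1,1,4,4]), (52,[2,0,4]), (3,[3,0,3]), (3,[3,0,4]), (79,[2,0,4]), (84,[2,0,4]), (23,[2,4,0]), (74,[2,2,2]), (3,[1,3,1,1]), (84,[1,1,4,4]), (54,[3,0,3]), (3,[0,5,3]), (74,[3,4]), (78,[2,0,2]), (52,[1,1,4,4]), (11,[1,5,3]), (8,[0,2]), (128,[5,0,4]), (128,[2,4,1]), (74,[0,5,3]),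 (27,[4,1]), (83,[2]), (133,[3,0,3]), (74,[5,0,4]), (27,[4,1,5]), (74,[3,0,2]), (78,[0,0,2,0]), (74,[3,0,4]), (94,[1,3,0]), (11,[2,0,2,5]), (74,[2]), (23,[3,0,3]), (82,[2,0,4]), (32,[1,1,5]), (27,[0,0,2,0]), (139,[4,1]), (27,[2,4,0]), (128,[0,5]), (24,[1,1,4,4]), (49,[3,0,3]), (3,[5,3]), (128,[3,4]), (79,[1,1,4,4]), (54,[4,0,5]), (101,[2,0,2]), (83,[1,3,1,1]), (83,[2,0,2,5]), (128,[3,0,2]), (11,[3,0,3]), (79,[1,3,0]), (3,[1,5,3]), (72,[0,0,2,0]), (27,[1,1,4,4]), (72,[4,1]), (139,[1,3,0]), (57,[0,5]), (57,[3,0,3]), (78,[2,4,0]), (133,[1,5,3]), (139,[1,1,4,4]), (3,[2,4,1]), (79,[4,1]), (139,[2,0,2]), (61,[1,3,0]), (3,[0,5]), (83,[4,0,5]), (72,[1,3,1,1]), (133,[0,5]), (128,[2,2,2]), (83,[3,4]), (82,[1,1,4,4]), (139,[2,0,4]), (74,[3,0,3]), (32,[1,5,3]), (78,[1,3,0]), (128,[2,0,2,5]), (23,[1,5,3]),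 (3,[1,1,5]), (78,[4,1,5]), (27,[2]), (80,[4,0,5]), (82,[4,1]), (133,[1,3,1,1]), (23,[2,0,2,5]), (11,[2,4,0]), (72,[2,0,2]), (32,[3,0,3]), (78,[1,1,4,4]), (139,[2,4,0]), (91,[0,5]), (57,[1,5,3]), (84,[4,1]), (128,[0,5,3]), (83,[5,0,4]), (83,[2,4,1]), (99,[4,1]), (83,[0,5,3]), (83,[3,0,4]), (11,[3,0,4]), (61,[4,1,5]), (133,[2]), (77,[2,4,0]), (3,[2,4,0]), (32,[1,3,1,1]), (83,[2,4,0]), (94,[2,0,2]), (11,[0,5]), (79,[2,0,2]), (61,[2,4,0]), (11,[1,3,1,1]), (128,[2]), (8,[1,1,2]), (99,[2,0,2]), (83,[3,0,3]), (133,[2,4,0]), (74,[0,4,4]), (82,[2,0,2]), (78,[4,1]), (72,[1,1,4,4]), (72,[2]), (128,[3,0,4]), (84,[2,0,2]), (23,[0,5]), (128,[3,0,3])]),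
    (11,[]),
    (19,[(110,[2,2,2]), (77,[0,2,2,2]), (52,[0,2,2,2]), (64,[0,5,3]), (84,[0,2,2,2]), (110,[0,5,3]), (7,[0,5]), (24,[0,3,0,2]), (52,[0,3,0,2]), (65,[0,2,2,5]), (24,[0,2,2,2]), (111,[1,3,4]), (82,[0,2,2,2]), (105,[3,0,4]), (64,[0,2,2,5]), (105,[3,0,2]), (113,[3,0,4]), (79,[0,2,2,2]), (78,[1,3,5]), (79,[0,3,0,2]), (140,[2,4,0]), (77,[0,3,0,2]), (15,[0,0,3,4]), (110,[5,0,4]), (11,[1,5,3]), (105,[2,4,0]), (78,[1,3,4]), (78,[2,2,2]), (99,[0,3,0,2]), (27,[4,1]), (99,[0,2,2,2]), (94,[1,3,4]), (7,[0,5,3]), (11,[0,3,0,2]), (110,[2,4,1]), (1,[0,3,1,3]), (110,[4,1,5]), (110,[2,4,0]), (113,[3,0,2]), (64,[0,0,3,4]), (2,[0,5,3]), (111,[0,2,2,5]), (110,[3,0,4]), (1,[4,0,5]), (115,[0,3,0,2]), (84,[0,3,0,2]), (1,[0,5]), (7,[4,1,5]), (82,[0,3,0,2]), (78,[0,2,0,0]), (71,[1,1]), (78,[2,4,1]), (113,[0,5,3]),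 (71,[0,3,4]), (24,[0,3,1,3]), (115,[0,5]), (7,[1,3,5]), (94,[0,2,2,5]), (105,[2,4,1]), (105,[5,0,4]), (11,[0]), (113,[1,3,4]), (108,[0,0,4]), (64,[3,0,4]), (110,[3,0,2]), (114,[0]), (64,[3,0,2]), (24,[0,5]), (112,[4,1,5]), (2,[0,2,2,5]), (78,[2,4,0]), (78,[3,0,2]), (114,[0,3,1,2]), (64,[5,0,4]), (113,[0,2,2,5]), (64,[4,1,5]), (71,[0,3,1,2]), (15,[2,4,0]), (64,[2,4,1]), (112,[1,5,3]), (113,[0,0]), (78,[0,5,3]), (64,[1,3,5]), (113,[5,0,4]), (139,[4,0,5]), (105,[0,5,3]), (113,[2,4,1]), (115,[0]), (71,[0,3,0,2]), (2,[2,4,0]), (94,[2,2,2]), (11,[0,3,1,3]), (113,[3,4]), (78,[4,1,5]), (15,[0,0]), (7,[2,4,0]), (139,[0,3,0,2]), (1,[2,4,0]), (64,[1,3,4]), (111,[1]), (78,[3,0,4]), (112,[0,0]), (113,[2,2,2]), (45,[0,5,3,4]), (64,[2,4,0]), (105,[4,1,5]), (15,[0,0,4]), (112,[0]), (94,[2,4,0]), (110,[1,3,4]),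 (139,[0,2,2,2]), (64,[2,2,2]), (113,[2,0,2,5]), (110,[1]), (113,[0,0,3,4]), (11,[0,5]), (94,[4,1,5]), (114,[0,5]), (114,[0,3,0,2]), (78,[5,0,4]), (112,[0,0,4]), (112,[5,0,4]), (7,[0,2,2,5]), (94,[1]), (94,[0,5,3]), (64,[1]), (65,[0]), (71,[0]), (2,[4,1,5]), (113,[1]), (1,[0,3,1,2]), (113,[4,1,5]), (113,[2,4,0])]),
    (19,[(24,[4,1,1]), (84,[0,0,5]), (67,[0,5,0,0]), (92,[3,0,2]), (92,[3,0,4]), (17,[1,3,1]), (37,[2,4,1]), (37,[3,0,2]), (138,[3,3,1]), (77,[0,0,5]), (39,[2,0,2,2]), (87,[4,1,1]), (37,[2,2,2]), (131,[4,1,1]), (37,[3,4]), (37,[0,5,3]), (26,[3,5]), (24,[0,0,5]), (97,[1,5]), (52,[3,5]), (92,[1,5]), (52,[4,4,4]), (77,[4,4,4]), (13,[0,3,5]), (77,[4,1,1]), (82,[0,0,5]), (125,[1,3]), (37,[3,0,4]), (137,[4,0]), (25,[3,5]), (14,[2,0,2,2]), (26,[4,4,4]), (25,[0,0,5]), (97,[2,4,1]), (84,[4,1,1]),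 (38,[3,3,1]), (125,[4,0]), (79,[4,1,1]), (16,[5,0,4]), (52,[0,0,5]), (35,[1,1,2,0]), (79,[0,0,5]), (127,[2,0,2,2]), (137,[3,3,1]), (16,[0,5,3]), (79,[4,4,4]), (87,[3,3,1]), (82,[4,0]), (16,[0,2,2]), (35,[3,0,2]), (97,[0,5,3]), (84,[4,4,4]), (16,[2,0,2,2]), (16,[2,2,2]), (37,[0,2,2]), (35,[1,3,0,0]), (37,[2,0,2,5]), (37,[5,0,4]), (16,[2,0,2,5]), (122,[1,3,0,0]), (92,[2,0,2,5]), (127,[3,5]), (97,[3,0,2]), (84,[4,0]), (77,[3,5]), (92,[3,4]), (35,[0,2,2]), (127,[1,3,0,0]), (97,[0,2,2]), (67,[4,0]), (25,[4,4,4]), (139,[4,0]), (139,[0,0,5]), (26,[1,3,0,0]), (16,[1,3,0,0]), (39,[1,4,1,5]), (92,[2,4,1]), (82,[4,1,1]), (136,[3,3,1]), (82,[4,4,4]), (131,[4,4,4]), (46,[2,0,2,5]), (97,[2,2,2]), (28,[3,3,1]), (67,[3,3,1]), (82,[3,5]), (131,[0,0,5]), (125,[0,5,0,0]), (39,[2,0,2,5]), (24,[4,4,4]), (90,[2,2,2]),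 (37,[1,5]), (75,[2,0,2,5]), (25,[1,3,0,0]), (97,[3,4]), (35,[2,0,2,2]), (67,[1,3]), (39,[1,3,0,0]), (92,[2,2,2]), (139,[3,5]), (26,[4,1,1]), (102,[3,5]), (139,[4,1,1]), (35,[2,0,2,5]), (28,[4,0]), (14,[1,4,1,5]), (90,[2,0,2,5]), (75,[0,2,2]), (138,[4,0]), (97,[3,5,5]), (16,[3,5]), (39,[0,2,2]), (16,[3,0,2]), (131,[4,0]), (97,[2,0,2,5]), (131,[3,3,1]), (139,[4,4,4]), (25,[1,5]), (77,[4,0]), (125,[1,4,1]), (99,[4,4,4]), (14,[1,3,0,0]), (125,[3,0,2]), (127,[1,4,1,5]), (97,[5,0,4]), (125,[3,3,1]), (131,[1,1,4,1]), (97,[3,0,4]), (136,[4,0]), (35,[1,4,1,5]), (79,[4,0]), (99,[0,0,5])]),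
    (19,[(65,[3,0,4]), (52,[0,2,2,4]), (65,[2,4,1]), (79,[0,5]), (52,[1,3,5]), (27,[0,5,3]), (65,[2,2,2]), (82,[2,1,5]), (65,[0,5,3]), (79,[5,0]), (82,[0,2,2,4]), (76,[0,5]), (52,[4,4,4]), (84,[4,4,4]), (13,[0,3,3]), (65,[3,0,2]), (13,[0,3,4]), (111,[2,2,2]), (77,[1,3,5]), (97,[0,2,2,5]), (79,[1,3,5]), (44,[0,2,2,5]), (15,[4,1]), (79,[4,4,4]), (13,[0,0,2]), (27,[3,0,2]), (27,[3,0,4]), (27,[4,1]), (97,[2,4,1]), (99,[0,5]), (24,[1,3,5]), (76,[4,4,2]), (77,[4,4,4]), (27,[0,3,5]), (15,[1,4]), (76,[0,2,2,4]), (77,[5,0]), (112,[2,4,1]), (111,[0,2,2,5]), (76,[1,4]), (82,[1,3,5]), (1,[0,5]), (30,[4,4,2]), (11,[5,0]), (76,[0]), (97,[4,1]), (45,[5,0]), (97,[0,5,3]), (45,[0,5]), (11,[4,4,2]), (65,[3,4]), (76,[0,4,0,3]), (11,[0,3,4]), (30,[5,0]), (112,[4,1]), (82,[4,4,4]), (34,[2,1,4]), (75,[0,3,3]),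 (76,[2,1,5]), (97,[3,0,2]), (11,[0,4,0,3]), (45,[0,4,0,3]), (1,[2,1,5]), (34,[0,3,4]), (65,[4,1]), (24,[4,4,4]), (76,[3,5,5]), (77,[0,2,2,4]), (79,[2,1,5]), (112,[1,4]), (36,[0,3,5]), (84,[1,3,5]), (112,[2,0,3,3]), (120,[4,1]), (111,[3,0,4]), (27,[5,0,4]), (36,[0,3,3]), (27,[2,4,1]), (99,[0,2,2,4]), (97,[2,2,2]), (82,[0,5]), (111,[0,5,3]), (34,[0,3,3]), (120,[1,4]), (45,[4,4,4]), (99,[0]), (96,[4,1]), (111,[5,0,4]), (140,[1,4]), (15,[0,3,5]), (79,[0,2,2,4]), (30,[4,4,4]), (99,[5,0]), (30,[0,2,2,4]), (46,[2,2,2]), (30,[3,5,5]), (11,[2,1,5]), (112,[1,2]), (84,[0,2,2,4]), (13,[0,0,4]), (15,[0,0,4]), (99,[1,3,5]), (27,[2,2,2]), (24,[0,2,2,4]), (111,[2,0,2,5]), (111,[2,4,1]), (111,[3,0,2]), (96,[1,2]), (82,[5,0]), (97,[2,0,2,5]), (15,[3,0,4]), (45,[0,2,2,4]), (15,[2,0,3,3]), (11,[0,5]), (65,[5,0,4]),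 (96,[1,4]), (99,[4,4,4]), (30,[2,1,5]), (97,[2,1,4]), (112,[0,0,4]), (99,[2,1,5]), (30,[0,4,0,3]), (97,[5,0,4]), (84,[0,5]), (76,[5,0]), (97,[3,0,4]), (27,[1,4]), (111,[4,1]), (11,[0,2,2,4]), (77,[2,1,5]), (112,[0,3,5]), (36,[2,0,3,3])]),
    (19,[(97,[2,4,1]), (22,[0,0,2,0]), (52,[4,4,4]), (13,[2,0,2,5]), (79,[1,3,1,1]), (101,[5,0,4]), (13,[3,0,4]), (99,[3,0]), (79,[4,4,4]), (34,[2,0,2,5]), (24,[0,0,2,0]), (84,[4,4,4]), (13,[0,3,3]), (34,[0,5,3]), (84,[1,3,1,1]), (24,[4,4,4]), (90,[5,0,4]), (97,[5,0,4]), (97,[3,4]), (132,[4,4,2]), (13,[3,4]), (96,[0,0,2,0]), (90,[1,2]), (13,[0,0,2]), (133,[2,0,2,5]), (101,[2,0,2,5]), (97,[1,2]), (139,[1,3,1,1]), (99,[4,4,4]), (126,[0,3,3]), (82,[4,4,4]), (75,[1,1,3,3]), (101,[3,0,4]), (97,[0,5,3]), (43,[1,3,0,5]), (44,[0,0,2]), (90,[2,4,1]), (13,[2,4,1]),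 (24,[1,3,1,1]), (44,[0,3,3]), (97,[3,0,4]), (22,[1,3,5,0]), (34,[3,4]), (90,[0,2]), (135,[0,3,1]), (13,[0,2]), (101,[0,0,2]), (133,[3,0,4]), (77,[4,4,4]), (46,[0,0,2]), (139,[3,0]), (97,[0,3,3]), (44,[0,5,3]), (99,[0,0,2,0]), (101,[3,5,5]), (126,[0,0,2]), (34,[1,2]), (139,[0,0,2,0]), (133,[3,5,5]), (13,[0,5,3]), (97,[3,0,2]), (43,[1,3,1,1]), (22,[1,3,1,1]), (75,[0,0,2]), (101,[3,4]), (126,[1,2]), (84,[0,0,2,0]), (126,[2,0,2,5]), (139,[4,4,2]), (34,[3,0,4]), (96,[1,3,1,1]), (135,[1,3,5,0]), (132,[1,1,5]), (84,[0,3,1]), (79,[0,0,2,0]), (101,[0,5,3]), (126,[1,1,3,3]), (82,[1,3,1,1]), (90,[3,0,4]), (133,[5,0,4]), (97,[2,2,2]), (52,[1,3,1,1]), (99,[1,3,1,1]), (34,[0,3,3]), (44,[1,2]), (90,[0,0,2]), (101,[2,4,1]), (46,[1,2]), (52,[0,0,2,0]), (91,[1,5,3]), (43,[0,3,1]), (133,[2,4,1]), (135,[0,0,2,0]),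 (34,[2,4,1]), (52,[1,3,0,5]), (90,[1,1,3,3]), (101,[1,2]), (34,[0,0,2]), (44,[2,0,2,5]), (22,[2,4,2]), (132,[0,0,2,0]), (133,[1,2]), (133,[3,4]), (90,[2,0,2,5]), (63,[3,0]), (99,[4,4,2]), (97,[3,5,5]), (24,[0,3,1]), (90,[0,5,3]), (97,[0,0,2]), (44,[2,4,1]), (97,[2,0,2,5]), (13,[5,0,4]), (139,[4,4,4]), (44,[5,0,4]), (75,[0,2]), (96,[0,3,5]), (43,[0,0,2,0]), (22,[4,4,2]), (126,[0,2]), (77,[0,0,2,0]), (13,[1,2]), (99,[1,3,5,0]), (90,[0,3,3]), (34,[5,0,4]), (63,[1,5,3]), (101,[1,5,3]), (8,[0,4,4]), (133,[0,5,3]), (44,[3,0,4]), (22,[1,3,0,5]), (135,[3,0])]),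
    (19,[(65,[3,0,4]), (52,[0,2,2,4]), (79,[1,3,1,1]), (101,[5,0,4]), (24,[1,3,5]), (37,[0,5,3]), (96,[3,5]), (65,[0,5,3]), (79,[5,0]), (82,[0,2,2,4]), (24,[0,0,2,0]), (52,[3,5]), (24,[0,0,5]), (92,[1,5]), (65,[2,4,1]), (111,[2,2,2]), (52,[4,4,4]), (82,[0,0,5]), (79,[1,3,5]), (92,[3,0,2]), (25,[3,5]), (133,[2,0,2,5]), (101,[2,0,2,5]), (25,[0,0,5]), (97,[2,4,1]), (139,[1,3,1,1]), (37,[3,4]), (52,[1,3,5]), (79,[4,1,1]), (16,[5,0,4]), (77,[5,0]), (24,[1,3,1,1]), (16,[0,5,3]), (79,[4,4,4]), (52,[0,0,5]), (82,[1,3,5]), (84,[4,1,1]), (77,[0,0,5]), (82,[4,0]), (133,[3,0,4]), (35,[3,0,2]), (97,[0,5,3]), (84,[4,4,4]), (65,[3,0,2]), (77,[4,4,4]), (16,[2,2,2]), (65,[2,2,2]), (76,[4,1,1]), (99,[0,0,2,0]), (37,[2,0,2,5]), (37,[5,0,4]), (16,[2,0,2,5]), (139,[0,0,2,0]), (92,[2,0,2,5]), (76,[2,1,5]), (97,[3,0,2]),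 (84,[4,0]), (77,[3,5]), (92,[3,4]), (101,[3,4]), (92,[3,0,4]), (84,[0,0,2,0]), (77,[0,2,2,4]), (25,[4,4,4]), (24,[4,1,1]), (139,[4,0]), (139,[0,0,5]), (27,[4,0]), (79,[0,0,2,0]), (101,[0,5,3]), (92,[2,4,1]), (82,[1,3,1,1]), (82,[4,4,4]), (99,[0,2,2,4]), (97,[2,2,2]), (52,[1,3,1,1]), (111,[0,5,3]), (82,[3,5]), (37,[2,2,2]), (131,[0,0,5]), (37,[3,0,2]), (101,[2,4,1]), (25,[1,3,1,1]), (24,[4,4,4]), (52,[0,0,2,0]), (37,[1,5]), (79,[0,2,2,4]), (101,[0,0,3]), (99,[5,0]), (30,[0,2,2,4]), (92,[2,2,2]), (139,[3,5]), (101,[1,5]), (84,[0,2,2,4]), (139,[4,1,1]), (25,[0,2,2,4]), (99,[1,3,5]), (133,[3,4]), (24,[0,2,2,4]), (77,[1,3,5]), (111,[2,0,2,5]), (111,[2,4,1]), (111,[3,0,2]), (16,[3,0,2]), (82,[5,0]), (97,[2,0,2,5]), (35,[4,1]), (65,[3,4]), (25,[1,5]), (84,[0,0,5]), (77,[4,0]), (65,[5,0,4]), (77,[4,1,1]),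 (99,[4,4,4]), (79,[0,0,5]), (77,[0,0,2,0]), (30,[3,5]), (133,[1,5]), (97,[5,0,4]), (76,[5,0]), (97,[3,0,4]), (82,[4,1,1]), (37,[3,0,4]), (37,[2,4,1]), (84,[1,3,5]), (77,[2,1,5]), (79,[4,0]), (99,[0,0,5])]),
    (19,[(110,[2,2,2]), (77,[0,2,2,2]), (24,[2,0,4]), (74,[2,0,2,5]), (47,[0,5,3]), (86,[3,3,0]), (3,[2,0,2,5]), (84,[0,2,2,2]), (99,[1,1,4,4]), (79,[0,4,0]), (47,[3,4]), (86,[0,0,2,2]), (79,[2,0,4]), (113,[3,0,4]), (74,[2,2,2]), (3,[1,3,1,1]), (123,[3,4]), (77,[0,3,0,2]), (47,[2,2,2]), (139,[2,5]), (21,[0,5,3]), (128,[5,0,4]), (128,[2,4,1]), (3,[2,1]), (84,[2,0,4]), (84,[0,4,0]), (77,[0,5,0,3]), (74,[0,5,3]), (123,[5,0,4]), (79,[0,3,3,5]), (113,[3,0,2]), (74,[2]), (99,[2,0,4]), (21,[3,0,4]), (21,[2,2,2]), (95,[1,5]), (116,[3,0,4]), (84,[0,3,0,2]), (21,[3,4]), (103,[3,3,5]), (123,[0,5,3]),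 (123,[2,0,2,5]), (82,[0,5,0,3]), (128,[3,4]), (82,[0,3,3,5]), (74,[2,4,1]), (95,[2,4,0]), (110,[2]), (113,[0,5,3]), (128,[3,0,2]), (24,[2,5]), (107,[0,0,2,2]), (24,[1,1,4,4]), (82,[2,5]), (52,[0,3,3,5]), (52,[2,5]), (84,[1,1,4,4]), (82,[0,4,0]), (47,[3,0,2]), (53,[1,4,4]), (82,[2,0,4]), (116,[3,0,2]), (24,[0,4,0]), (77,[0,3,3,5]), (74,[3,0,4]), (84,[2,5]), (139,[1,1,4,4]), (52,[0,2,2,2]), (24,[0,3,0,2]), (107,[2]), (123,[3,0,2]), (47,[3,0,4]), (74,[3,4]), (72,[1,3,1,1]), (110,[5,0,4]), (79,[0,5,0,3]), (128,[2,2,2]), (113,[5,0,4]), (82,[1,1,4,4]), (139,[2,0,4]), (52,[2,0,4]), (52,[0,4,0]), (139,[0,3,3,5]), (128,[2,0,2,5]), (113,[3,4]), (110,[3,0,4]), (18,[2,1]), (116,[0,5,3]), (74,[5,0,4]), (139,[0,3,0,2]), (3,[0,0,2,2]), (103,[4,1]), (103,[1,5]), (74,[3,0,2]), (24,[0,5,0,3]), (84,[0,3,3,5]),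 (82,[0,2,2,2]), (123,[2,2,2]), (82,[0,3,0,2]), (128,[0,5,3]), (24,[0,2,2,2]), (52,[0,3,0,2]), (110,[3,0,2]), (110,[2,4,1]), (133,[2]), (139,[0,2,2,2]), (47,[2]), (113,[2,0,2,5]), (103,[2]), (77,[1,5]), (113,[2,2,2]), (116,[3,4]), (11,[0,0,2,2]), (59,[3,3,5]), (79,[2,5]), (107,[3,3,0]), (139,[0,4,0]), (85,[2]), (16,[0,3,0,2]), (82,[2,0,2]), (116,[2,0,2,5]), (72,[1,1,4,4]), (18,[0,0,2,2]), (79,[0,3,0,2]), (89,[2]), (47,[5,0,4]), (47,[2,4,1])]),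
    (11,[]),
    (19,[(99,[0,4,2,5]), (5,[3,0,4]), (5,[3,4]), (24,[5]), (121,[2,2,2]), (5,[2,4,1]), (77,[5,5]), (5,[5,0,4]), (84,[1,3,1,1]), (77,[0,4,2,5]), (52,[4,4,4]), (33,[2,2,2]), (6,[2,4,1]), (33,[2,4,1]), (77,[3,3,0]), (82,[4,4]), (52,[5]), (52,[0,4,2,5]), (84,[3,3,0]), (84,[5]), (6,[3,0,4]), (24,[5,5]), (84,[3,3,0,5]), (101,[3,0,4]), (29,[3,4]), (99,[5]), (79,[5]), (121,[5,0,4]), (79,[4,4,4]), (142,[2,0,2,5]), (121,[3,0,2]), (25,[2,4,1]), (29,[2,0,2,5]), (33,[3,0,2]), (33,[3,0,4]), (24,[0,4,2]), (24,[4,4]), (52,[0,4,2]), (48,[2,4,1]), (77,[5]), (77,[4,4,4]), (79,[5,5]), (48,[3,4]), (52,[3,3,0]), (139,[4,4]), (33,[0,5,3]), (121,[0,5,3]), (99,[5,5]), (48,[2,2,2]), (97,[3,0,2]), (86,[2,0,2,5]), (33,[3,4]), (52,[4,4]), (84,[0,4,2]), (139,[3,3,0]), (84,[0,0,2,0]), (5,[3,0,2]), (29,[0,5,3]),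 (59,[0,5,0,3]), (24,[4]), (142,[5,0,4]), (29,[3,0,2]), (29,[3,0,4]), (6,[2,0,2,5]), (79,[0,0,2,0]), (101,[0,5,3]), (139,[3,3,0,5]), (82,[1,3,1,1]), (82,[4,4,4]), (82,[4]), (133,[5,0,4]), (97,[2,2,2]), (52,[1,3,1,1]), (99,[1,3,1,1]), (84,[5,5]), (77,[4,4]), (101,[2,4,1]), (29,[2,4,1]), (24,[4,4,4]), (52,[0,0,2,0]), (42,[3]), (33,[5,0,4]), (133,[2,4,1]), (99,[4,4]), (97,[3,4]), (6,[2,2,2]), (6,[3,4]), (82,[3,3,0,5]), (86,[5,0,4]), (79,[4,4]), (48,[0,5,3]), (142,[0,5,3]), (86,[3,4]), (48,[5,0,4]), (99,[4]), (142,[3,5]), (5,[0,5,3]), (134,[1,3,4,1]), (5,[2,2,2]), (42,[2]), (79,[0,4,2]), (82,[0,4,2]), (84,[4,4]), (121,[3,4]), (97,[2,0,2,5]), (48,[3,0,2]), (139,[4,4,4]), (25,[3,0,2]), (52,[4]), (142,[3,0,2]), (6,[0,5,3]), (97,[3,5]), (77,[0,0,2,0]), (29,[2,2,2]), (84,[4]), (82,[5,5]), (97,[5,0,4]),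 (79,[4]), (142,[2,2,2]), (77,[4,2]), (139,[4,2]), (133,[0,5,3]), (77,[4]), (142,[3,4])]),
    (19,[(65,[3,0,4]), (52,[0,2,2,4]), (134,[5,0,4]), (84,[5,1]), (99,[1,2,1,1]), (10,[3,0,4]), (10,[0,5,3]), (10,[3,4]), (85,[3,4]), (65,[2,4,1]), (111,[2,2,2]), (31,[0,5,3]), (85,[2,4,1]), (79,[1,3,5]), (93,[3,4]), (52,[0,5,5]), (85,[2,0,2,5]), (24,[5,1]), (139,[1,3,4,1]), (79,[0,5,5]), (52,[5,1]), (10,[2,0,2,5]), (77,[3,0,5]), (139,[4,1,2]), (52,[1,3,5]), (93,[3,0,2]), (93,[3,0,4]), (65,[0,5,3]), (130,[3,4]), (53,[2,4,1]), (10,[2,4,1]), (85,[3,0,2]), (82,[1,3,5]), (8,[5,1]), (93,[2,2,2]), (104,[3,0,4]), (99,[4,1,2]), (99,[0,4]), (53,[2,2,2]), (79,[0,4]), (84,[4,4,4]), (79,[5,1]), (77,[4,4,4]), (53,[3,0,4]), (84,[0,4]), (130,[2,4,1]), (139,[0,5,5]), (82,[0,0,2,5]), (130,[2,0,2,5]), (24,[3,0,5]), (24,[0,4]),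 (97,[3,0,2]), (85,[3,0,4]), (82,[3,0,5]), (24,[0,0,2,5]), (139,[0,4]), (77,[0,5,5]), (134,[0,5,3]), (77,[0,2,2,4]), (31,[3,0,2]), (104,[3,4]), (24,[4,1,2]), (93,[2,0,2,5]), (10,[2,2,2]), (111,[3,0,4]), (84,[1,2,1,1]), (77,[4,1,2]), (19,[3,0,4]), (82,[4,4,4]), (65,[2,2,2]), (99,[0,2,2,4]), (97,[2,2,2]), (31,[3,0,4]), (111,[0,5,3]), (84,[0,5,5]), (99,[0,0,2,5]), (99,[1,3,4,1]), (99,[0,5,5]), (24,[4,4,4]), (111,[5,0,4]), (53,[2,2]), (79,[0,2,2,4]), (53,[0,5,3]), (24,[1,3,5]), (134,[3,4]), (10,[3,0,2]), (139,[0,2]), (52,[4,1,2]), (53,[3,0,2]), (84,[0,2,2,4]), (104,[2,0,2,5]), (82,[0,5,5]), (99,[1,3,5]), (24,[1,2,1,1]), (24,[0,2,2,4]), (77,[1,3,5]), (111,[2,0,2,5]), (82,[0,4]), (52,[0,4]), (93,[2,4,1]), (31,[2,2,2]), (97,[2,0,2,5]), (31,[3,4]), (65,[3,4]), (130,[0,5,3]), (95,[0,3,1,3]), (79,[4,1,2]),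 (65,[5,0,4]), (93,[5,0,4]), (31,[5,0,4]), (93,[2,0]), (99,[0,2]), (24,[0,5,5]), (79,[3,0,5]), (97,[5,0,4]), (56,[1,1,4]), (97,[3,0,4]), (93,[0,5,3]), (111,[4,1]), (19,[0,3,1,3]), (84,[1,3,5]), (134,[2,0,2,5]), (84,[4,1,2]), (85,[2,2,2])]),
    (19,[(65,[3,0,4]), (77,[0,2,2,2]), (65,[2,4,1]), (79,[0,5]), (52,[1,3,5]), (27,[0,5,3]), (65,[0,5,3]), (30,[0,3,0,2]), (79,[5,0]), (84,[0,2,2,2]), (65,[2,2,2]), (76,[0,5]), (77,[3,5,5]), (82,[3,5,5]), (13,[0,3,3]), (52,[3,5,5]), (46,[0,5]), (90,[5,0,4]), (77,[1,3,5]), (97,[0,2,2,5]), (79,[1,3,5]), (44,[0,2,2,5]), (15,[4,1]), (84,[3,5,5]), (112,[2,1,4]), (27,[3,0,2]), (27,[3,0,4]), (27,[4,1]), (96,[0,5,3]), (99,[0,5]), (76,[4,4,2]), (27,[0,3,5]), (76,[0,2,2,2]), (76,[0,2,2,4]), (77,[5,0]), (112,[2,4,1]), (111,[0,2,2,5]), (79,[4,4,4]), (90,[0,2,2,5]),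 (82,[1,3,5]), (1,[0,5]), (110,[4,1]), (11,[5,0]), (76,[0]), (97,[4,1]), (65,[3,0,2]), (45,[5,0]), (97,[0,5,3]), (45,[0,5]), (90,[4,1]), (76,[0,4,0,3]), (11,[0,3,4]), (30,[5,0]), (112,[4,1]), (79,[3,5,5]), (126,[2,2,2]), (84,[1,3,5]), (140,[1,1,3,3]), (76,[2,1,5]), (96,[2,4,1]), (11,[0,4,0,3]), (11,[3,5,5]), (1,[2,1,5]), (44,[0,5]), (65,[4,1]), (76,[3,5,5]), (52,[0,2,2,2]), (79,[2,1,5]), (112,[1,4]), (36,[0,3,5]), (112,[2,0,3,3]), (120,[4,1]), (110,[5,0,4]), (27,[5,0,4]), (45,[0,3,5,3]), (27,[2,4,1]), (79,[0,2,2,2]), (97,[2,2,2]), (82,[0,5]), (90,[3,0,2]), (112,[1,1,3,3]), (113,[4,1]), (45,[4,4,4]), (99,[0]), (96,[4,1]), (90,[2,2,2]), (140,[1,4]), (15,[0,3,5]), (99,[0,2,2,2]), (30,[4,4,4]), (99,[5,0]), (30,[0,2,2,4]), (46,[2,2,2]), (30,[3,5,5]), (118,[0,2,2,5]), (112,[1,2]), (82,[0,2,2,2]),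 (13,[0,0,4]), (15,[0,0,4]), (84,[4,4,2]), (27,[2,2,2]), (110,[3,0,2]), (90,[0,5,3]), (96,[1,2]), (82,[5,0]), (15,[3,0,4]), (45,[0,2,2,4]), (76,[0,3,5,3]), (11,[0,5]), (65,[5,0,4]), (118,[4,1]), (30,[2,1,5]), (118,[1,2]), (112,[0,0,4]), (99,[2,1,5]), (30,[0,4,0,3]), (96,[3,0,4]), (84,[0,5]), (76,[5,0]), (96,[2,2,2]), (27,[1,4]), (111,[4,1]), (11,[0,2,2,4]), (77,[2,1,5]), (30,[0,3,5,3]), (36,[2,0,3,3])]),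
    (19,[(52,[2,1,4]), (120,[5,0,4]), (24,[0,3,5]), (74,[1,1,3,3]), (24,[2,0,4]), (46,[2,4,1]), (57,[3,4]), (52,[1,3,5,0]), (126,[2,4,1]), (52,[0,3,5]), (34,[2,0,2,5]), (52,[2,4,2]), (46,[0,5,3]), (41,[1,3,5,0]), (84,[0,2,5]), (24,[1,1,5]), (57,[0,5,3]), (96,[1,3,5,0]), (79,[0,3,5]), (46,[3,4]), (96,[2,0,3,3]), (99,[2,0,3,3]), (96,[0,0,2,0]), (74,[3,4]), (72,[3]), (74,[0,5,3]), (27,[3]), (75,[2,4,1]), (75,[5,0,4]), (135,[1,1,3,3]), (97,[2,4,1]), (84,[2,0,4]), (140,[2,0,4]), (75,[1,1,3,3]), (4,[2,4,2]), (96,[3]), (11,[2,0,2,5]), (41,[2,0,4]), (84,[1,1,5]), (96,[2,0,2]), (41,[2,4,2]), (84,[2,0,3,3]), (140,[2,0,3,3]), (140,[1,3,1,1]), (27,[2,0,3,3]), (46,[1,1,3,3]), (101,[1,1,3,3]), (80,[3,4]), (84,[4,4,4]), (11,[2]), (135,[4,4,4]), (139,[0,2,5]), (99,[2,4,2]), (140,[0,0,2]), (126,[0,0,2]),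 (27,[1,1,4,4]), (79,[2,4,2]), (140,[1,1,3,3]), (99,[0,2,5]), (57,[0,5]), (96,[2,0,4]), (128,[1,1,3,3]), (75,[0,5,3]), (140,[1,1,4,4]), (84,[2,4,2]), (126,[2,0,2,5]), (52,[2,0,3,3]), (41,[0,0,2,0]), (80,[0,5]), (52,[1,1,5]), (126,[2,5,1]), (135,[2,0,4]), (126,[0,5,3]), (79,[0,0,2,0]), (126,[1,1,3,3]), (126,[2,0,3,3]), (74,[2,4,1]), (52,[2,0,4]), (46,[2]), (57,[2,4,1]), (118,[0,2,5]), (140,[3]), (46,[5,0,4]), (41,[4,4,4]), (79,[2,1,4]), (24,[2,4,2]), (72,[2,0,3,3]), (41,[1,1,5]), (74,[5,0,4]), (135,[2,4,2]), (34,[2,4,1]), (126,[5,0,4]), (83,[0,5]), (135,[4,4,2]), (34,[0,0,2]), (133,[1,1,3,3]), (135,[1,1,4,4]), (96,[1,1,4,4]), (139,[2,0,3,3]), (46,[3,0,4]), (57,[1,1,3,3]), (11,[5,0,4]), (126,[3,4]), (79,[2,0,3,3]), (52,[0,2,5]), (79,[0,2,5]), (80,[1,1,3,3]), (81,[2,0,2,5]), (41,[2,0,2]), (140,[1,3,5,0]),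 (140,[0,0,2,0]), (97,[1,1,3,3]), (11,[3,4]), (135,[2,0,3,3]), (128,[2]), (135,[3]), (126,[3,0,4]), (83,[3,0,3]), (80,[2,4,1]), (41,[1,1,4,4]), (4,[4,4,2]), (72,[1,1,4,4]), (140,[0,2,5]), (34,[2,0,3,3]), (34,[2,5,1]), (101,[2])]),
    (19,[(65,[3,0,4]), (56,[0,5,3]), (98,[3,0,4]), (84,[5,0,0]), (98,[3,0,2]), (77,[5,0,0]), (82,[0,2,2,4]), (24,[0,0,2,0]), (24,[1,1,4]), (65,[2,4,1]), (111,[2,2,2]), (56,[2,4,1]), (9,[3,0,2]), (79,[1,3,5]), (24,[0,0,5]), (92,[3,0,2]), (24,[5,0,0]), (24,[0,4,0,2]), (18,[2,4,1]), (97,[2,4,1]), (139,[1,3,1,1]), (37,[0,5,3]), (37,[3,4]), (52,[1,3,5]), (68,[0,5,3]), (82,[2,1]), (65,[0,5,3]), (119,[3,4]), (24,[1,3,1,1]), (77,[0,3]), (79,[4,4,4]), (52,[0,0,5]), (82,[1,3,5]), (84,[4,1,1]), (9,[2,2,2]), (18,[0,5,3]), (99,[1,1,4]), (79,[2,1]), (79,[1,1,4]), (84,[4,4,4]),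 (65,[3,0,2]), (77,[4,4,4]), (52,[0,3]), (56,[2,2,2]), (99,[0,0,2,0]), (37,[2,0,2,5]), (52,[2,1]), (24,[1,1,5,5]), (56,[3,4]), (24,[0,3]), (97,[3,0,2]), (79,[1,4,2]), (79,[0,3]), (92,[3,4]), (101,[3,4]), (92,[3,0,4]), (84,[0,0,2,0]), (77,[0,2,2,4]), (119,[2,4,1]), (24,[4,1,1]), (68,[3,4]), (84,[1,1,4]), (79,[0,0,2,0]), (101,[0,5,3]), (92,[2,4,1]), (82,[1,3,1,1]), (82,[4,4,4]), (65,[2,2,2]), (99,[0,2,2,4]), (97,[2,2,2]), (119,[5,0,4]), (111,[0,5,3]), (9,[3,4]), (18,[2,2,2]), (77,[2,1]), (101,[2,4,1]), (18,[5,0,4]), (24,[4,4,4]), (52,[0,0,2,0]), (129,[2,0,2,5]), (79,[0,2,2,4]), (68,[2,4,1]), (24,[1,3,5]), (99,[0,4,0,2]), (82,[1,4,2]), (84,[0,3]), (24,[2,1]), (84,[0,2,2,4]), (18,[3,4]), (9,[0,5,3]), (98,[2,4,1]), (133,[3,4]), (24,[0,2,2,4]), (77,[1,3,5]), (111,[2,0,2,5]), (52,[1,1,4]), (82,[1,1,4]),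 (99,[2,1]), (56,[3,0,4]), (97,[2,0,2,5]), (65,[3,4]), (56,[3,0,2]), (84,[0,0,5]), (52,[1,4,2]), (65,[5,0,4]), (68,[2,2,2]), (99,[4,4,4]), (79,[0,0,5]), (77,[0,0,2,0]), (119,[2,0,2,5]), (37,[2,2,2]), (97,[5,0,4]), (98,[3,4]), (97,[3,0,4]), (68,[3,0,2]), (37,[3,0,4]), (37,[2,4,1]), (84,[1,3,5]), (77,[1,4,2]), (18,[3,0,4])]),
    (19,[(24,[1,1]), (24,[0,0]), (5,[3,4]), (24,[5]), (5,[2,4,1]), (24,[1,1,4]), (24,[1,1,5]), (56,[2,4,1]), (24,[0,0,4]), (24,[0,0,5]), (52,[5]), (79,[1,1]), (24,[2,0]), (84,[5]), (7,[0,5,3]), (24,[5,5]), (37,[3,4]), (52,[1,3,5]), (29,[3,4]), (12,[3,4]), (52,[0,3,4]), (84,[1,1,5]), (36,[3,4]), (24,[1,3]), (39,[2,4,1]), (39,[3,4]), (24,[0,4,2]), (24,[4,4]), (52,[0,4,2]), (48,[2,4,1]), (52,[0,3]), (48,[3,4]), (52,[2,0]), (52,[2,1]), (33,[0,5,3]), (56,[3,4]), (24,[0,3]),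 (79,[1,4,2]), (33,[3,4]), (17,[0,5,3]), (75,[0,5,3]), (17,[3,4]), (84,[2,4,2]), (24,[4]), (14,[2,4,1]), (68,[3,4]), (64,[2,4,1]), (12,[0,5,3]), (74,[3,4]), (92,[2,4,1]), (74,[2,4,1]), (52,[1,1,5]), (52,[2,0,4]), (9,[3,4]), (46,[5,0,4]), (29,[2,4,1]), (79,[2,1,4]), (76,[2,4,1]), (33,[5,0,4]), (79,[1,3,4]), (68,[2,4,1]), (57,[0,5,3]), (6,[3,4]), (84,[0,3]), (24,[2,1]), (7,[3,4]), (18,[3,4]), (9,[0,5,3]), (84,[0,0,4]), (46,[3,0,4]), (76,[3,0,4]), (52,[0,0,4]), (52,[1,1,4]), (84,[4,4]), (36,[0,5,3]), (57,[2,4,1]), (45,[0,5,3]), (24,[0,2,2]), (14,[3,4]), (52,[4]), (24,[0,3,5]), (79,[0,0,5]), (84,[4]), (80,[2,4,1]), (5,[0,5,3]), (57,[3,4]), (37,[3,0,4]), (37,[2,4,1]), (46,[3,4]), (18,[3,0,4])]),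
    (19,[(52,[2,4]), (56,[0,5,3]), (52,[5,3]), (19,[2,2,2]), (8,[0,5,3]), (10,[3,0,4]), (10,[0,5,3]), (52,[3,3]), (79,[2,4]), (31,[0,5,3]), (52,[1,5]), (79,[1,3,5]), (52,[0,5,5]), (18,[2,4,1]), (52,[5,1]), (37,[0,5,3]), (52,[1,3,5]), (52,[1,4,1]), (79,[1,2,5]), (65,[0,5,3]), (16,[0,5,3]), (10,[2,4,1]), (52,[0,0,5]), (82,[1,3,5]), (77,[1,4,1]), (9,[2,2,2]), (18,[0,5,3]), (61,[2,2,2]), (53,[2,2,2]), (77,[1,3,0]), (8,[2,2,2]), (52,[2,2]), (20,[3,0,4]), (52,[0,3]), (56,[2,2,2]), (77,[1,1,2]), (52,[2,1]), (79,[3,3]), (67,[2,2,2]), (69,[2,2,2]), (60,[2,2,2]), (77,[0,2]), (32,[5,0,4]), (54,[0,5,3]), (52,[1,3,0]), (52,[0,2]), (20,[2,4,1]), (52,[4,0]), (79,[5,3]), (19,[0,5,3]), (65,[2,2,2]), (20,[2,2,2]), (79,[0,2]), (32,[2,2,2]), (82,[3,3]), (18,[2,2,2]), (50,[0,5,3]), (77,[2,4]), (77,[0,5,0]), (52,[1,1,2]),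 (61,[0,5,3]), (53,[0,5,3]), (8,[2,4,1]), (82,[1,4,2]), (69,[0,5,3]), (23,[5,0,4]), (9,[0,5,3]), (23,[0,5,3]), (32,[0,5,3]), (52,[1,1,4]), (52,[0,4]), (77,[1,2,5]), (31,[2,2,2]), (54,[2,4,1]), (55,[2,2,2]), (52,[1,4,2]), (65,[5,0,4]), (68,[2,2,2]), (54,[2,2,2]), (55,[2,4,1]), (20,[0,5,3]), (52,[1,1,3]), (82,[2,4]), (96,[2,2,2]), (69,[2,4,1]), (26,[2,2,2]), (26,[0,5,3]), (19,[2,4,1]), (77,[1,4,2]), (77,[1,4,4])]),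
    (19,[])]
def js34c12 : List (ℕ × List (ℕ × List ℕ)) := [
    (12,[]),
    (12,[]),
    (19,[(24,[5,5]), (48,[3,5]), (29,[3,4]), (28,[0,4,2]), (5,[3,4]), (24,[5]), (24,[3,3,0]), (89,[3,3,5]), (24,[0,0,2,0]), (33,[3,4]), (48,[3,4]), (59,[0,4,4]), (48,[3]), (24,[4,4]), (28,[0,3,0]), (24,[0,4,2]), (41,[3,5]), (3,[1,3,1,1]), (24,[4,4,4]), (24,[4]), (90,[1,4,0]), (28,[0,0,2,0]), (28,[3,3,0]), (66,[1,2,4]), (28,[4,2]), (133,[2,0,2,5]), (101,[2,0,2,5]), (3,[5]), (3,[3,3,0]), (139,[1,3,1,1]), (3,[5,5]), (28,[3,3,0,5]), (133,[3,5]), (3,[0,4,2]), (24,[1,3,1,1]), (142,[0,2,5]), (142,[2,0,2,5]), (86,[3,4]), (107,[0,4,4]), (89,[0,2,5]), (29,[2,0,2,5]), (41,[4,2]), (24,[3,3,0,5]), (3,[4,4]), (59,[0,4,2,5]), (4,[3,3,5]), (8,[3,3,5]), (3,[0,4,2,5]), (101,[3,5,5]), (139,[4,4]), (142,[0,3,0]), (6,[0,3,0]),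 (139,[0,0,2,0]), (42,[0,2,5]), (6,[3,4]), (100,[4,2]), (41,[3,5,5]), (86,[2,0,2,5]), (33,[3,5]), (101,[3,4]), (139,[3,3,0]), (5,[2,0,2,5]), (28,[0,4,4]), (97,[3,4]), (139,[4,4,2]), (29,[3]), (32,[5,3]), (86,[0,2,5]), (6,[2,0,2,5]), (86,[3,5]), (139,[4]), (139,[3,3,0,5]), (139,[2]), (25,[3]), (25,[3,5,5]), (59,[4,2]), (97,[3]), (3,[0,0,2,0]), (3,[4,2]), (48,[2,0,2,5]), (4,[0,2]), (101,[3,5]), (133,[0,2,5]), (3,[3,3,0,5]), (25,[2,0,2,5]), (24,[0,4,2,5]), (3,[4,4,4]), (42,[3]), (86,[3]), (28,[1,2,4]), (33,[2,0,2,5]), (4,[0,2,5]), (133,[3]), (8,[0,3,0]), (139,[5,5]), (28,[5,3,4]), (97,[0,3,0]), (86,[0,3,0]), (142,[3]), (133,[3,4]), (142,[3,5]), (89,[1,4,0]), (89,[5,3]), (42,[2]), (100,[0,3,0]), (88,[0,3,0]), (121,[0,2,5]), (121,[3,4]), (97,[2,0,2,5]), (4,[1,4,0]), (139,[4,4,4]), (142,[3,5,5]),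 (100,[1,4,0]), (59,[4,4,4]), (42,[2,0,2,5]), (133,[0,3,0]), (97,[3,5]), (41,[3,4]), (4,[0,3,0]), (100,[5,3,4]), (4,[5,3,4]), (101,[3]), (29,[0,3,0]), (101,[0,2,5]), (66,[2]), (28,[5,5]), (139,[4,2]), (33,[0,3,0]), (4,[1,2,4]), (142,[3,4])]),
    (17,[(142,[2,0,4]), (86,[1,1,4,4]), (128,[5,5]), (5,[2,0,4]), (74,[5]), (29,[2,0,4]), (33,[1,1,4,4]), (6,[2,0,4]), (56,[2,1]), (121,[1,1,4,4]), (74,[3,3,0]), (97,[2,0,4]), (101,[1,1,4,4]), (142,[1,1,4,4]), (14,[5]), (74,[5,5]), (97,[1,1,4,4]), (128,[3,3,0,5]), (128,[1,3,1,1]), (74,[4,4,4]), (74,[0,0,2,0]), (128,[0,4,2]), (18,[2,1]), (48,[2,0,4]), (128,[4]), (128,[1,3]), (33,[2,0,4]), (74,[4,4]), (74,[4]), (5,[1,1,4,4]), (86,[2,0,4]), (74,[0,4,2,5]), (121,[2,0,4]), (6,[1,1,4,4])]),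
    (17,[(121,[2,2,2]), (77,[5,5]), (77,[0,4,2,5]), (33,[2,2,2]), (77,[3,3,0]), (82,[4,4]), (121,[3,0,2]), (82,[1,3]), (33,[3,0,2]), (77,[5]), (77,[4,4,4]), (48,[2,2,2]), (97,[3,0,2]), (5,[3,0,2]), (5,[2,2,2]), (77,[0,2,2,5]), (29,[3,0,2]), (82,[1,3,1,1]), (82,[4,4,4]), (82,[4]), (97,[2,2,2]), (77,[4,4]), (77,[4]), (29,[2,2,2]), (141,[1,1,5,5]), (6,[2,2,2]), (82,[3,3,0,5]), (112,[5]), (82,[0,4,2]), (48,[3,0,2]), (142,[3,0,2]), (77,[0,0,2,0]), (82,[5,5]), (142,[2,2,2])]),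
    (19,[(121,[0,2,2,2]), (113,[0,4,2,5]), (6,[0,2,2,2]), (30,[3,3,0,5]), (29,[0,2,2,2]), (48,[0,2,2,2]), (83,[1,1,4,1]), (101,[0,2,2,2]), (86,[0,2,2,2]), (26,[3,5]), (5,[0,2,2,2]), (83,[1,4,1,5]), (110,[4,4]), (110,[3,3,0]), (143,[0,2,0]), (137,[1,1,4,1]), (142,[0,3,0,2]), (25,[3,0,3]), (110,[4]), (133,[0,2,0,0]), (97,[0,2,2,2]), (120,[3,5]), (113,[0,4,2]), (110,[1,3,1,1]), (26,[3,0,3]), (25,[3,5]), (83,[3,3,0]), (30,[3,3,0]), (26,[4]), (33,[0,2,2,2]), (62,[1,4,1,5]), (110,[0,0,2,0]), (120,[1,4,1]), (62,[3,3,0,5]), (113,[3,3,0]), (110,[3,3,0,5]), (67,[0,3,0,2]), (62,[4]), (25,[1,4,1]), (113,[5,5]), (113,[1,3,1]), (110,[5,5]), (140,[2,0,3,3]), (97,[0,3,0,2]), (86,[0,3,0,2]), (90,[0,5,1]), (83,[1,4,1]), (33,[0,3,0,2]), (73,[0,0,2,0]), (25,[5,5]), (26,[5,5]), (83,[1,3,1,1]), (62,[0,4,0,3]),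 (29,[0,3,0,2]), (91,[4,0]), (30,[1,3,1,1]), (6,[0,0,2,0,2]), (101,[0,3,0,2]), (110,[5]), (122,[0,5,0,0]), (121,[2,0,3,3]), (62,[5,5]), (133,[0,3,0,2]), (127,[3,5]), (73,[1,3,1]), (133,[0,2,0]), (83,[3,3,0,5]), (133,[0,2,2,2]), (83,[4,4]), (83,[4,4,4]), (6,[0,3,0,2]), (67,[0,5,3,4]), (137,[3,0,3]), (62,[3,3,0]), (51,[5,0]), (113,[0,0,2,0]), (110,[1,3,1]), (142,[0,2,2,2]), (120,[5,5]), (143,[2,0,3,3]), (143,[0,0,2,0,2]), (127,[3,0,3]), (137,[3,5]), (113,[4,4]), (137,[1,4,1,5]), (62,[3,5]), (26,[3,3,0]), (113,[5,0]), (62,[1,4,1]), (122,[0,2,0]), (91,[4,0,5]), (62,[1,3,1,1]), (25,[1,3,1,1]), (26,[0,4,0,3]), (62,[1,1,4,1]), (113,[3,3,0,5]), (30,[4,4,4]), (113,[4,4,4]), (83,[3,5]), (30,[4]), (62,[4,4]), (30,[3,0,3]), (62,[0,0,2,0]), (25,[1,4,1,5]), (113,[5]), (113,[1,3,1,1]), (26,[3,3,0,5]), (30,[4,4]),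 (62,[3,0,3]), (110,[3,5]), (121,[0,3,0,2]), (110,[3,0,3]), (127,[1,4,1]), (25,[3,3,0,5]), (110,[4,4,4]), (5,[0,3,0,2]), (108,[2,0,2,2]), (83,[5,5]), (73,[5,0]), (30,[5,5]), (108,[1,4,1]), (30,[3,5]), (127,[1,4,1,5]), (83,[3,0,3]), (30,[0,0,2,0]), (142,[2,0,3,3]), (137,[1,4,1]), (73,[0,5,3,4]), (137,[1,3,1]), (108,[0,2,0,0])]),
    (17,[(37,[4]), (5,[0,0,5]), (87,[4,4]), (86,[0,0,5]), (92,[0,4,2,5]), (33,[0,0,5]), (6,[0,0,5]), (131,[1,3,0,0]), (37,[5]), (37,[0,4,2]), (33,[4,1,1]), (87,[4]), (87,[0,4,2,5]), (92,[3,3,1]), (37,[3,3,0]), (92,[0,0,2,0]), (87,[3,3,0]), (29,[0,0,5]), (102,[0,4,2,5]), (131,[5]), (48,[0,0,5]), (87,[5,5]), (87,[3,3,0,5]), (37,[3,3,1]), (131,[4]), (37,[0,0,2,0]), (37,[0,4,2,5]), (5,[4,1,1]), (131,[3,3,1]), (92,[5]), (87,[0,4,2]), (102,[0,0,2,1]), (92,[4]), (87,[5])]),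
    (17,[(65,[0,4,2,5]), (29,[1,3,5]), (87,[4,4]), (33,[1,3,5]), (65,[4]), (6,[1,3,5]), (5,[1,3,5]), (76,[4]), (65,[0,4,2]), (65,[0,0,2,0]), (111,[5]), (86,[1,3,5]), (87,[4]), (76,[2,1,5]), (12,[5]), (65,[5]), (17,[2,0]), (17,[4]), (76,[4,4]), (65,[2,1,5]), (111,[2,1,5]), (76,[5]), (111,[0,0,2,0]), (76,[5,5]), (48,[0,2,2,4]), (111,[4]), (48,[1,3,5]), (17,[4,4]), (111,[0,4,2]), (111,[2,0]), (12,[5,5]), (86,[0,2,2,4]), (111,[0,4,2,5]), (76,[0,4,2])]),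
    (12,[]),
    (17,[(37,[4]), (5,[0,0,5]), (87,[4,4]), (33,[1,3,5]), (65,[4]), (33,[0,0,5]), (6,[0,0,5]), (131,[1,3,0,0]), (37,[5]), (37,[0,4,2]), (86,[1,3,5]), (87,[4]), (87,[0,4,2,5]), (92,[3,3,1]), (65,[5]), (87,[3,3,0]), (111,[1,3,0,0]), (111,[3,3,1]), (48,[0,0,5]), (87,[5,5]), (87,[3,3,0,5]), (37,[3,3,1]), (131,[4]), (29,[0,0,5]), (111,[4]), (48,[1,3,5]), (131,[3,3,1]), (92,[5]), (65,[3,3,1]), (102,[0,0,2,1]), (92,[4]), (87,[5])]),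
    (19,[(121,[0,2,2,2]), (113,[0,4,2,5]), (21,[4]), (6,[2,5]), (142,[2,0,4]), (33,[0,4,0]), (86,[1,1,4,4]), (116,[0,4,2,5]), (123,[3,3,0]), (128,[5,5]), (21,[0,4,2]), (5,[2,0,4]), (101,[0,4,0]), (5,[0,4,0]), (74,[5]), (29,[2,0,4]), (47,[3,3,0,5]), (21,[4,4]), (48,[0,4,0]), (86,[0,3,3,5]), (4,[4]), (86,[0,2,2,2]), (21,[5]), (113,[3,3,0]), (110,[3,3,0,5]), (47,[0,0,2,0]), (47,[4]), (33,[2,5]), (47,[5]), (113,[5,5]), (33,[1,1,4,4]), (21,[5,5]), (91,[2]), (110,[3,3,0]), (121,[1,1,4,4]), (101,[0,3,3,5]), (121,[0,3,3,5]), (101,[0,5,0,3]), (21,[4,4,4]), (97,[0,4,0]), (74,[3,3,0]), (97,[2,0,4]), (116,[0,4,2]), (101,[0,3,0,2]), (86,[0,3,0,2]), (47,[3,3,0]), (86,[0,5,0,3]), (29,[0,5,0,3]), (47,[0,4,2]), (6,[2,0,4]), (101,[1,1,4,4]), (116,[0,0,2,0]), (21,[0,0,2,0]), (21,[0,4,2,5]), (123,[5,5]), (33,[0,2,2,2]),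 (123,[5]), (142,[1,1,4,4]), (123,[3]), (4,[4,4]), (5,[2,5]), (74,[5,5]), (113,[0,0,2,0]), (33,[2,4]), (116,[3,3,0,5]), (5,[0,5,0,3]), (33,[0,3,0,2]), (97,[1,1,4,4]), (128,[3,3,0,5]), (128,[1,3,1,1]), (29,[2,5]), (47,[4,4]), (74,[4,4,4]), (123,[0,4,2,5]), (74,[0,0,2,0]), (29,[0,2,2,2]), (33,[0,3,3,5]), (29,[0,3,3,5]), (128,[0,4,2]), (6,[0,4,0]), (133,[0,4,0]), (97,[0,3,0,2]), (29,[0,4,0]), (78,[4,1,5]), (116,[3,3,0]), (123,[1,3,1,1]), (113,[4,4,4]), (48,[2,0,4]), (86,[2,5]), (4,[3,3,0]), (128,[4]), (133,[2,5]), (47,[5,5]), (113,[5]), (6,[0,5,0,3]), (47,[1,3,1,1]), (101,[2,5]), (21,[3,3,0]), (3,[0,5,0,3]), (33,[2,0,4]), (121,[0,3,0,2]), (74,[4,4]), (133,[2]), (110,[4,4,4]), (74,[4]), (97,[0,2,2,2]), (110,[5]), (6,[0,3,0,2]), (5,[1,1,4,4]), (47,[0,4,2,5]), (48,[0,2,2,2]), (86,[2,0,4]), (116,[5]),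 (74,[0,4,2,5]), (48,[2,5]), (48,[0,5,0,3]), (47,[4,4,4]), (121,[2,0,4]), (5,[0,2,2,2]), (5,[0,3,0,2]), (74,[3]), (110,[5,5]), (6,[1,1,4,4]), (110,[4,4])]),
    (19,[(99,[0,4,2,5]), (5,[3,0,4]), (5,[3,4]), (24,[5]), (121,[2,2,2]), (5,[2,4,1]), (77,[5,5]), (5,[5,0,4]), (84,[1,3,1,1]), (77,[0,4,2,5]), (52,[4,4,4]), (33,[2,2,2]), (6,[2,4,1]), (33,[2,4,1]), (77,[3,3,0]), (82,[4,4]), (52,[5]), (52,[0,4,2,5]), (84,[3,3,0]), (84,[5]), (6,[3,0,4]), (24,[5,5]), (84,[3,3,0,5]), (101,[3,0,4]), (29,[3,4]), (99,[5]), (79,[5]), (121,[5,0,4]), (79,[4,4,4]), (142,[2,0,2,5]), (121,[3,0,2]), (25,[2,4,1]), (29,[2,0,2,5]), (33,[3,0,2]), (33,[3,0,4]), (24,[0,4,2]), (24,[4,4]), (52,[0,4,2]), (48,[2,4,1]), (77,[5]), (77,[4,4,4]), (79,[5,5]), (48,[3,4]), (52,[3,3,0]), (139,[4,4]), (33,[0,5,3]), (121,[0,5,3]), (99,[5,5]),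 (48,[2,2,2]), (97,[3,0,2]), (86,[2,0,2,5]), (33,[3,4]), (52,[4,4]), (84,[0,4,2]), (139,[3,3,0]), (84,[0,0,2,0]), (5,[3,0,2]), (29,[0,5,3]), (59,[0,5,0,3]), (24,[4]), (142,[5,0,4]), (29,[3,0,2]), (29,[3,0,4]), (6,[2,0,2,5]), (79,[0,0,2,0]), (101,[0,5,3]), (139,[3,3,0,5]), (82,[1,3,1,1]), (82,[4,4,4]), (82,[4]), (133,[5,0,4]), (97,[2,2,2]), (52,[1,3,1,1]), (99,[1,3,1,1]), (84,[5,5]), (77,[4,4]), (101,[2,4,1]), (29,[2,4,1]), (24,[4,4,4]), (52,[0,0,2,0]), (42,[3]), (33,[5,0,4]), (133,[2,4,1]), (99,[4,4]), (97,[3,4]), (6,[2,2,2]), (6,[3,4]), (82,[3,3,0,5]), (86,[5,0,4]), (79,[4,4]), (48,[0,5,3]), (142,[0,5,3]), (86,[3,4]), (48,[5,0,4]), (99,[4]), (142,[3,5]), (5,[0,5,3]), (134,[1,3,4,1]), (5,[2,2,2]), (42,[2]), (79,[0,4,2]), (82,[0,4,2]), (84,[4,4]), (121,[3,4]), (97,[2,0,2,5]), (48,[3,0,2]),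 (139,[4,4,4]), (25,[3,0,2]), (52,[4]), (142,[3,0,2]), (6,[0,5,3]), (97,[3,5]), (77,[0,0,2,0]), (29,[2,2,2]), (84,[4]), (82,[5,5]), (97,[5,0,4]), (79,[4]), (142,[2,2,2]), (77,[4,2]), (139,[4,2]), (133,[0,5,3]), (77,[4]), (142,[3,4])]),
    (12,[]),
    (19,[(10,[5]), (5,[5,1]), (31,[0,4,2]), (48,[0,4]), (65,[0,4,2,5]), (101,[0,0,2,5]), (5,[0,4]), (6,[0,4]), (21,[5,0,4]), (10,[5,5]), (33,[1,3,5]), (33,[0,4]), (65,[4]), (5,[1,2,1,1]), (101,[1,2,1,1]), (6,[1,3,5]), (10,[4,4]), (1,[1,2,1]), (85,[0,0,2,0]), (31,[0,0,2,0]), (85,[4]), (133,[5,1]), (10,[4]), (48,[0,4,4]), (48,[0]), (104,[0,0,2,0]), (29,[5,1]), (101,[0,4,4]), (10,[0,4,2,5]), (133,[0,4]), (31,[5,5]), (49,[5,1]), (65,[0,4,2]), (65,[0,0,2,0]), (133,[1,2,1]), (111,[5]), (33,[5,1]), (6,[5,1]), (48,[0,5,5]), (5,[0,5,5]), (85,[5]), (86,[1,3,5]),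 (58,[5,1]), (31,[5]), (85,[1,3,1,1]), (1,[5,1]), (33,[0,5,5]), (133,[0,5,5]), (53,[0,0,2,0]), (99,[0,2,5]), (29,[0,4]), (21,[1,3,0,5]), (85,[0,4,2]), (130,[0,0,2,0]), (93,[0,0,2,0]), (133,[0]), (134,[0,4,2,5]), (65,[5]), (1,[3,0,5]), (101,[0,4]), (31,[4,4]), (135,[1,3,5,0]), (101,[5,1]), (101,[1,2,1]), (93,[5]), (48,[1,3,4,1]), (58,[1,3,5]), (10,[0,2,5]), (58,[1,2,1,1]), (5,[1,3,5]), (4,[0,0,2]), (86,[0,4]), (31,[4]), (135,[2,4,1]), (93,[4,4]), (99,[5,0,4]), (93,[0,4,2,5]), (48,[5,1]), (29,[1,3,5]), (86,[0,0,2,5]), (121,[0,0,2,5]), (58,[1,3,5,0]), (104,[0,4,2]), (111,[0,0,2,0]), (48,[0,0,2,5]), (53,[0,4,2,5]), (86,[0,4,4]), (34,[2,4,1]), (133,[0,4,4]), (48,[0,2,2,4]), (48,[4,1,2]), (86,[0,5,5]), (101,[0,5,5]), (93,[4]), (86,[4,1,2]), (10,[0,0,2,0]), (121,[0]), (111,[4]), (86,[0,5]), (93,[5,5]),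 (48,[1,3,5]), (85,[5,5]), (142,[0,4,4]), (6,[1,2,1]), (99,[1,3,0,5]), (142,[0]), (49,[3,0,5]), (29,[0,5,5]), (53,[3,3,0]), (111,[0,4,2]), (6,[0,5,5]), (49,[0,2,2,4]), (47,[0,4,0]), (79,[2,5]), (86,[0,2,2,4]), (111,[0,4,2,5]), (101,[0]), (27,[1,3,1,1]), (29,[1,2,1]), (121,[0,5,5]), (135,[1,2,1]), (121,[0,4,4])]),
    (19,[(33,[0,4,0,3]), (113,[0,4,2,5]), (5,[3,4]), (24,[5]), (65,[0,4,2,5]), (24,[0,0,2,0]), (33,[3,4]), (48,[3,4]), (59,[0,4,4]), (48,[3]), (48,[3,5,5]), (33,[1,3,5]), (3,[1,3,1,1]), (65,[4]), (96,[3,3,0]), (96,[0,0,2,0]), (6,[1,3,5]), (29,[3,4]), (28,[4,2]), (101,[0,3,5,3]), (133,[0,3,5,3]), (3,[5]), (3,[3,3,0]), (90,[0,0,2,0]), (24,[5,5]), (101,[0,2,2,2]), (96,[0,4,2]), (6,[0,2,2,2]), (3,[0,4,2]), (120,[0,0,2,0]), (24,[0,4,2]), (142,[0,2,5]), (96,[4]), (65,[0,4,2]), (65,[0,0,2,0]),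 (110,[3,3,0]), (111,[5]), (90,[0,4,2,5]), (24,[4,4]), (3,[4,4]), (110,[2]), (86,[1,3,5]), (118,[2]), (120,[2]), (101,[3,5,5]), (86,[0,3,0,2]), (142,[0,3,0]), (6,[0,3,0]), (90,[1,3,1,1]), (133,[3,5,5]), (6,[3,4]), (100,[4,2]), (42,[0,2,2,2]), (6,[0,3,5,3]), (101,[0,4,0,3]), (101,[3,4]), (33,[0,2,2,2]), (5,[2,0,2,5]), (65,[5]), (24,[4]), (110,[0,0,2,0]), (17,[2,0]), (113,[0,0,2,0]), (86,[0,3,5,3]), (5,[0,4,0,3]), (120,[5,5]), (6,[3,5,5]), (139,[2]), (25,[3]), (5,[1,3,5]), (59,[4,2]), (96,[5]), (3,[0,0,2,0]), (42,[0,3,0,2]), (29,[0,3,5,3]), (76,[5]), (29,[0,2,2,2]), (133,[0,2,5]), (3,[3,3,0,5]), (29,[1,3,5]), (24,[0,4,2,5]), (24,[3,3,0]), (5,[3,5,5]), (111,[0,0,2,0]), (86,[3]), (96,[0,4,2,5]), (121,[0,3,5,3]), (4,[0,2,5]), (133,[3]), (48,[0,2,2,4]), (120,[4]), (28,[5,3,4]), (96,[4,4]), (118,[0,0,2,0]),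 (86,[3,4]), (110,[4]), (101,[4,4,2]), (111,[4]), (86,[3,5,5]), (48,[1,3,5]), (42,[1,3,5]), (120,[4,4]), (4,[1,4,0]), (110,[5]), (65,[2]), (33,[3,5,5]), (111,[0,4,2]), (111,[2]), (96,[5,5]), (41,[3,4]), (4,[0,3,0]), (100,[5,3,4]), (86,[0,2,2,4]), (101,[3]), (29,[0,3,0]), (4,[0,3,0,2]), (111,[0,4,2,5]), (5,[0,2,2,2]), (29,[3,5,5]), (110,[5,5]), (4,[1,2,4]), (110,[4,4])]),
    (17,[(5,[0,3,5]), (46,[4]), (57,[4]), (5,[2,0,4]), (74,[5]), (48,[0,3,5]), (33,[1,1,5]), (74,[0,0]), (33,[3,0,2]), (46,[4,4]), (57,[4,4]), (48,[2,1,4]), (80,[0,0]), (48,[1,1,5]), (75,[5,5]), (46,[5]), (46,[0,0]), (29,[0,3,5]), (57,[5,5]), (77,[0,0]), (33,[2,0,4]), (74,[4,4]), (29,[1,1,5]), (5,[1,1,5]), (6,[0,3,5]), (75,[4]), (33,[0,3,5]), (46,[5,5])]),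
    (17,[(6,[2,1]), (56,[5]), (48,[2,1]), (33,[0,0,5]), (5,[0,3]), (37,[0,4,2]), (9,[4]), (9,[5]), (6,[0,3]), (65,[5]), (48,[1,1,4]), (18,[4]), (18,[5]), (9,[4,4]), (5,[2,1]), (29,[0,3]), (9,[5,5]), (29,[0,0,5]), (86,[2,1]), (48,[1,3,5]), (33,[0,3]), (56,[4]), (18,[4,4]), (29,[2,1])]),
    (17,[]),
    (19,[(10,[5]), (16,[4]), (20,[5]), (24,[5]), (6,[2,1]), (10,[5,5]), (56,[5]), (6,[5,3]), (48,[2,1]), (16,[4,4]), (33,[0,0,5]), (5,[0,4]), (29,[0,2]), (24,[5,5]), (16,[5]), (29,[3,4]), (33,[4,0]), (31,[5,5]), (29,[2,4]), (5,[0,3]), (5,[2,4]), (37,[0,4,2]), (8,[4]), (8,[5]), (24,[4,4]), (20,[4]), (29,[1,5]), (9,[4]), (9,[5]), (6,[1,5]), (10,[4]), (8,[0,4,2]), (19,[4]), (6,[0,3]), (10,[4,4]), (19,[5]), (32,[5]), (33,[2,2]), (65,[5]), (6,[2,4]), (32,[4,4]), (29,[4,0]), (48,[1,1,2]), (32,[5,5]),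 (48,[1,1,4]), (18,[4]), (18,[5]), (9,[4,4]), (33,[5,3]), (6,[0,2]), (5,[2,1]), (6,[2,2]), (29,[0,3]), (5,[4,0]), (6,[3,3]), (9,[5,5]), (23,[4]), (5,[0,2]), (26,[5]), (5,[1,5]), (5,[2,2]), (6,[0,4]), (6,[3,4]), (29,[0,0,5]), (48,[5,3]), (33,[1,1,2]), (6,[1,3,0]), (86,[5,3]), (86,[2,1]), (29,[1,1,3]), (48,[1,3,5]), (85,[5,5]), (23,[0,4,2]), (16,[0,4,2]), (50,[5]), (19,[4,4]), (33,[0,3]), (6,[0,5,5]), (48,[1,2,5]), (56,[4]), (18,[4,4]), (29,[0,4]), (29,[3,3]), (29,[2,1]), (48,[4,0]), (5,[0,5,0]), (86,[1,1,2]), (69,[0,4,2])]),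
    (19,[])]
def js34c13 : List (ℕ × List (ℕ × List ℕ)) := [
    (13,[]),
    (13,[]),
    (18,[(10,[3,4]), (85,[3,4]), (93,[3,4]), (85,[2,0,2,5]), (24,[5,1]), (139,[1,3,4,1]), (10,[2,0,2,5]), (139,[4,1,2]), (130,[3,4]), (8,[5,1]), (139,[0,5,5]), (130,[2,0,2,5]), (24,[3,0,5]), (24,[0,4]), (24,[0,0,2,5]), (139,[0,4]), (104,[3,4]), (24,[4,1,2]), (93,[2,0,2,5]), (24,[4,4,4]), (53,[2,2]), (24,[1,3,5]), (134,[3,4]), (139,[0,2]), (104,[2,0,2,5]), (24,[1,2,1,1]), (24,[0,2,2,4]), (111,[2,0,2,5]), (97,[2,0,2,5]), (31,[3,4]), (65,[3,4]), (24,[0,5,5]), (56,[1,1,4]), (134,[2,0,2,5])]),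
    (19,[(74,[0,4]), (104,[2,5,1]), (31,[2,0,4]), (41,[0,0,2,5]), (74,[5,1]), (10,[2,0,4]), (41,[1,3,4,1]), (41,[0,4]), (74,[1,3,5]), (97,[1,4,0,2]), (53,[2,0,4]), (3,[1,3,1]), (136,[1,4,0,2]), (74,[4,1,2]), (74,[4,4,4]), (111,[2,4,2]), (41,[3,0,5]), (128,[0,2,2,4]), (74,[0,5,5]), (71,[1,4,0,2]), (62,[0,2,5]), (65,[1,1,4,4]), (4,[1,3,1]), (3,[2]), (71,[1,3,1]), (4,[1,3,5]), (74,[3,0,5]), (83,[2]), (4,[3]), (74,[0,2,5]), (53,[1,1,4,4]), (81,[0,5]), (85,[2,0,4]), (128,[0,5,5]), (41,[0,5,5]), (62,[1,3,5]), (41,[0,2,5]), (41,[4,1,2]), (4,[4,1,2]), (74,[0,0,2,5]), (104,[2]), (71,[3,0,3]), (128,[4,1,2]), (128,[1,3,5]), (27,[0,0,2,5]), (4,[4,4,4]), (41,[1,3,5]), (4,[0,5,5]), (4,[0,0,2,5]), (97,[2,0,4]), (111,[2,5,1]), (4,[5,1]), (74,[1,3,4,1]), (3,[1,5,3]), (104,[2,0,4]), (41,[1,2,1,1]), (74,[1,3,1]),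 (81,[3,0,3]), (41,[3]), (128,[4,4,4]), (97,[2,5,1]), (62,[0,2,2,4]), (93,[2,0,4]), (78,[2,4,0]), (81,[2,5,1]), (74,[1,2,1,1]), (62,[0,4]), (136,[3]), (71,[1,5,3]), (62,[3]), (65,[2,0,4]), (4,[1,3,0,0]), (62,[4,4,4]), (31,[1,1,4,4]), (104,[1,1,4,4]), (97,[1,1,4,4]), (131,[4,4,4]), (97,[2,4,2]), (4,[1,3,4,1]), (136,[1,3,0,0]), (4,[0,4]), (131,[0,2,2,4]), (111,[1,1,4,4]), (10,[1,1,4,4]), (41,[4,4,4]), (41,[1,3,1]), (128,[0,0,2,5]), (71,[2,5,1]), (93,[1,1,4,4]), (62,[3,0,5]), (46,[0,2,5]), (4,[0,2,5]), (41,[5,1]), (128,[1,3,1]), (81,[1,3,1]), (111,[2,0,4]), (131,[0,0,2,5]), (78,[4,4,4]), (80,[1,5,3]), (104,[0,5]), (136,[2,5,1]), (81,[1,3,0,0]), (131,[0,2,5]), (62,[4,1,2]), (41,[1,3,0,0]), (97,[0,5]), (83,[2,5,1]), (136,[2]), (93,[2,4,2]), (62,[1,3,1]), (71,[3]), (35,[0,0,3]), (4,[1,2,1,1]), (128,[1,2,1,1]),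 (41,[0,2,2,4]), (62,[5,1]), (74,[0,2,2,4]), (111,[2]), (128,[5,1]), (81,[1,5,3]), (4,[0,2,2,4]), (62,[2,4,0]), (93,[2,5,1]), (128,[1,3,4,1]), (128,[0,4]), (74,[3]), (85,[1,1,4,4]), (74,[1,3,0,0]), (4,[3,0,5]), (128,[3,0,5])]),
    (19,[(82,[1,3,4,1]), (130,[3,0,2]), (82,[1,3,5]), (104,[0,0,4]), (53,[2,2,2]), (42,[4,4,4]), (10,[2,2,2]), (70,[1,5,0]), (77,[1,3,5]), (112,[3,0,2]), (82,[0,2,2,4]), (82,[0,5,5]), (107,[0,0,4]), (77,[0,5,5]), (82,[0,4]), (62,[0,3,1,2]), (93,[0,2,2,5]), (111,[2,2,2]), (65,[2,2,2]), (76,[0,0,2,5]), (97,[0,2,2,5]), (130,[2,2,2]), (31,[3,0,2]), (65,[3,0,2]), (66,[0,3,4]), (42,[4,1,2]), (77,[3,0,5]), (25,[3,5]), (36,[0,3,1,2]), (42,[0,3,0]), (31,[2,2,2]), (66,[0,3,4,1]), (104,[0,2,2,5]), (85,[2,2,2]), (143,[2,1,5]), (82,[5,1]), (36,[5,0]), (53,[3,0,2]), (70,[0,0,2,2]),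 (65,[1,3,1]), (93,[3,0,2]), (76,[0,2,2,4]), (82,[3,0,5]), (59,[0,0,5,1]), (111,[0,2,2,5]), (134,[0,2,2,5]), (85,[3,0,2]), (59,[0,3,1,2]), (93,[2,2,2]), (76,[0,3,4]), (104,[3,0,2]), (76,[0,5,5]), (45,[5,1]), (103,[1,3,4,1]), (77,[4,4,4]), (10,[3,0,2]), (117,[5,3,4]), (66,[1,4,0]), (42,[1,5,0]), (117,[0,3,0]), (82,[0,0,2,5]), (42,[0,0,2,5]), (59,[0,2,2,5]), (62,[3,0,2]), (76,[2,1,5]), (97,[3,0,2]), (82,[4,1,2]), (77,[0,3,0]), (62,[0,3,5]), (103,[0,3,4,1]), (77,[0,2,2,4]), (62,[0,3,0]), (28,[0,0,2,0,2]), (117,[2,1,5]), (25,[0,2,2,5]), (103,[4,4,4]), (77,[4,1,2]), (93,[1,3,1]), (82,[4,4,4]), (53,[1,3,1]), (76,[1,5,0]), (97,[2,2,2]), (42,[5,3,4]), (97,[5,0]), (76,[5,3,4]), (103,[1,2,1,1]), (45,[4,4,4]), (76,[4,1,2]), (104,[2,2,2]), (62,[5,0]), (103,[0,2,2,5]), (42,[0,0,2,2]), (42,[3,0,5]), (77,[0,0,2,5]),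 (36,[1,3,1]), (82,[0,3,4]), (66,[0,2,2,5]), (70,[0,3,0]), (42,[0,5,5]), (134,[2,2,2]), (42,[2,1,5]), (134,[3,0,2]), (76,[0,3,0]), (62,[2,1,5]), (70,[2,1,5]), (111,[3,0,2]), (117,[1,5,0]), (62,[1,3,1]), (45,[0,3,4]), (114,[0,0,4]), (100,[0,3,4,1]), (85,[1,3,1]), (100,[1,4,0]), (82,[1,2,1,1]), (103,[1,4,0]), (100,[0,2,2,5]), (62,[1,5,0]), (114,[0,3,0]), (112,[0,0,4]), (76,[4,4,4]), (103,[1,3,5]), (117,[0,0,2,2]), (42,[0,2,2,4]), (93,[5,0]), (97,[1,3,1]), (107,[0,3,0]), (62,[0,0,5,1]), (76,[3,0,5]), (77,[2,1,5]), (103,[5,1])]),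
    (18,[(93,[0,2,2,2]), (53,[0,2,2,2]), (10,[0,2,2,2]), (110,[4,1,2]), (113,[0,5,5]), (110,[3,0,5]), (93,[0,3,0,2]), (110,[0,2,2,4]), (110,[1,2,1,1]), (104,[0,2,2,2]), (8,[5,1]), (110,[5,1]), (104,[0,3,0,2]), (113,[1,3,4,1]), (113,[1,2,1,1]), (113,[0,4]), (110,[0,0,2,5]), (130,[0,2,2,2]), (85,[0,3,0,2]), (10,[0,3,0,2]), (97,[0,3,0,2]), (16,[5,1]), (65,[0,2,2,2]), (31,[0,2,2,2]), (85,[0,2,2,2]), (129,[5,0,0]), (130,[0,3,0,2]), (113,[4,1,2]), (110,[4,4,4]), (113,[5,1]), (97,[0,2,2,2]), (110,[1,5]), (111,[0,3,0,2]), (110,[0,4])]),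
    (18,[(37,[0,4]), (31,[0,0,5]), (55,[0,0,2,5]), (92,[0,4]), (8,[0,2]), (85,[4,1,1]), (53,[0,0,5]), (37,[0,5,5]), (55,[4,1,2]), (10,[4,1,1]), (37,[0,0,2,5]), (85,[0,0,5]), (92,[5,1]), (10,[0,0,5]), (109,[0,5,5]), (93,[4,1,1]), (93,[0,0,5]), (92,[0,0,2,5]), (109,[1,3,4,1]), (92,[0,5,5]), (55,[1,3,4,1]), (109,[1,2,1,1]), (104,[0,2]), (37,[1,3,5]), (37,[5,1]), (92,[0,2,0,3]), (109,[3,0,5]), (109,[5,1]), (109,[4,1,2]), (37,[0,2,0,3]), (109,[0,4]), (65,[4,1,1]), (37,[1,1,3]), (109,[1,1,3])]),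
    (13,[]),
    (18,[(101,[0,0,2,5]), (31,[0,0,2,0]), (20,[1,2,1,1]), (101,[1,2,1,1]), (20,[5,1]), (85,[0,0,2,0]), (133,[5,1]), (10,[0,0,2,0]), (101,[0,2,0,3]), (104,[0,0,2,0]), (133,[0,4]), (65,[0,0,2,0]), (85,[1,3,1,1]), (133,[0,5,5]), (53,[0,0,2,0]), (109,[0,5,5]), (130,[0,0,2,0]), (93,[0,0,2,0]), (101,[0,4]), (109,[1,3,4,1]), (101,[5,1]), (133,[1,1,3]), (111,[0,0,2,0]), (133,[0,2,0,3]), (19,[0,0,2,5]), (101,[0,5,5]), (20,[4,1,2]), (109,[3,0,5]), (109,[5,1]), (109,[4,1,2]), (109,[0,0,2,5]), (109,[0,4]), (133,[2,4]), (20,[3,0,5])]),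
    (18,[(37,[0,4]), (31,[0,0,5]), (55,[0,0,2,5]), (92,[0,4]), (8,[0,2]), (85,[4,1,1]), (53,[0,0,5]), (37,[0,5,5]), (10,[0,0,5]), (101,[0,2,0,3]), (10,[4,1,1]), (37,[0,0,2,5]), (85,[0,0,5]), (92,[5,1]), (109,[0,5,5]), (93,[4,1,1]), (93,[0,0,5]), (101,[0,4]), (109,[1,3,4,1]), (92,[0,5,5]), (133,[1,1,3]), (133,[0,2,0,3]), (104,[0,2]), (37,[5,1]), (92,[0,2,0,3]), (109,[3,0,5]), (109,[5,1]), (109,[4,1,2]), (37,[0,2,0,3]), (109,[0,4]), (37,[1,1,3]), (109,[1,1,3])]),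
    (19,[(31,[0,4,0]), (21,[0,4]), (74,[5,1]), (21,[1,3,5]), (21,[5,1]), (10,[0,4,0]), (104,[2,5]), (93,[0,2,2,2]), (53,[0,2,2,2]), (74,[4,1,2]), (21,[0,0,2,5]), (97,[2,5]), (10,[0,3,3,5]), (21,[1,3,4,1]), (10,[0,2,2,2]), (65,[1,1,4,4]), (110,[4,1,2]), (113,[0,5,5]), (110,[3,0,5]), (31,[0,3,3,5]), (93,[0,3,0,2]), (110,[0,2,2,4]), (53,[1,1,4,4]), (110,[1,2,1,1]), (85,[2,0,4]), (128,[0,5,5]), (21,[3,0,5]), (31,[2,5]), (104,[0,2,2,2]), (47,[0,0,2,5]), (97,[0,3,3,5]), (74,[0,0,2,5]), (85,[0,5,0,3]), (21,[0,5,5]), (4,[4,1,5]), (128,[4,1,2]), (128,[1,3,5]), (123,[1,3,5]), (31,[2,0,4]), (116,[1,3,5]), (21,[4,4,4]), (97,[0,4,0]), (123,[4,1,2]), (97,[2,0,4]), (116,[1,3,4,1]), (65,[0,3,3,5]), (110,[5,1]), (104,[2,0,4]), (53,[2,5]), (104,[0,3,0,2]), (113,[1,3,4,1]), (113,[1,2,1,1]), (128,[4,4,4]), (111,[0,4,0]),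 (65,[0,5,0,3]), (113,[0,4]), (110,[0,0,2,5]), (53,[2,0,4]), (65,[2,5]), (104,[0,4,0]), (93,[1]), (130,[0,2,2,2]), (85,[0,3,0,2]), (10,[0,3,0,2]), (2,[5,0]), (74,[0,5,5]), (116,[0,2,2,4]), (104,[1,1,4,4]), (97,[1,1,4,4]), (123,[0,5,5]), (2,[0,2,2,2]), (93,[2,0,4]), (85,[0,3,3,5]), (74,[4,4,4]), (65,[0,4,0]), (134,[1]), (74,[3,0,5]), (53,[0,4,0]), (116,[4,1,2]), (111,[1,1,4,4]), (47,[1,3,5]), (47,[0,2,2,4]), (97,[0,3,0,2]), (104,[0,5,0,3]), (71,[2,5,1]), (111,[2,5]), (65,[0,2,2,2]), (31,[0,2,2,2]), (47,[0,5,5]), (111,[1]), (10,[2,5]), (121,[0,4,2,5]), (47,[5,1]), (21,[0,2,2,4]), (116,[1,2,1,1]), (130,[0,3,0,2]), (111,[0,3,3,5]), (116,[5,1]), (113,[4,1,2]), (93,[0,3,3,5]), (134,[0,3,3,5]), (47,[3,0,5]), (30,[0,0,2,5]), (110,[4,4,4]), (113,[5,1]), (97,[0,2,2,2]), (128,[1,2,1,1]), (130,[0,5,0,3]),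 (74,[0,2,2,4]), (47,[0,4]), (128,[5,1]), (85,[0,2,2,2]), (65,[2,0,4]), (10,[0,5,0,3]), (121,[5]), (47,[4,4,4]), (74,[1,3,5]), (128,[1,3,4,1]), (128,[0,4]), (111,[0,3,0,2]), (123,[0,0,2,5]), (110,[0,4]), (93,[2,5]), (128,[3,0,5])]),
    (19,[(65,[3,0,4]), (52,[0,2,2,4]), (134,[5,0,4]), (84,[5,1]), (99,[1,2,1,1]), (10,[3,0,4]), (10,[0,5,3]), (10,[3,4]), (85,[3,4]), (65,[2,4,1]), (111,[2,2,2]), (31,[0,5,3]), (85,[2,4,1]), (79,[1,3,5]), (93,[3,4]), (52,[0,5,5]), (85,[2,0,2,5]), (24,[5,1]), (139,[1,3,4,1]), (79,[0,5,5]), (52,[5,1]), (10,[2,0,2,5]), (77,[3,0,5]), (139,[4,1,2]), (52,[1,3,5]), (93,[3,0,2]), (93,[3,0,4]), (65,[0,5,3]), (130,[3,4]), (53,[2,4,1]), (10,[2,4,1]), (85,[3,0,2]), (82,[1,3,5]), (8,[5,1]), (93,[2,2,2]), (104,[3,0,4]), (99,[4,1,2]), (99,[0,4]), (53,[2,2,2]), (79,[0,4]), (84,[4,4,4]),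 (79,[5,1]), (77,[4,4,4]), (53,[3,0,4]), (84,[0,4]), (130,[2,4,1]), (139,[0,5,5]), (82,[0,0,2,5]), (130,[2,0,2,5]), (24,[3,0,5]), (24,[0,4]), (97,[3,0,2]), (85,[3,0,4]), (82,[3,0,5]), (24,[0,0,2,5]), (139,[0,4]), (77,[0,5,5]), (134,[0,5,3]), (77,[0,2,2,4]), (31,[3,0,2]), (104,[3,4]), (24,[4,1,2]), (93,[2,0,2,5]), (10,[2,2,2]), (111,[3,0,4]), (84,[1,2,1,1]), (77,[4,1,2]), (19,[3,0,4]), (82,[4,4,4]), (65,[2,2,2]), (99,[0,2,2,4]), (97,[2,2,2]), (31,[3,0,4]), (111,[0,5,3]), (84,[0,5,5]), (99,[0,0,2,5]), (99,[1,3,4,1]), (99,[0,5,5]), (24,[4,4,4]), (111,[5,0,4]), (53,[2,2]), (79,[0,2,2,4]), (53,[0,5,3]), (24,[1,3,5]), (134,[3,4]), (10,[3,0,2]), (139,[0,2]), (52,[4,1,2]), (53,[3,0,2]), (84,[0,2,2,4]), (104,[2,0,2,5]), (82,[0,5,5]), (99,[1,3,5]), (24,[1,2,1,1]), (24,[0,2,2,4]), (77,[1,3,5]), (111,[2,0,2,5]),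 (82,[0,4]), (52,[0,4]), (93,[2,4,1]), (31,[2,2,2]), (97,[2,0,2,5]), (31,[3,4]), (65,[3,4]), (130,[0,5,3]), (95,[0,3,1,3]), (79,[4,1,2]), (65,[5,0,4]), (93,[5,0,4]), (31,[5,0,4]), (93,[2,0]), (99,[0,2]), (24,[0,5,5]), (79,[3,0,5]), (97,[5,0,4]), (56,[1,1,4]), (97,[3,0,4]), (93,[0,5,3]), (111,[4,1]), (19,[0,3,1,3]), (84,[1,3,5]), (134,[2,0,2,5]), (84,[4,1,2]), (85,[2,2,2])]),
    (19,[(10,[5]), (5,[5,1]), (31,[0,4,2]), (48,[0,4]), (65,[0,4,2,5]), (101,[0,0,2,5]), (5,[0,4]), (6,[0,4]), (21,[5,0,4]), (10,[5,5]), (33,[1,3,5]), (33,[0,4]), (65,[4]), (5,[1,2,1,1]), (101,[1,2,1,1]), (6,[1,3,5]), (10,[4,4]), (1,[1,2,1]), (85,[0,0,2,0]), (31,[0,0,2,0]), (85,[4]), (133,[5,1]), (10,[4]), (48,[0,4,4]), (48,[0]), (104,[0,0,2,0]), (29,[5,1]), (101,[0,4,4]), (10,[0,4,2,5]), (133,[0,4]), (31,[5,5]), (49,[5,1]),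 (65,[0,4,2]), (65,[0,0,2,0]), (133,[1,2,1]), (111,[5]), (33,[5,1]), (6,[5,1]), (48,[0,5,5]), (5,[0,5,5]), (85,[5]), (86,[1,3,5]), (58,[5,1]), (31,[5]), (85,[1,3,1,1]), (1,[5,1]), (33,[0,5,5]), (133,[0,5,5]), (53,[0,0,2,0]), (99,[0,2,5]), (29,[0,4]), (21,[1,3,0,5]), (85,[0,4,2]), (130,[0,0,2,0]), (93,[0,0,2,0]), (133,[0]), (134,[0,4,2,5]), (65,[5]), (1,[3,0,5]), (101,[0,4]), (31,[4,4]), (135,[1,3,5,0]), (101,[5,1]), (101,[1,2,1]), (93,[5]), (48,[1,3,4,1]), (58,[1,3,5]), (10,[0,2,5]), (58,[1,2,1,1]), (5,[1,3,5]), (4,[0,0,2]), (86,[0,4]), (31,[4]), (135,[2,4,1]), (93,[4,4]), (99,[5,0,4]), (93,[0,4,2,5]), (48,[5,1]), (29,[1,3,5]), (86,[0,0,2,5]), (121,[0,0,2,5]), (58,[1,3,5,0]), (104,[0,4,2]), (111,[0,0,2,0]), (48,[0,0,2,5]), (53,[0,4,2,5]), (86,[0,4,4]), (34,[2,4,1]), (133,[0,4,4]), (48,[0,2,2,4]),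 (48,[4,1,2]), (86,[0,5,5]), (101,[0,5,5]), (93,[4]), (86,[4,1,2]), (10,[0,0,2,0]), (121,[0]), (111,[4]), (86,[0,5]), (93,[5,5]), (48,[1,3,5]), (85,[5,5]), (142,[0,4,4]), (6,[1,2,1]), (99,[1,3,0,5]), (142,[0]), (49,[3,0,5]), (29,[0,5,5]), (53,[3,3,0]), (111,[0,4,2]), (6,[0,5,5]), (49,[0,2,2,4]), (47,[0,4,0]), (79,[2,5]), (86,[0,2,2,4]), (111,[0,4,2,5]), (101,[0]), (27,[1,3,1,1]), (29,[1,2,1]), (121,[0,5,5]), (135,[1,2,1]), (121,[0,4,4])]),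
    (13,[]),
    (18,[(10,[3,4]), (85,[3,4]), (93,[3,4]), (96,[0,4]), (24,[5,1]), (90,[0,5,5]), (10,[3,5,5]), (90,[0,4]), (85,[4,4,2]), (90,[0,2]), (96,[3,0,5]), (104,[0,3,0,2]), (24,[3,0,5]), (24,[0,4]), (24,[0,0,2,5]), (90,[4,1,2]), (31,[4,4,2]), (31,[3,5,5]), (93,[3,5,5]), (113,[0,2]), (90,[3,0,5]), (139,[0,2]), (104,[3,5,5]), (113,[4,1,2]), (31,[3,4]), (24,[0,5,5]), (118,[0,2]), (85,[3,5,5])]),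
    (19,[(46,[0,5,5]), (93,[1,1,5]), (74,[5,1]), (10,[2,0,4]), (53,[0,3,5]), (41,[1,3,4,1]), (46,[0,4]), (53,[1,2,1]), (46,[1,3,5]), (101,[0,0,2,5]), (10,[0,3,5]), (51,[0,2,5]), (57,[0,4]), (111,[2,2,2]), (58,[0]), (80,[1,3,5]), (53,[2,4,2]), (101,[1,2,1,1]), (111,[2,1,4]), (1,[1,2,1]), (85,[0,0,2,0]), (31,[0,0,2,0]), (46,[5,1]), (59,[1,3,1,1]), (59,[0,0,2,0]), (133,[5,1]), (51,[1,2,1]), (75,[5,1]), (104,[0,0,2,0]), (85,[2,0,4]), (93,[3,0,2]), (134,[1,2,1]), (82,[5,1]), (133,[0,4]), (58,[0,5,1]), (10,[1,1,5]), (101,[0,2,4]), (85,[3,0,2]), (82,[1,3,5]), (65,[0,0,2,0]), (31,[2,4,2]), (80,[0,2,2,4]), (53,[2,2,2]), (58,[0,0,2,0]), (111,[1,2,1]), (65,[3,0,2]), (65,[1,2,1]), (104,[1,2,4]), (57,[0,5,5]), (85,[1,3,1,1]), (57,[0,2,5]), (133,[0,5,5]), (53,[0,0,2,0]), (51,[1,2,4]), (130,[0,0,2,0]),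 (93,[0,0,2,0]), (31,[0,3,5]), (80,[0,0,2,5]), (75,[1,3,5]), (53,[1,1,5]), (101,[0,4]), (51,[1,3,1]), (101,[5,1]), (10,[2,2,2]), (74,[0,5,5]), (85,[2,1,4]), (75,[0,4]), (65,[2,2,2]), (93,[2,0,4]), (31,[1,1,5]), (103,[0,5,5]), (74,[0,4]), (57,[5,1]), (104,[1,2,1]), (130,[1,2,4]), (65,[2,1,4]), (93,[2,1,4]), (104,[2,2,2]), (41,[1,3,1]), (128,[0,0,2,5]), (111,[0,0,2,0]), (10,[2,1,4]), (77,[0,0,2,5]), (59,[2,0,4]), (62,[1,2,1]), (53,[1,2,4]), (75,[0,5,5]), (65,[0,3,5]), (104,[2,4,2]), (101,[0,5,5]), (82,[0,5,5]), (85,[1,1,5]), (10,[0,0,2,0]), (58,[1,1,5]), (77,[1,3,5]), (59,[1,1,5]), (82,[0,4]), (65,[1,1,5]), (58,[1,3,1,1]), (31,[2,2,2]), (62,[1,3,1]), (41,[1,2,1]), (128,[0,2,4]), (85,[3,0,3]), (93,[0,3,5]), (111,[1,2,4]), (75,[0,0,2,5]), (57,[1,3,5]), (65,[1,2,4]), (53,[2,1,4]), (83,[0]), (65,[2,0,4]),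 (58,[2,1,4]), (130,[1,2,1]), (74,[1,3,5]), (80,[0,5,5]), (80,[4,1,2]), (62,[1,2,4]), (31,[2,1,4]), (59,[0,5]), (103,[5,1]), (10,[2,4,2])]),
    (18,[(37,[0,4]), (92,[0,4]), (56,[0,4]), (18,[0,4]), (37,[0,5,5]), (9,[0,5,5]), (9,[5,1]), (31,[0,3]), (85,[0,0,5]), (53,[1,4,2]), (31,[0,0,5]), (56,[0,5,5]), (9,[3,0,5]), (85,[0,3]), (10,[2,1]), (9,[0,4]), (18,[5,1]), (37,[5,1]), (10,[0,0,5]), (18,[3,0,5]), (53,[2,1]), (31,[2,1]), (10,[0,3]), (31,[1,1,4])]),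
    (19,[(10,[5]), (5,[5,1]), (31,[0,4,2]), (48,[0,4]), (37,[0,4]), (31,[1,3]), (33,[0,4]), (12,[0,4]), (92,[0,4]), (56,[0,4]), (18,[0,4]), (5,[0,4]), (85,[4]), (37,[0,5,5]), (9,[0,5,5]), (10,[2,0]), (9,[5,1]), (29,[5,1]), (14,[5,1]), (31,[0,0]), (31,[0,3]), (31,[5,5]), (85,[3,0,2]), (31,[2,4,2]), (33,[5,1]), (6,[5,1]), (12,[5,1]), (45,[5,1]), (53,[0,2,2]), (31,[5]), (10,[4]), (85,[0,0,5]), (36,[0,4]), (33,[0,5,5]), (53,[1,4,2]), (31,[0,0,5]), (10,[4,4]), (46,[5,1]), (56,[0,5,5]), (9,[3,0,5]), (31,[0,3,5]), (14,[0,4]), (7,[0,4]), (85,[0,3]), (10,[2,1]), (10,[2,2,2]), (10,[0,2,2]), (17,[5,1]), (53,[2,0]), (86,[0,4]), (31,[4]), (31,[0,2,2]), (14,[0,5,5]), (48,[5,1]), (31,[2,0]), (10,[1,1]), (9,[0,4]), (39,[0,4]), (17,[0,4]), (10,[0,0]), (18,[5,1]), (6,[0,4]), (31,[0,3,4]), (10,[0,3,4]), (53,[2,1,5]),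 (37,[5,1]), (7,[5,1]), (85,[1,1,5]), (10,[0,0,5]), (18,[3,0,5]), (53,[2,1]), (82,[0,4]), (85,[5,5]), (31,[1,1]), (31,[2,1]), (10,[0,3]), (93,[0,3,5]), (29,[0,5,5]), (64,[0,4]), (10,[0,0,4]), (53,[2,1,4]), (29,[0,4]), (31,[4,4]), (39,[5,1]), (53,[3,3,1]), (31,[1,1,4]), (31,[2,1,4]), (31,[2,1,5])]),
    (18,[]),
    (19,[])]
def js34c14 : List (ℕ × List (ℕ × List ℕ)) := [
    (14,[]),
    (14,[]),
    (14,[]),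
    (19,[(74,[4,4,2]), (43,[1,1,4,4]), (74,[1,3,5]), (90,[1,4,0,2]), (24,[2,0,4]), (74,[2,0,2,5]), (3,[3,4]), (3,[2,0,2,5]), (97,[1,4,0,2]), (96,[2,0,4]), (59,[1,2,4]), (136,[1,4,0,2]), (74,[3,4]), (72,[1,4,0,2]), (96,[0,3,1]), (3,[0,3,5,3]), (90,[1,1,4,4]), (128,[0,2,2,4]), (74,[3,5,5]), (103,[1,1,4,4]), (3,[1,2,4]), (65,[1,1,4,4]), (65,[2,0,4]), (131,[1,3,0,0]), (3,[2]), (59,[2]), (113,[1,1,4,4]), (128,[0,3,5,3]), (97,[2,0,4]), (46,[1,2,4]), (131,[3,4]), (90,[2,0,4]), (44,[1,3,0,0]), (74,[4,4,4]), (80,[0,3,1]), (3,[1,3,5]), (131,[1,4,0,2]), (111,[0,3,1]), (74,[2]), (43,[1,4,0,2]), (3,[3,5,5]), (120,[1,1,4,4]), (118,[2,0,2]), (80,[1,4,0,2]), (74,[0,2,2,4]), (80,[1,1,2,0]), (24,[1,1,2,0]), (128,[1,3,5]), (74,[0,4,0,3]), (128,[3,4]), (128,[0,4,0,3]), (118,[0,3,1]), (74,[0,3,0,2]), (65,[1,1,2,0]),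 (24,[1,1,4,4]), (128,[0,3,3]), (131,[2,0,2,5]), (97,[0,3,1]), (111,[2,0,4]), (102,[2]), (131,[1,2,4]), (120,[2,0,4]), (126,[2]), (102,[1,3,0,0]), (128,[4,4,4]), (118,[2,0,4]), (103,[1,4,0,2]), (103,[2,4,2]), (59,[0,2,2,4]), (139,[1,1,4,4]), (46,[1,4,0,2]), (131,[3,5,5]), (136,[0,3,3]), (46,[1,3,0,0]), (74,[1,2,4]), (96,[1,1,2,0]), (131,[0,3,1]), (96,[1,4,0,2]), (97,[1,1,4,4]), (131,[4,4,4]), (44,[0,3,1]), (46,[2,0,2,5]), (120,[0,3,1]), (139,[2,0,4]), (136,[1,3,0,0]), (131,[4,4,2]), (103,[0,0,2,2]), (136,[0,3,1]), (131,[0,2,2,4]), (111,[1,1,4,4]), (128,[2,0,2,5]), (128,[3,5,5]), (3,[4,4,4]), (131,[0,3,5]), (43,[0,3,1]), (120,[1,4,0,2]), (118,[1,1,4,4]), (125,[1,1,4,4]), (120,[2,4,2]), (131,[0,4,0,3]), (103,[0,3,1]), (59,[1,3,0,0]), (44,[2,0,2,5]), (59,[0,3,5]), (96,[1,1,4,4]), (90,[2,0,2]),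 (17,[1,1,3,3]), (120,[2,0,2]), (3,[4,4,2]), (139,[0,3,1]), (74,[0,2,2,2]), (136,[2,0,2]), (80,[1,3,0,0]), (128,[1,3,0,0]), (3,[1,4,0,2]), (110,[2,0,4]), (131,[0,3,5,3]), (128,[2]), (102,[0,0,2,1]), (3,[1,3,0,0]), (74,[0,3,5,3]), (44,[1,2,4]), (131,[2]), (128,[4,4,2]), (3,[0,2,2,4]), (72,[2]), (97,[2,0,2]), (74,[1,3,0,0]), (3,[0,4,0,3]), (58,[2,0,2,5])]),
    (19,[(110,[2,2,2]), (77,[0,2,2,2]), (77,[3,5,5]), (13,[3,0,2]), (90,[3,0,2]), (13,[3,0,3]), (65,[2,2,2]), (82,[2,1,5]), (77,[1,3,5]), (112,[3,0,2]), (82,[0,2,2,4]), (82,[3,5,5]), (44,[2,2,2]), (13,[0,3,3]), (65,[3,0,2]), (13,[0,3,4]), (120,[3,0,2]), (111,[2,2,2]), (97,[0,2,2,5]), (77,[0,3,0,2]), (44,[0,2,2,5]), (82,[1,3,5]), (36,[0,0,4]), (82,[4,4,4]), (112,[2,1,4]), (24,[3,0,2]), (79,[0,3,4]), (44,[2,1,5]), (97,[1,2]), (96,[3,0,2]),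 (44,[3,0,2]), (76,[4,4,2]), (77,[4,4,2]), (140,[0,3,3]), (82,[4,4,2]), (76,[0,2,2,2]), (76,[0,2,2,4]), (113,[3,0,2]), (77,[3,4]), (112,[0,5,3]), (112,[2,4,1]), (111,[0,2,2,5]), (77,[0,4,0,3]), (90,[0,2,2,5]), (140,[2,0,3,3]), (76,[0,3,0,2]), (76,[0,3,4]), (27,[0,3,3]), (118,[0,0,4]), (27,[1,2]), (118,[3,0,2]), (77,[4,4,4]), (97,[0,3,3]), (111,[0,0,4]), (76,[0,4,0,3]), (140,[0,0,4]), (36,[1,2]), (83,[0,3,4]), (90,[2,2,2]), (52,[4,0,5]), (75,[0,3,3]), (76,[2,1,5]), (97,[3,0,2]), (45,[3,5,5]), (45,[0,4,0,3]), (140,[1,2]), (96,[2,2,2]), (135,[2,1,5]), (113,[0,0,4]), (76,[3,5,5]), (77,[0,2,2,4]), (113,[0,2,2,5]), (135,[1,1,5]), (135,[1,3,5,0]), (83,[4,0,5]), (110,[0,0,4]), (120,[2,2,2]), (52,[2,1,5]), (45,[0,3,5,3]), (36,[0,3,4]), (77,[0,3,5,3]), (97,[2,2,2]), (36,[2,4,1]), (24,[2,2,2]), (82,[0,2,2,2]),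 (105,[0,2,2,5]), (45,[1,3,5]), (45,[4,4,4]), (13,[2,1,5]), (96,[0,0,4]), (75,[0,0,4]), (112,[0,3,3]), (82,[0,3,5,3]), (65,[1,2]), (82,[0,3,4]), (77,[2,0,2,5]), (112,[3,0,4]), (79,[4,0,5]), (113,[0,3,3]), (118,[0,2,2,5]), (112,[1,2]), (13,[0,0,4]), (120,[1,2]), (82,[0,3,0,2]), (84,[2,1,5]), (110,[3,0,2]), (111,[3,0,2]), (96,[1,2]), (84,[0,3,4]), (45,[0,3,4]), (45,[0,2,2,4]), (76,[0,3,5,3]), (96,[0,3,3]), (113,[2,2,2]), (97,[0,0,4]), (82,[0,4,0,3]), (120,[0,2,2,5]), (118,[1,2]), (112,[0,0,4]), (13,[2,0,3,3]), (76,[4,4,4]), (118,[2,2,2]), (112,[0,3,4]), (36,[3,0,4]), (135,[0,2,2,2]), (45,[4,4,2]), (113,[1]), (77,[2,1,5]), (112,[0,3,5]), (36,[2,0,3,3])]),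
    (14,[]),
    (18,[(96,[0,0,5]), (37,[3,5,5]), (118,[2,4]), (24,[0,0,5]), (92,[1,5]), (37,[3,4]), (90,[4,0]), (92,[3,5,5]), (113,[4,1,1]), (120,[2,4]), (96,[4,1,1]), (92,[0,3,5,3]), (16,[2,0,2,5]), (113,[0,0,5]), (37,[0,3,5,3]), (113,[4,0]), (92,[3,4]), (37,[0,2,2,2]), (24,[4,1,1]), (16,[4,4,2]), (90,[4,1,1]), (16,[0,3,5,3]), (37,[1,5]), (90,[2,4]), (37,[1,3,5]), (120,[4,0]), (90,[0,0,5]), (92,[0,2,2,2]), (139,[2,4]), (113,[2,4]), (16,[0,4,0,3]), (65,[4,1,1]), (16,[3,5,5]), (118,[4,0])]),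
    (14,[]),
    (18,[(24,[0,0,2,0]), (90,[0,0,2,0]), (8,[3,3]), (8,[3,4]), (96,[0,0,2,0]), (8,[0,2]), (101,[0,3,5,3]), (133,[0,3,5,3]), (101,[0,2,2,2]), (8,[0,3,5,3]), (120,[0,0,2,0]), (65,[0,0,2,0]), (101,[3,5,5]), (8,[3,5,5]), (90,[1,3,1,1]), (133,[3,5,5]), (16,[0,2]), (101,[0,4,0,3]), (101,[3,4]), (110,[0,0,2,0]), (23,[0,4,0,3]), (113,[0,0,2,0]), (101,[3,3]), (111,[0,0,2,0]), (8,[0,2,2,2]), (23,[2,0,2,5]), (101,[0,2]), (118,[0,0,2,0]), (101,[4,4,2]), (23,[0,3,5,3]), (139,[0,5,0]), (133,[0,2]), (8,[2,0,2,5]), (8,[4,4,2])]),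
    (18,[(96,[0,0,5]), (37,[3,5,5]), (118,[2,4]), (24,[0,0,5]), (92,[1,5]), (37,[3,4]), (90,[4,0]), (92,[3,5,5]), (90,[0,0,2,0]), (120,[2,4]), (96,[4,1,1]), (101,[3,5,5]), (16,[2,0,2,5]), (113,[0,0,5]), (37,[0,3,5,3]), (113,[4,0]), (92,[3,4]), (101,[3,4]), (24,[4,1,1]), (16,[4,4,2]), (90,[4,1,1]), (16,[0,3,5,3]), (37,[1,5]), (90,[2,4]), (101,[1,5]), (90,[0,0,5]), (101,[4,4,2]), (139,[2,4]), (113,[2,4]), (133,[1,5]), (16,[3,5,5]), (118,[4,0])]),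
    (19,[(24,[2,5]), (128,[0,0,5,1]), (47,[1,3,5]), (120,[3,3,4]), (24,[2,0,4]), (21,[1,3,5]), (24,[0,4,0]), (59,[3,5,5]), (107,[0,4,0,3]), (21,[3,4]), (89,[3,3,5]), (59,[1,2,4]), (74,[1,3,5]), (136,[1,4,0,2]), (4,[2,0,4]), (59,[4,4,2]), (65,[2,5]), (63,[0,0,5,1]), (97,[2,5]), (123,[3,4]), (97,[3,3,5]), (123,[0,0,5,1]), (118,[0,3,3,5]), (88,[3,3,5]), (3,[2]), (59,[2]), (116,[4,4,4]), (4,[3]), (107,[0,2,2,4]), (89,[3]), (120,[3,3,5]), (96,[3,3,4]), (59,[2,0,2,5]), (128,[1,2,4]), (65,[0,4,0]), (4,[2,5,1]), (59,[0,0,5,1]), (59,[3,4]), (97,[0,3,3,5]), (47,[3,4]), (111,[0,0,2,2]), (90,[3,3,5]), (103,[3,3,5]), (65,[3,3,5]), (116,[0,4,0,3]), (74,[0,4,0,3]), (21,[3,5,5]), (116,[1,3,5]), (74,[4,4,2]), (90,[2,0,4]), (4,[3,3,5]), (90,[0,4,0]), (118,[3,3,5]), (96,[2,5]), (89,[2,0,4]), (65,[3]), (46,[4,4,2]),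 (88,[1,4,0,2]), (65,[2,0,4]), (131,[1,2,4]), (89,[1,1,4,4]), (4,[0,0,5,1]), (47,[4,4,2]), (111,[0,4,0]), (47,[2,5,1]), (89,[0,0,2,2]), (24,[3,3,5]), (120,[3]), (65,[0,0,2,2]), (123,[1,2,4]), (41,[0,0,2,2]), (74,[1,2,4]), (111,[3,3,5]), (81,[4,4,4]), (74,[3,4]), (111,[3,3,4]), (90,[2,5]), (59,[0,3,5,3]), (89,[2,5]), (97,[3]), (107,[1,2,4]), (21,[4,4,2]), (89,[0,4,0]), (63,[4,4,4]), (103,[0,0,2,2]), (46,[2]), (139,[3,3,5]), (118,[2,5]), (107,[4,4,2]), (81,[0,0,5,1]), (136,[3,3,5]), (97,[3,3,4]), (111,[2,5]), (4,[0,3,3,5]), (107,[0,0,5,1]), (59,[1,3,5]), (47,[1,2,4]), (111,[2,0,4]), (59,[1,3,0,0]), (90,[3]), (74,[0,0,5,1]), (97,[0,0,2,2]), (3,[1,3,3]), (120,[0,0,2,2]), (107,[4,4,4]), (107,[0,3,5,3]), (107,[1,3,5]), (47,[2]), (59,[0,4,0,3]), (111,[3]), (116,[0,0,5,1]), (74,[0,2,2,4]), (120,[0,4,0]),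 (59,[3,3,5]), (63,[0,3,3]), (4,[1,1,4,4]), (116,[4,4,2]), (89,[0,3,3,5]), (131,[2]), (47,[4,4,4]), (96,[3,3,5]), (65,[3,3,4]), (90,[0,0,2,2]), (4,[1,2,4]), (107,[2,0,2,5]), (118,[3])]),
    (19,[(65,[3,0,4]), (77,[0,2,2,2]), (65,[2,4,1]), (79,[0,5]), (52,[1,3,5]), (27,[0,5,3]), (65,[0,5,3]), (30,[0,3,0,2]), (79,[5,0]), (84,[0,2,2,2]), (65,[2,2,2]), (76,[0,5]), (77,[3,5,5]), (82,[3,5,5]), (13,[0,3,3]), (52,[3,5,5]), (46,[0,5]), (90,[5,0,4]), (77,[1,3,5]), (97,[0,2,2,5]), (79,[1,3,5]), (44,[0,2,2,5]), (15,[4,1]), (84,[3,5,5]), (112,[2,1,4]), (27,[3,0,2]), (27,[3,0,4]), (27,[4,1]), (96,[0,5,3]), (99,[0,5]), (76,[4,4,2]), (27,[0,3,5]), (76,[0,2,2,2]), (76,[0,2,2,4]), (77,[5,0]), (112,[2,4,1]), (111,[0,2,2,5]), (79,[4,4,4]), (90,[0,2,2,5]), (82,[1,3,5]), (1,[0,5]), (110,[4,1]), (11,[5,0]), (76,[0]),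 (97,[4,1]), (65,[3,0,2]), (45,[5,0]), (97,[0,5,3]), (45,[0,5]), (90,[4,1]), (76,[0,4,0,3]), (11,[0,3,4]), (30,[5,0]), (112,[4,1]), (79,[3,5,5]), (126,[2,2,2]), (84,[1,3,5]), (140,[1,1,3,3]), (76,[2,1,5]), (96,[2,4,1]), (11,[0,4,0,3]), (11,[3,5,5]), (1,[2,1,5]), (44,[0,5]), (65,[4,1]), (76,[3,5,5]), (52,[0,2,2,2]), (79,[2,1,5]), (112,[1,4]), (36,[0,3,5]), (112,[2,0,3,3]), (120,[4,1]), (110,[5,0,4]), (27,[5,0,4]), (45,[0,3,5,3]), (27,[2,4,1]), (79,[0,2,2,2]), (97,[2,2,2]), (82,[0,5]), (90,[3,0,2]), (112,[1,1,3,3]), (113,[4,1]), (45,[4,4,4]), (99,[0]), (96,[4,1]), (90,[2,2,2]), (140,[1,4]), (15,[0,3,5]), (99,[0,2,2,2]), (30,[4,4,4]), (99,[5,0]), (30,[0,2,2,4]), (46,[2,2,2]), (30,[3,5,5]), (118,[0,2,2,5]), (112,[1,2]), (82,[0,2,2,2]), (13,[0,0,4]), (15,[0,0,4]), (84,[4,4,2]), (27,[2,2,2]), (110,[3,0,2]),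 (90,[0,5,3]), (96,[1,2]), (82,[5,0]), (15,[3,0,4]), (45,[0,2,2,4]), (76,[0,3,5,3]), (11,[0,5]), (65,[5,0,4]), (118,[4,1]), (30,[2,1,5]), (118,[1,2]), (112,[0,0,4]), (99,[2,1,5]), (30,[0,4,0,3]), (96,[3,0,4]), (84,[0,5]), (76,[5,0]), (96,[2,2,2]), (27,[1,4]), (111,[4,1]), (11,[0,2,2,4]), (77,[2,1,5]), (30,[0,3,5,3]), (36,[2,0,3,3])]),
    (19,[(33,[0,4,0,3]), (113,[0,4,2,5]), (5,[3,4]), (24,[5]), (65,[0,4,2,5]), (24,[0,0,2,0]), (33,[3,4]), (48,[3,4]), (59,[0,4,4]), (48,[3]), (48,[3,5,5]), (33,[1,3,5]), (3,[1,3,1,1]), (65,[4]), (96,[3,3,0]), (96,[0,0,2,0]), (6,[1,3,5]), (29,[3,4]), (28,[4,2]), (101,[0,3,5,3]), (133,[0,3,5,3]), (3,[5]), (3,[3,3,0]), (90,[0,0,2,0]), (24,[5,5]), (101,[0,2,2,2]), (96,[0,4,2]), (6,[0,2,2,2]), (3,[0,4,2]), (120,[0,0,2,0]), (24,[0,4,2]), (142,[0,2,5]), (96,[4]), (65,[0,4,2]),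 (65,[0,0,2,0]), (110,[3,3,0]), (111,[5]), (90,[0,4,2,5]), (24,[4,4]), (3,[4,4]), (110,[2]), (86,[1,3,5]), (118,[2]), (120,[2]), (101,[3,5,5]), (86,[0,3,0,2]), (142,[0,3,0]), (6,[0,3,0]), (90,[1,3,1,1]), (133,[3,5,5]), (6,[3,4]), (100,[4,2]), (42,[0,2,2,2]), (6,[0,3,5,3]), (101,[0,4,0,3]), (101,[3,4]), (33,[0,2,2,2]), (5,[2,0,2,5]), (65,[5]), (24,[4]), (110,[0,0,2,0]), (17,[2,0]), (113,[0,0,2,0]), (86,[0,3,5,3]), (5,[0,4,0,3]), (120,[5,5]), (6,[3,5,5]), (139,[2]), (25,[3]), (5,[1,3,5]), (59,[4,2]), (96,[5]), (3,[0,0,2,0]), (42,[0,3,0,2]), (29,[0,3,5,3]), (76,[5]), (29,[0,2,2,2]), (133,[0,2,5]), (3,[3,3,0,5]), (29,[1,3,5]), (24,[0,4,2,5]), (24,[3,3,0]), (5,[3,5,5]), (111,[0,0,2,0]), (86,[3]), (96,[0,4,2,5]), (121,[0,3,5,3]), (4,[0,2,5]), (133,[3]), (48,[0,2,2,4]), (120,[4]), (28,[5,3,4]), (96,[4,4]),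 (118,[0,0,2,0]), (86,[3,4]), (110,[4]), (101,[4,4,2]), (111,[4]), (86,[3,5,5]), (48,[1,3,5]), (42,[1,3,5]), (120,[4,4]), (4,[1,4,0]), (110,[5]), (65,[2]), (33,[3,5,5]), (111,[0,4,2]), (111,[2]), (96,[5,5]), (41,[3,4]), (4,[0,3,0]), (100,[5,3,4]), (86,[0,2,2,4]), (101,[3]), (29,[0,3,0]), (4,[0,3,0,2]), (111,[0,4,2,5]), (5,[0,2,2,2]), (29,[3,5,5]), (110,[5,5]), (4,[1,2,4]), (110,[4,4])]),
    (18,[(10,[3,4]), (85,[3,4]), (93,[3,4]), (96,[0,4]), (24,[5,1]), (90,[0,5,5]), (10,[3,5,5]), (90,[0,4]), (85,[4,4,2]), (90,[0,2]), (96,[3,0,5]), (104,[0,3,0,2]), (24,[3,0,5]), (24,[0,4]), (24,[0,0,2,5]), (90,[4,1,2]), (31,[4,4,2]), (31,[3,5,5]), (93,[3,5,5]), (113,[0,2]), (90,[3,0,5]), (139,[0,2]), (104,[3,5,5]), (113,[4,1,2]), (31,[3,4]), (24,[0,5,5]), (118,[0,2]), (85,[3,5,5])]),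
    (14,[]),
    (19,[(110,[2,2,2]), (77,[0,2,2,2]), (24,[2,0,4]), (80,[0,3,5,3]), (46,[3,4]), (120,[2,0,3,3]), (46,[1,3,5]), (7,[1,1,5]), (24,[0,0,2,0]), (65,[0,3,5]), (46,[0,0,2,1]), (24,[1,1,5]), (46,[0,5]), (111,[2,2,2]), (77,[3,5,5]), (80,[1,3,5]), (75,[3,5,5]), (96,[0,0,2,0]), (111,[2,1,4]), (57,[1,3,5]), (125,[1,1,2,0]), (101,[0,3,5,3]), (133,[0,3,5,3]), (80,[3,5,5]), (96,[3,0,2]), (90,[0,0,2,0]), (111,[2,0,3,3]), (101,[0,2,2,2]), (75,[3,4]), (120,[0,0]), (7,[1,1,4,4]), (113,[3,0,2]), (24,[0,3,5]), (65,[1,1,5]), (126,[0,3,1,3]), (120,[0,0,2,0]), (110,[2,0,3,3]), (24,[2,1,4]), (113,[2,0,3,3]), (82,[1,3,5]), (65,[0,0,2,0]), (140,[1,3,1,1]), (80,[0,2,2,4]), (80,[0,2,2,2]), (57,[4,4,2]), (57,[0,2,2,2]), (80,[3,4]), (82,[3,5,5]), (65,[3,0,2]), (57,[3,5,5]), (11,[4,4,2]), (120,[2,1,4]),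 (101,[3,5,5]), (11,[0,2,2,2]), (77,[3,4]), (57,[3,4]), (125,[1,3,5,0]), (90,[1,3,1,1]), (133,[3,5,5]), (126,[0,5]), (113,[0,3,5]), (96,[2,0,4]), (101,[0,4,0,3]), (101,[3,4]), (140,[1,1,4,4]), (90,[2,1,4]), (75,[1,3,5]), (90,[2,0,3,3]), (110,[0,0,2,0]), (135,[1,3,5,0]), (113,[0,0,2,0]), (140,[1,1,5]), (120,[2,2,2]), (74,[3,4]), (126,[1,1,3,3]), (65,[2,2,2]), (77,[0,3,5,3]), (24,[3,0,2]), (90,[0,3,5]), (90,[3,0,2]), (24,[2,2,2]), (7,[2,0,3,3]), (111,[1,1,2,0]), (65,[2,1,4]), (57,[0,3,5,3]), (80,[0,3,0,2]), (24,[2,4,2]), (111,[0,0,2,0]), (74,[0,5]), (82,[0,3,5,3]), (113,[2,1,4]), (125,[1,1,4,4]), (46,[0,3,5,3]), (11,[0,3,5,3]), (74,[3,5,5]), (102,[0,5]), (82,[0,2,2,2]), (118,[0,0,2,0]), (110,[2,1,4]), (46,[3,5,5]), (101,[4,4,2]), (77,[1,3,5]), (96,[1,1,5]), (96,[2,1,4]), (125,[2,0,3,3]), (7,[2,4,2]),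 (140,[1,3,5,0]), (140,[0,0,2,0]), (96,[0,3,5]), (96,[2,4,2]), (65,[2,0,3,3]), (7,[2,1,4]), (140,[2,4,2]), (65,[2,0,4]), (110,[2,4,2]), (131,[2]), (74,[1,3,5]), (139,[1,1,2,0]), (101,[0,5]), (125,[0,3,5]), (65,[0,0]), (115,[0,2,2,2])]),
    (18,[(96,[0,0,5]), (24,[1,1,4]), (24,[0,0,5]), (92,[3,5,5]), (37,[3,5,5]), (9,[4,4,2]), (37,[3,4]), (68,[4,4,2]), (56,[3,5,5]), (96,[0,3]), (56,[4,4,2]), (56,[3,4]), (24,[0,3]), (90,[1,1,4]), (90,[2,1]), (18,[3,5,5]), (68,[3,4]), (9,[3,4]), (96,[1,1,4]), (24,[2,1]), (18,[3,4]), (101,[4,4,2]), (9,[3,5,5]), (90,[0,3])]),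
    (19,[(24,[1,1]), (24,[0,0]), (5,[3,4]), (24,[5]), (96,[0,0,5]), (24,[1,1,4]), (24,[1,1,5]), (77,[3,5,5]), (24,[0,0,4]), (24,[0,0,5]), (92,[3,5,5]), (37,[3,5,5]), (24,[2,0]), (96,[3,0,2]), (9,[4,4,2]), (24,[5,5]), (37,[3,4]), (75,[3,4]), (29,[3,4]), (12,[3,4]), (68,[4,4,2]), (56,[3,5,5]), (36,[3,4]), (24,[1,3]), (87,[3,5,5]), (39,[3,4]), (24,[0,4,2]), (24,[4,4]), (80,[3,4]), (82,[3,5,5]), (57,[3,5,5]), (48,[3,4]), (96,[0,3]), (96,[0,2,2]), (77,[3,4]), (56,[4,4,2]), (56,[3,4]), (24,[0,3]), (45,[3,5,5]), (33,[3,4]), (90,[1,1,4]), (90,[2,1]), (17,[3,4]), (76,[3,5,5]), (24,[4]), (18,[3,5,5]), (68,[3,4]), (17,[3,5,5]), (17,[4,4,2]), (74,[3,4]), (6,[3,5,5]), (7,[3,5,5]), (24,[3,0,2]), (90,[0,3,5]), (76,[3,4]), (24,[2,2,2]), (9,[3,4]), (39,[3,5,5]), (24,[3,3,0]), (24,[2,4,2]), (96,[1,1,4]), (64,[3,5,5]),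 (24,[3,3,1]), (112,[3,5,5]), (6,[3,4]), (74,[3,5,5]), (24,[2,1]), (7,[3,4]), (18,[3,4]), (86,[3,4]), (46,[3,5,5]), (101,[4,4,2]), (86,[3,5,5]), (90,[2,0]), (45,[0,2,2,2]), (24,[0,2,2]), (14,[3,4]), (33,[3,5,5]), (24,[0,3,5]), (12,[4,4,2]), (9,[3,5,5]), (14,[3,5,5]), (90,[0,3]), (57,[3,4]), (87,[3,4]), (29,[3,5,5]), (46,[3,4]), (110,[4,4])]),
    (18,[]),
    (19,[])]
def js34c15 : List (ℕ × List (ℕ × List ℕ)) := [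
    (15,[]),
    (15,[]),
    (19,[(24,[2,4,2]), (91,[2,0,2,5]), (24,[0,3,5]), (74,[1,1,3,3]), (24,[2,0,4]), (74,[2,0,2,5]), (3,[3,4]), (3,[2,0,2,5]), (24,[2,1,4]), (34,[2,0,2,5]), (24,[0,0,2,0]), (75,[3,4]), (74,[3,4]), (27,[2,0,2]), (24,[1,1,5]), (46,[0,5]), (80,[3,4]), (43,[2,0,2]), (139,[2,1,4]), (97,[3,4]), (46,[3,4]), (96,[2,0,3,3]), (24,[4,1]), (57,[4,0,5]), (72,[3]), (8,[0,2]), (133,[2,0,2,5]), (101,[2,0,2,5]), (57,[3,4]), (135,[1,1,3,3]), (57,[2,0,2,5]), (139,[1,3,1,1]), (140,[2,0,4]), (75,[1,1,3,3]), (27,[0,2]), (8,[1,1,3,3]), (11,[2,0,2,5]), (74,[2]), (24,[1,3,1,1]), (43,[1,3,5,0]), (27,[0,0,2,0]), (34,[3,4]), (140,[2,0,3,3]), (140,[1,3,1,1]), (27,[2,0,3,3]), (46,[1,1,3,3]), (128,[3,4]), (101,[1,1,3,3]), (139,[0,3,5]), (11,[2]), (135,[4,4,4]), (34,[0,5]), (24,[1,1,4,4]), (72,[1,1,3,3]),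 (72,[0,0,2,0]), (77,[3,4]), (27,[1,1,4,4]), (139,[0,0,2,0]), (140,[1,1,3,3]), (126,[0,5]), (57,[0,5]), (97,[2]), (128,[1,1,3,3]), (101,[3,4]), (140,[1,1,4,4]), (139,[1,1,4,4]), (126,[2,0,2,5]), (3,[1,3,5,0]), (139,[2,0,2]), (80,[0,5]), (135,[1,3,5,0]), (135,[2,0,4]), (140,[1,1,5]), (139,[2,4,2]), (126,[1,1,3,3]), (126,[2,0,3,3]), (46,[2,0,2,5]), (24,[3,0,2]), (139,[2,0,4]), (139,[1,1,5]), (24,[2,2,2]), (46,[2]), (34,[0,4,4]), (91,[4,0,5]), (128,[2,0,2,5]), (27,[0,0,2]), (24,[4,4,4]), (72,[2,0,3,3]), (74,[0,5]), (75,[2,0,2,5]), (135,[2,4,2]), (34,[2,4,1]), (77,[2,0,2,5]), (27,[4,0,5]), (72,[2,0,2]), (72,[4,4,4]), (72,[2,4,2]), (133,[1,1,3,3]), (135,[1,1,4,4]), (135,[4,0,5]), (139,[2,0,3,3]), (133,[3,4]), (57,[1,1,3,3]), (11,[1,1,3,3]), (126,[3,4]), (52,[4,1]), (97,[0,5]), (11,[3,0,4]), (80,[1,1,3,3]),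 (133,[2]), (97,[2,0,2,5]), (27,[1,3,5,0]), (139,[4,4,4]), (140,[1,3,5,0]), (140,[0,0,2,0]), (97,[1,1,3,3]), (11,[3,4]), (135,[2,0,3,3]), (128,[2]), (126,[0,4,4]), (140,[2,4,2]), (140,[2,0,2]), (80,[2,0,2,5]), (140,[4,0,5]), (109,[2,0,3,3]), (72,[1,1,4,4]), (101,[0,5]), (34,[2,0,3,3]), (72,[1,3,5,0]), (101,[2])]),
    (15,[]),
    (15,[]),
    (19,[(110,[2,2,2]), (77,[0,2,2,2]), (97,[0,2,2,2]), (120,[0,3,5]), (57,[0,2,2,2]), (110,[0,3,0]), (101,[0,2,2,2]), (26,[1]), (82,[0,2,2,2]), (110,[0,0,3,4]), (75,[0,2,2,2]), (126,[0,4,0,3]), (46,[0,2,2,2]), (2,[0,0,2]), (42,[1]), (74,[0,2,2,2]), (116,[1,1,3,3]), (126,[0,0,2,0]), (2,[1]), (75,[0,3,0,2]), (42,[0,4,0,3]), (77,[0,3,0,2]), (110,[1,3,1,1]), (113,[0,0,2]), (126,[0,0,3,4]), (80,[0,2,2,2]), (40,[0,2,4]), (42,[0,3,0]), (113,[1,1,4,4]), (110,[1,1,5]),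 (126,[0,3,5]), (34,[3,0]), (2,[0,3,5]), (42,[3,0]), (40,[2,2,2]), (120,[0,0,3,4]), (113,[3,0,2]), (42,[0,3,5]), (126,[3,0,2]), (46,[0,3,0,2]), (44,[0,3,3]), (105,[1,3,1,1]), (2,[0,4,0,3]), (110,[2,1,4]), (107,[0]), (2,[0,0,2,0]), (113,[0,3,0]), (105,[3,0]), (113,[1,1,5]), (2,[0,0,3,4]), (74,[0,3,0,2]), (26,[0,0,3,4]), (34,[2,2,2]), (101,[0,3,0,2]), (126,[0,0,2]), (120,[3,0]), (42,[2,2,2]), (34,[2,1,4]), (133,[0,3,0,2]), (113,[4,0]), (113,[0,3,5]), (110,[0,3,5]), (133,[0,2,2,2]), (2,[3,0]), (105,[2,1,4]), (110,[0,0,2]), (34,[0,4,0,3]), (110,[0,4,0,3]), (42,[1,3,1,1]), (110,[0,0,2,0]), (126,[1]), (113,[0,0,2,0]), (2,[3,0,2]), (126,[2,1,4]), (26,[3,0]), (42,[0,0,2,0]), (40,[1]), (126,[0,2,4]), (34,[4,4,4]), (34,[3,0,2]), (34,[0,3,5]), (126,[3,0]), (105,[0,3,5]), (44,[1,2]), (34,[0,0,3,4]), (116,[0,3,0]),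 (80,[0,3,0,2]), (97,[0,3,0,2]), (34,[1,3,1,1]), (26,[0,4,0,3]), (42,[3,0,2]), (34,[0,3,0]), (113,[2,1,4]), (113,[4,4,4]), (105,[0,0,3,4]), (34,[1,1,5]), (2,[2,2,2]), (34,[1]), (57,[0,3,0,2]), (34,[0,0,2]), (113,[1,3,1,1]), (82,[0,3,0,2]), (40,[3,0]), (120,[0,4,0,3]), (105,[0,4,0,3]), (110,[3,0,2]), (40,[0,0,3,4]), (101,[1,2,4]), (110,[4,4,4]), (105,[1]), (110,[1]), (2,[1,3,1,1]), (110,[2,0,4]), (113,[2,2,2]), (40,[0,4,0,3]), (40,[0,3,5]), (42,[0,0,3,4]), (116,[0,0,2]), (113,[1,1,3,3]), (110,[2,4,2]), (40,[2,1,4]), (113,[2,4,2]), (113,[0,2,4]), (42,[2,1,4]), (113,[1]), (34,[2,4,2]), (40,[1,3,0,5]), (59,[0,0,3,4]), (120,[1]), (26,[0,3,5])]),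
    (17,[(37,[0,3,5]), (46,[1,1]), (12,[0,0,5]), (57,[4,1,1]), (57,[1,1]), (82,[0,0,5]), (37,[1,1,5]), (46,[0,0,5]), (125,[1,1,2,0]), (92,[1,1,2,0]), (74,[1,1]), (74,[0,0,5]), (77,[0,0,5]), (92,[2,1,4]), (80,[2,0]), (128,[2,0]), (80,[0,0,5]), (92,[0,0,2,0]), (128,[1,1]), (37,[2,0,4]), (12,[4,1,1]), (37,[3,0,2]), (125,[1,1,4,4]), (37,[2,4,2]), (37,[0,0,2,0]), (57,[0,0,5]), (37,[2,1,4]), (82,[1,1]), (77,[1,1]), (125,[3,0,2]), (37,[2,2,2]), (75,[0,0,5]), (75,[1,1]), (80,[1,1])]),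
    (17,[(65,[0,3,5]), (128,[0,0,2,1]), (46,[1,3,5]), (7,[1,1,5]), (46,[0,0,2,1]), (111,[2,2,2]), (80,[1,3,5]), (111,[2,1,4]), (57,[1,3,5]), (125,[1,1,2,0]), (7,[1,1,4,4]), (7,[0,3,5]), (82,[1,3,5]), (65,[0,0,2,0]), (80,[0,2,2,4]), (65,[3,0,2]), (7,[3,0,2]), (65,[1,1,5]), (77,[0,3,1,3]), (75,[1,3,5]), (125,[2,2,2]), (65,[2,2,2]), (111,[1,1,2,0]), (65,[2,1,4]), (111,[0,0,2,0]), (125,[1,1,4,4]), (77,[1,3,5]), (7,[2,4,2]), (111,[0,0]), (7,[2,1,4]), (65,[2,0,4]), (74,[1,3,5]), (125,[0,3,5]), (65,[0,0])]),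
    (15,[]),
    (17,[(37,[0,3,5]), (46,[1,1]), (12,[0,0,5]), (46,[1,3,5]), (57,[1,1]), (80,[1,3,5]), (37,[1,1,5]), (46,[0,0,5]), (125,[1,1,2,0]), (92,[1,1,2,0]), (74,[1,1]), (74,[0,0,5]), (77,[0,0,5]), (65,[3,0,2]), (65,[1,1,2,0]), (128,[2,0]), (75,[1,3,5]), (128,[1,1]), (37,[2,0,4]), (12,[4,1,1]), (65,[2,1,4]), (125,[1,1,4,4]), (65,[0,3,5]), (57,[0,0,5]), (65,[1,1,5]), (82,[1,1]), (77,[1,1]), (125,[3,0,2]), (65,[2,0,4]), (74,[1,3,5]), (75,[1,1]), (80,[1,1])]),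
    (19,[(110,[2,2,2]), (77,[0,2,2,2]), (46,[2,5]), (110,[0,3,3]), (47,[0,3,5]), (67,[0,5,0,3]), (47,[0,3,3]), (21,[2,1,4]), (47,[2,1,4]), (16,[0,5,3,4]), (77,[2,5]), (89,[3,3,5]), (44,[2,2,2]), (46,[0,4,0]), (13,[0,3,3]), (21,[0,3,5]), (77,[0,3,1,2]), (97,[0,3,1,2]), (47,[1,1,5]), (21,[1,1,5]), (96,[1,3,5,0]), (67,[1,2]), (80,[2,5]), (75,[2,5]), (90,[1,2]), (135,[0,3,1,2]), (89,[1,3,5,0]), (15,[1,3,5,0]), (110,[1,1,5]), (44,[3,0,2]), (44,[1,1,5]), (57,[0,4,0]), (50,[3,0,2]), (101,[0,2,2,2]), (133,[1,3,5,0]), (57,[2,5]), (89,[1,1,3]), (15,[1,2]), (47,[0,0,2,0]), (116,[0,3,3]), (46,[0,3,1,2]), (44,[0,3,3]), (46,[0,2,2,2]), (50,[2,1,4]), (90,[3,3,5]), (77,[0,4,0]), (103,[3,3,5]), (57,[0,3,1,2]), (114,[0,3,3,5]), (80,[0,2,2,2]), (101,[1,3,5,0]), (57,[0,2,2,2]), (47,[2,4,2]), (96,[0,3,1,2]),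 (47,[1,2]), (44,[1,3,1,1]), (50,[2,2,2]), (44,[2,4,2]), (55,[1,3,1,1]), (96,[1,4,1]), (124,[0,5,3,4]), (113,[0,3,5]), (21,[3,0,2]), (77,[0,3,3,5]), (80,[1,3,5,0]), (114,[0,3,1,2]), (13,[2,2,2]), (135,[1,5]), (96,[0,2,2,2]), (55,[2,1,4]), (135,[1,3,5,0]), (47,[3,0,2]), (82,[0,3,1,2]), (13,[1,3,1,1]), (82,[1,3,5,0]), (101,[0,3,1,2]), (55,[0,3,3]), (55,[1,3,5,0]), (13,[1,3,5,0]), (75,[0,3,1,2]), (44,[0,0,2,0]), (44,[4,4,4]), (50,[0,0,2,0]), (44,[1,2]), (113,[1,2]), (114,[0,5,0,3]), (44,[2,1,4]), (96,[1,5]), (80,[0,3,1,2]), (103,[1,3,5,0]), (21,[2,2,2]), (114,[0,4,0]), (90,[1,3,5,0]), (67,[0,3,1,2]), (113,[0,3,3]), (101,[1,5]), (82,[0,2,2,2]), (116,[2,1,4]), (110,[2,1,4]), (80,[0,4,0]), (77,[1,3,5,0]), (114,[0,3,3]), (114,[0,5,3,4]), (55,[1,2]), (103,[0,0,2,0]), (110,[4,4,4]), (114,[2,5]), (97,[0,2,2,2]),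 (114,[1,4,1]), (114,[0,2,2,2]), (67,[0,3,3]), (75,[0,2,2,2]), (114,[0,3,0,2]), (13,[1,2]), (67,[0,2,2,2]), (96,[0,5,0,3]), (110,[2,4,2]), (116,[1,2]), (67,[0,3,3,5]), (123,[1,2]), (133,[0,3,1,2]), (44,[1,3,5,0]), (57,[1,3,5,0]), (67,[1,4,1]), (103,[0,5,0]), (103,[3,0,2])]),
    (19,[(52,[2,1,4]), (120,[5,0,4]), (24,[0,3,5]), (74,[1,1,3,3]), (24,[2,0,4]), (46,[2,4,1]), (57,[3,4]), (52,[1,3,5,0]), (126,[2,4,1]), (52,[0,3,5]), (34,[2,0,2,5]), (52,[2,4,2]), (46,[0,5,3]), (41,[1,3,5,0]), (84,[0,2,5]), (24,[1,1,5]), (57,[0,5,3]), (96,[1,3,5,0]), (79,[0,3,5]), (46,[3,4]), (96,[2,0,3,3]), (99,[2,0,3,3]), (96,[0,0,2,0]), (74,[3,4]), (72,[3]), (74,[0,5,3]), (27,[3]), (75,[2,4,1]), (75,[5,0,4]), (135,[1,1,3,3]), (97,[2,4,1]), (84,[2,0,4]), (140,[2,0,4]), (75,[1,1,3,3]), (4,[2,4,2]), (96,[3]), (11,[2,0,2,5]),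 (41,[2,0,4]), (84,[1,1,5]), (96,[2,0,2]), (41,[2,4,2]), (84,[2,0,3,3]), (140,[2,0,3,3]), (140,[1,3,1,1]), (27,[2,0,3,3]), (46,[1,1,3,3]), (101,[1,1,3,3]), (80,[3,4]), (84,[4,4,4]), (11,[2]), (135,[4,4,4]), (139,[0,2,5]), (99,[2,4,2]), (140,[0,0,2]), (126,[0,0,2]), (27,[1,1,4,4]), (79,[2,4,2]), (140,[1,1,3,3]), (99,[0,2,5]), (57,[0,5]), (96,[2,0,4]), (128,[1,1,3,3]), (75,[0,5,3]), (140,[1,1,4,4]), (84,[2,4,2]), (126,[2,0,2,5]), (52,[2,0,3,3]), (41,[0,0,2,0]), (80,[0,5]), (52,[1,1,5]), (126,[2,5,1]), (135,[2,0,4]), (126,[0,5,3]), (79,[0,0,2,0]), (126,[1,1,3,3]), (126,[2,0,3,3]), (74,[2,4,1]), (52,[2,0,4]), (46,[2]), (57,[2,4,1]), (118,[0,2,5]), (140,[3]), (46,[5,0,4]), (41,[4,4,4]), (79,[2,1,4]), (24,[2,4,2]), (72,[2,0,3,3]), (41,[1,1,5]), (74,[5,0,4]), (135,[2,4,2]), (34,[2,4,1]), (126,[5,0,4]),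 (83,[0,5]), (135,[4,4,2]), (34,[0,0,2]), (133,[1,1,3,3]), (135,[1,1,4,4]), (96,[1,1,4,4]), (139,[2,0,3,3]), (46,[3,0,4]), (57,[1,1,3,3]), (11,[5,0,4]), (126,[3,4]), (79,[2,0,3,3]), (52,[0,2,5]), (79,[0,2,5]), (80,[1,1,3,3]), (81,[2,0,2,5]), (41,[2,0,2]), (140,[1,3,5,0]), (140,[0,0,2,0]), (97,[1,1,3,3]), (11,[3,4]), (135,[2,0,3,3]), (128,[2]), (135,[3]), (126,[3,0,4]), (83,[3,0,3]), (80,[2,4,1]), (41,[1,1,4,4]), (4,[4,4,2]), (72,[1,1,4,4]), (140,[0,2,5]), (34,[2,0,3,3]), (34,[2,5,1]), (101,[2])]),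
    (17,[(5,[0,3,5]), (46,[4]), (57,[4]), (5,[2,0,4]), (74,[5]), (48,[0,3,5]), (33,[1,1,5]), (74,[0,0]), (33,[3,0,2]), (46,[4,4]), (57,[4,4]), (48,[2,1,4]), (80,[0,0]), (48,[1,1,5]), (75,[5,5]), (46,[5]), (46,[0,0]), (29,[0,3,5]), (57,[5,5]), (77,[0,0]), (33,[2,0,4]), (74,[4,4]), (29,[1,1,5]), (5,[1,1,5]), (6,[0,3,5]), (75,[4]), (33,[0,3,5]), (46,[5,5])]),
    (19,[(46,[0,5,5]), (93,[1,1,5]), (74,[5,1]), (10,[2,0,4]), (53,[0,3,5]), (41,[1,3,4,1]), (46,[0,4]), (53,[1,2,1]), (46,[1,3,5]), (101,[0,0,2,5]), (10,[0,3,5]), (51,[0,2,5]), (57,[0,4]), (111,[2,2,2]), (58,[0]), (80,[1,3,5]), (53,[2,4,2]), (101,[1,2,1,1]), (111,[2,1,4]), (1,[1,2,1]), (85,[0,0,2,0]), (31,[0,0,2,0]), (46,[5,1]), (59,[1,3,1,1]), (59,[0,0,2,0]), (133,[5,1]), (51,[1,2,1]), (75,[5,1]), (104,[0,0,2,0]), (85,[2,0,4]), (93,[3,0,2]),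 (134,[1,2,1]), (82,[5,1]), (133,[0,4]), (58,[0,5,1]), (10,[1,1,5]), (101,[0,2,4]), (85,[3,0,2]), (82,[1,3,5]), (65,[0,0,2,0]), (31,[2,4,2]), (80,[0,2,2,4]), (53,[2,2,2]), (58,[0,0,2,0]), (111,[1,2,1]), (65,[3,0,2]), (65,[1,2,1]), (104,[1,2,4]), (57,[0,5,5]), (85,[1,3,1,1]), (57,[0,2,5]), (133,[0,5,5]), (53,[0,0,2,0]), (51,[1,2,4]), (130,[0,0,2,0]), (93,[0,0,2,0]), (31,[0,3,5]), (80,[0,0,2,5]), (75,[1,3,5]), (53,[1,1,5]), (101,[0,4]), (51,[1,3,1]), (101,[5,1]), (10,[2,2,2]), (74,[0,5,5]), (85,[2,1,4]), (75,[0,4]), (65,[2,2,2]), (93,[2,0,4]), (31,[1,1,5]), (103,[0,5,5]), (74,[0,4]), (57,[5,1]), (104,[1,2,1]), (130,[1,2,4]), (65,[2,1,4]), (93,[2,1,4]), (104,[2,2,2]), (41,[1,3,1]), (128,[0,0,2,5]), (111,[0,0,2,0]), (10,[2,1,4]), (77,[0,0,2,5]), (59,[2,0,4]), (62,[1,2,1]), (53,[1,2,4]), (75,[0,5,5]),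 (65,[0,3,5]), (104,[2,4,2]), (101,[0,5,5]), (82,[0,5,5]), (85,[1,1,5]), (10,[0,0,2,0]), (58,[1,1,5]), (77,[1,3,5]), (59,[1,1,5]), (82,[0,4]), (65,[1,1,5]), (58,[1,3,1,1]), (31,[2,2,2]), (62,[1,3,1]), (41,[1,2,1]), (128,[0,2,4]), (85,[3,0,3]), (93,[0,3,5]), (111,[1,2,4]), (75,[0,0,2,5]), (57,[1,3,5]), (65,[1,2,4]), (53,[2,1,4]), (83,[0]), (65,[2,0,4]), (58,[2,1,4]), (130,[1,2,1]), (74,[1,3,5]), (80,[0,5,5]), (80,[4,1,2]), (62,[1,2,4]), (31,[2,1,4]), (59,[0,5]), (103,[5,1]), (10,[2,4,2])]),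
    (19,[(110,[2,2,2]), (77,[0,2,2,2]), (24,[2,0,4]), (80,[0,3,5,3]), (46,[3,4]), (120,[2,0,3,3]), (46,[1,3,5]), (7,[1,1,5]), (24,[0,0,2,0]), (65,[0,3,5]), (46,[0,0,2,1]), (24,[1,1,5]), (46,[0,5]), (111,[2,2,2]), (77,[3,5,5]), (80,[1,3,5]), (75,[3,5,5]), (96,[0,0,2,0]), (111,[2,1,4]), (57,[1,3,5]), (125,[1,1,2,0]), (101,[0,3,5,3]), (133,[0,3,5,3]), (80,[3,5,5]), (96,[3,0,2]), (90,[0,0,2,0]), (111,[2,0,3,3]), (101,[0,2,2,2]), (75,[3,4]), (120,[0,0]), (7,[1,1,4,4]), (113,[3,0,2]), (24,[0,3,5]), (65,[1,1,5]), (126,[0,3,1,3]), (120,[0,0,2,0]), (110,[2,0,3,3]), (24,[2,1,4]), (113,[2,0,3,3]), (82,[1,3,5]), (65,[0,0,2,0]), (140,[1,3,1,1]), (80,[0,2,2,4]), (80,[0,2,2,2]), (57,[4,4,2]), (57,[0,2,2,2]), (80,[3,4]), (82,[3,5,5]), (65,[3,0,2]), (57,[3,5,5]), (11,[4,4,2]), (120,[2,1,4]), (101,[3,5,5]),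 (11,[0,2,2,2]), (77,[3,4]), (57,[3,4]), (125,[1,3,5,0]), (90,[1,3,1,1]), (133,[3,5,5]), (126,[0,5]), (113,[0,3,5]), (96,[2,0,4]), (101,[0,4,0,3]), (101,[3,4]), (140,[1,1,4,4]), (90,[2,1,4]), (75,[1,3,5]), (90,[2,0,3,3]), (110,[0,0,2,0]), (135,[1,3,5,0]), (113,[0,0,2,0]), (140,[1,1,5]), (120,[2,2,2]), (74,[3,4]), (126,[1,1,3,3]), (65,[2,2,2]), (77,[0,3,5,3]), (24,[3,0,2]), (90,[0,3,5]), (90,[3,0,2]), (24,[2,2,2]), (7,[2,0,3,3]), (111,[1,1,2,0]), (65,[2,1,4]), (57,[0,3,5,3]), (80,[0,3,0,2]), (24,[2,4,2]), (111,[0,0,2,0]), (74,[0,5]), (82,[0,3,5,3]), (113,[2,1,4]), (125,[1,1,4,4]), (46,[0,3,5,3]), (11,[0,3,5,3]), (74,[3,5,5]), (102,[0,5]), (82,[0,2,2,2]), (118,[0,0,2,0]), (110,[2,1,4]), (46,[3,5,5]), (101,[4,4,2]), (77,[1,3,5]), (96,[1,1,5]), (96,[2,1,4]), (125,[2,0,3,3]), (7,[2,4,2]), (140,[1,3,5,0]),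 (140,[0,0,2,0]), (96,[0,3,5]), (96,[2,4,2]), (65,[2,0,3,3]), (7,[2,1,4]), (140,[2,4,2]), (65,[2,0,4]), (110,[2,4,2]), (131,[2]), (74,[1,3,5]), (139,[1,1,2,0]), (101,[0,5]), (125,[0,3,5]), (65,[0,0]), (115,[0,2,2,2])]),
    (15,[]),
    (17,[(46,[1,4,2]), (18,[0,3,5]), (46,[1,3,5]), (37,[0,3,5]), (80,[1,3,5]), (37,[1,1,5]), (46,[1,1,4]), (74,[1,4,2]), (9,[2,0,4]), (68,[0,3,5]), (57,[1,1,4]), (75,[2,1]), (68,[2,0,4]), (37,[2,0,4]), (18,[2,2,2]), (65,[2,1,4]), (57,[0,3]), (9,[1,1,5]), (46,[2,1]), (46,[0,3]), (9,[0,3,5]), (57,[1,4,2]), (74,[1,3,5]), (56,[1,1,5])]),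
    (17,[]),
    (19,[(46,[0,5,5]), (57,[4,0]), (46,[1,4,4]), (10,[2,0,4]), (46,[1,4,2]), (18,[0,3,5]), (46,[1,3,5]), (24,[1,1,5]), (37,[0,3,5]), (23,[1,1,5]), (80,[1,3,5]), (20,[0,3,5]), (37,[1,1,5]), (46,[1,1,3]), (46,[2,4]), (19,[1,1,5]), (57,[1,3,0]), (46,[1,1,2]), (46,[1,1,4]), (57,[3,3]), (74,[1,4,2]), (32,[1,1,5]), (46,[0,2]), (9,[2,0,4]), (55,[0,3,5]), (68,[0,3,5]), (10,[1,1,5]), (53,[0,3,5]), (46,[4,0]), (69,[2,1,4]), (57,[1,1,3]), (57,[1,1,4]), (46,[0,5,0]), (75,[2,1]), (8,[1,1,5]), (10,[0,3,5]), (23,[2,1,4]), (46,[0,4]), (46,[5,1]), (31,[0,3,5]), (54,[1,1,5]), (68,[2,0,4]), (53,[1,1,5]), (50,[0,3,5]), (23,[0,3,5]), (50,[1,1,5]), (61,[1,1,5]), (37,[2,0,4]), (20,[2,2,2]), (57,[2,2]), (46,[1,4,1]), (57,[5,1]), (54,[0,3,5]), (18,[2,2,2]), (65,[2,1,4]), (60,[1,1,5]), (19,[0,3,5]), (32,[0,3,5]),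 (26,[1,1,5]), (80,[0,2]), (8,[0,3,5]), (74,[1,1,2]), (57,[0,3]), (31,[1,1,5]), (57,[1,2,5]), (16,[1,1,5]), (19,[2,1,4]), (9,[1,1,5]), (16,[2,1,4]), (46,[2,1]), (67,[1,1,5]), (60,[0,3,5]), (46,[0,3]), (75,[0,2]), (75,[1,2,5]), (57,[0,2]), (9,[0,3,5]), (24,[0,3,5]), (20,[1,1,5]), (57,[1,4,2]), (16,[0,3,5]), (57,[3,4]), (74,[1,3,5]), (75,[1,1,2]), (46,[5,3]), (46,[3,4]), (56,[1,1,5]), (26,[0,3,5])]),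
    (19,[])]
def js34c16 : List (ℕ × List (ℕ × List ℕ)) := [
    (16,[]),
    (16,[]),
    (18,[(24,[0,0,2,0]), (24,[1,1,4]), (24,[0,0,5]), (24,[5,0,0]), (24,[0,4,0,2]), (139,[1,3,1,1]), (37,[3,4]), (119,[3,4]), (24,[1,3,1,1]), (37,[2,0,2,5]), (24,[1,1,5,5]), (56,[3,4]), (24,[0,3]), (92,[3,4]), (101,[3,4]), (24,[4,1,1]), (68,[3,4]), (9,[3,4]), (24,[4,4,4]), (129,[2,0,2,5]), (24,[1,3,5]), (24,[2,1]), (18,[3,4]), (133,[3,4]), (24,[0,2,2,4]), (111,[2,0,2,5]), (97,[2,0,2,5]), (65,[3,4]), (119,[2,0,2,5]), (98,[3,4])]),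
    (17,[(74,[0,4,0,2]), (56,[2,0,4]), (68,[1,1,4,4]), (92,[2,0,4]), (119,[1,1,4,4]), (65,[1,1,4,4]), (18,[2,0,4]), (74,[1,4,2]), (9,[2,0,4]), (128,[1,3,5]), (74,[2,1]), (97,[2,0,4]), (74,[5,0,0]), (101,[1,1,4,4]), (68,[2,0,4]), (97,[1,1,4,4]), (37,[2,0,4]), (128,[1,3,1,1]), (74,[4,4,4]), (74,[0,0,2,0]), (128,[2,1]), (111,[1,1,4,4]), (111,[2,0,4]), (9,[1,1,4,4]), (37,[1,1,4,4]), (56,[1,1,4,4]), (74,[0,2,2,4]), (65,[2,0,4]), (74,[1,3,5]), (74,[0,3])]),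
    (17,[(98,[3,0,2]), (77,[5,0,0]), (82,[0,2,2,4]), (111,[2,2,2]), (9,[3,0,2]), (92,[3,0,2]), (82,[2,1]), (77,[0,3]), (82,[1,3,5]), (9,[2,2,2]), (65,[3,0,2]), (77,[4,4,4]), (56,[2,2,2]), (97,[3,0,2]), (77,[0,2,2,4]), (82,[1,3,1,1]), (82,[4,4,4]), (65,[2,2,2]), (97,[2,2,2]), (18,[2,2,2]), (77,[2,1]), (82,[1,4,2]), (77,[1,3,5]), (82,[1,1,4]), (56,[3,0,2]), (68,[2,2,2]), (77,[0,0,2,0]), (37,[2,2,2]), (68,[3,0,2]), (77,[1,4,2])]),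
    (18,[(110,[4,1,1]), (119,[0,3,0,2]), (56,[0,3,0,2]), (110,[0,3]), (37,[0,3,0,2]), (18,[0,2,2,2]), (110,[0,2,2,4]), (101,[0,2,2,2]), (98,[0,2,2,2]), (110,[0,0,5]), (101,[0,3,0,2]), (9,[0,2,2,2]), (68,[0,2,2,2]), (110,[5,0,0]), (133,[0,2,2,2]), (37,[0,2,2,2]), (110,[0,0,2,0]), (56,[0,2,2,2]), (110,[1,1,5,5]), (97,[0,3,0,2]), (110,[2,1]), (65,[0,2,2,2]), (113,[1,4,2]), (113,[1,3,1,1]), (92,[0,2,2,2]), (110,[4,4,4]), (97,[0,2,2,2]), (110,[1,1,4]), (113,[5,0,0]), (111,[0,3,0,2])]),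
    (16,[]),
    (16,[]),
    (16,[]),
    (16,[]),
    (19,[(56,[0,5,0,3]), (133,[0,3,3,5]), (21,[0,4,0,2]), (56,[0,4,0]), (74,[0,4,0,2]), (56,[2,0,4]), (68,[1,1,4,4]), (110,[4,1,1]), (119,[0,3,0,2]), (9,[2,5]), (92,[2,0,4]), (97,[2,5]), (119,[1,1,4,4]), (101,[0,4,0]), (56,[0,3,0,2]), (65,[1,1,4,4]), (110,[0,3]), (37,[0,3,0,2]), (98,[2,5]), (18,[0,2,2,2]), (110,[0,2,2,4]), (21,[4,1,1]), (101,[0,2,2,2]), (21,[2,1]), (47,[0,3]), (18,[2,0,4]), (47,[0,0,2,0]), (98,[0,2,2,2]), (110,[0,0,5]), (74,[1,4,2]), (21,[1,1,4]), (37,[2,5]), (9,[2,0,4]), (37,[0,4,0]), (128,[1,3,5]), (101,[0,3,3,5]), (119,[0,5,0,3]), (116,[1,3,5]), (21,[4,4,4]), (97,[0,4,0]), (74,[2,1]), (97,[2,0,4]), (74,[5,0,0]), (21,[5,0,0]), (101,[0,3,0,2]), (68,[0,4,0]), (47,[2,1]), (9,[0,2,2,2]), (68,[0,2,2,2]), (110,[5,0,0]), (101,[1,1,4,4]),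 (111,[0,4,0]), (21,[0,0,2,0]), (133,[0,2,2,2]), (37,[0,2,2,2]), (47,[0,0,5]), (65,[2,5]), (68,[2,0,4]), (92,[2,5]), (110,[0,0,2,0]), (56,[0,2,2,2]), (92,[0,4,0]), (21,[0,3]), (116,[0,2,2,4]), (68,[2,5]), (97,[1,1,4,4]), (37,[2,0,4]), (128,[1,3,1,1]), (18,[0,4,0]), (21,[1,1,5,5]), (74,[4,4,4]), (65,[0,4,0]), (74,[0,0,2,0]), (116,[1,1,5,5]), (116,[1,4,2]), (110,[1,1,5,5]), (128,[2,1]), (111,[1,1,4,4]), (56,[2,5]), (47,[0,2,2,4]), (97,[0,3,0,2]), (9,[0,4,0]), (110,[2,1]), (18,[2,5]), (111,[2,5]), (65,[0,2,2,2]), (116,[0,3]), (21,[0,0,5]), (111,[2,0,4]), (21,[0,2,2,4]), (113,[1,4,2]), (47,[1,1,4]), (113,[1,3,1,1]), (111,[0,3,3,5]), (101,[2,5]), (92,[0,2,2,2]), (9,[1,1,4,4]), (119,[2,5]), (37,[1,1,4,4]), (47,[4,1,1]), (110,[4,4,4]), (97,[0,2,2,2]), (56,[1,1,4,4]), (123,[1,1,4]), (119,[0,4,0]),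 (74,[0,2,2,4]), (97,[0,5,0,3]), (56,[0,3,3,5]), (110,[1,1,4]), (65,[2,0,4]), (98,[0,4,0]), (113,[5,0,0]), (47,[4,4,4]), (74,[1,3,5]), (47,[5,0,0]), (123,[2,2,2,4]), (111,[0,3,0,2]), (68,[0,3,3,5]), (74,[0,3]), (37,[0,5,0,3])]),
    (19,[(65,[3,0,4]), (56,[0,5,3]), (98,[3,0,4]), (84,[5,0,0]), (98,[3,0,2]), (77,[5,0,0]), (82,[0,2,2,4]), (24,[0,0,2,0]), (24,[1,1,4]), (65,[2,4,1]), (111,[2,2,2]), (56,[2,4,1]), (9,[3,0,2]), (79,[1,3,5]), (24,[0,0,5]), (92,[3,0,2]), (24,[5,0,0]), (24,[0,4,0,2]), (18,[2,4,1]), (97,[2,4,1]), (139,[1,3,1,1]), (37,[0,5,3]), (37,[3,4]), (52,[1,3,5]), (68,[0,5,3]), (82,[2,1]), (65,[0,5,3]), (119,[3,4]), (24,[1,3,1,1]), (77,[0,3]), (79,[4,4,4]), (52,[0,0,5]), (82,[1,3,5]), (84,[4,1,1]), (9,[2,2,2]), (18,[0,5,3]), (99,[1,1,4]), (79,[2,1]), (79,[1,1,4]), (84,[4,4,4]), (65,[3,0,2]),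 (77,[4,4,4]), (52,[0,3]), (56,[2,2,2]), (99,[0,0,2,0]), (37,[2,0,2,5]), (52,[2,1]), (24,[1,1,5,5]), (56,[3,4]), (24,[0,3]), (97,[3,0,2]), (79,[1,4,2]), (79,[0,3]), (92,[3,4]), (101,[3,4]), (92,[3,0,4]), (84,[0,0,2,0]), (77,[0,2,2,4]), (119,[2,4,1]), (24,[4,1,1]), (68,[3,4]), (84,[1,1,4]), (79,[0,0,2,0]), (101,[0,5,3]), (92,[2,4,1]), (82,[1,3,1,1]), (82,[4,4,4]), (65,[2,2,2]), (99,[0,2,2,4]), (97,[2,2,2]), (119,[5,0,4]), (111,[0,5,3]), (9,[3,4]), (18,[2,2,2]), (77,[2,1]), (101,[2,4,1]), (18,[5,0,4]), (24,[4,4,4]), (52,[0,0,2,0]), (129,[2,0,2,5]), (79,[0,2,2,4]), (68,[2,4,1]), (24,[1,3,5]), (99,[0,4,0,2]), (82,[1,4,2]), (84,[0,3]), (24,[2,1]), (84,[0,2,2,4]), (18,[3,4]), (9,[0,5,3]), (98,[2,4,1]), (133,[3,4]), (24,[0,2,2,4]), (77,[1,3,5]), (111,[2,0,2,5]), (52,[1,1,4]), (82,[1,1,4]), (99,[2,1]),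 (56,[3,0,4]), (97,[2,0,2,5]), (65,[3,4]), (56,[3,0,2]), (84,[0,0,5]), (52,[1,4,2]), (65,[5,0,4]), (68,[2,2,2]), (99,[4,4,4]), (79,[0,0,5]), (77,[0,0,2,0]), (119,[2,0,2,5]), (37,[2,2,2]), (97,[5,0,4]), (98,[3,4]), (97,[3,0,4]), (68,[3,0,2]), (37,[3,0,4]), (37,[2,4,1]), (84,[1,3,5]), (77,[1,4,2]), (18,[3,0,4])]),
    (17,[(6,[2,1]), (56,[5]), (48,[2,1]), (33,[0,0,5]), (5,[0,3]), (37,[0,4,2]), (9,[4]), (9,[5]), (6,[0,3]), (65,[5]), (48,[1,1,4]), (18,[4]), (18,[5]), (9,[4,4]), (5,[2,1]), (29,[0,3]), (9,[5,5]), (29,[0,0,5]), (86,[2,1]), (48,[1,3,5]), (33,[0,3]), (56,[4]), (18,[4,4]), (29,[2,1])]),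
    (18,[(37,[0,4]), (92,[0,4]), (56,[0,4]), (18,[0,4]), (37,[0,5,5]), (9,[0,5,5]), (9,[5,1]), (31,[0,3]), (85,[0,0,5]), (53,[1,4,2]), (31,[0,0,5]), (56,[0,5,5]), (9,[3,0,5]), (85,[0,3]), (10,[2,1]), (9,[0,4]), (18,[5,1]), (37,[5,1]), (10,[0,0,5]), (18,[3,0,5]), (53,[2,1]), (31,[2,1]), (10,[0,3]), (31,[1,1,4])]),
    (18,[(96,[0,0,5]), (24,[1,1,4]), (24,[0,0,5]), (92,[3,5,5]), (37,[3,5,5]), (9,[4,4,2]), (37,[3,4]), (68,[4,4,2]), (56,[3,5,5]), (96,[0,3]), (56,[4,4,2]), (56,[3,4]), (24,[0,3]), (90,[1,1,4]), (90,[2,1]), (18,[3,5,5]), (68,[3,4]), (9,[3,4]), (96,[1,1,4]), (24,[2,1]), (18,[3,4]), (101,[4,4,2]), (9,[3,5,5]), (90,[0,3])]),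
    (17,[(46,[1,4,2]), (18,[0,3,5]), (46,[1,3,5]), (37,[0,3,5]), (80,[1,3,5]), (37,[1,1,5]), (46,[1,1,4]), (74,[1,4,2]), (9,[2,0,4]), (68,[0,3,5]), (57,[1,1,4]), (75,[2,1]), (68,[2,0,4]), (37,[2,0,4]), (18,[2,2,2]), (65,[2,1,4]), (57,[0,3]), (9,[1,1,5]), (46,[2,1]), (46,[0,3]), (9,[0,3,5]), (57,[1,4,2]), (74,[1,3,5]), (56,[1,1,5])]),
    (16,[]),
    (17,[]),
    (18,[]),
    (19,[])]
def js34c17 : List (ℕ × List (ℕ × List ℕ)) := [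
    (17,[]),
    (17,[]),
    (19,[(24,[1,1]), (24,[0,0]), (5,[3,4]), (24,[5]), (24,[0,0,2,0]), (24,[1,1,4]), (24,[1,1,5]), (112,[2,0,2,5]), (24,[0,0,4]), (24,[0,0,5]), (24,[5,0,0]), (24,[0,4,0,2]), (24,[2,0]), (57,[2,0,2,5]), (139,[1,3,1,1]), (24,[5,5]), (37,[3,4]), (75,[3,4]), (29,[3,4]), (12,[3,4]), (119,[3,4]), (24,[1,3,1,1]), (36,[3,4]), (24,[1,3]), (24,[1,1,2,0]), (39,[3,4]), (24,[0,4,2]), (24,[4,4]), (80,[3,4]), (36,[2,0,2,5]), (24,[1,3,0,0]), (48,[3,4]), (37,[2,0,2,5]), (131,[2,0,2,5]), (77,[3,4]), (24,[1,1,5,5]), (56,[3,4]), (24,[0,3]), (24,[0,0,2,1]), (33,[3,4]), (92,[3,4]), (101,[3,4]), (17,[3,4]), (5,[2,0,2,5]), (24,[4]), (24,[4,1,1]), (68,[3,4]), (6,[2,0,2,5]), (115,[3,4]), (74,[3,4]), (17,[2,0,2,5]), (46,[2,0,2,5]), (24,[3,0,2]), (48,[2,0,2,5]), (76,[3,4]), (24,[2,2,2]), (9,[3,4]),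 (24,[0,4,2,5]), (24,[3,3,0]), (24,[4,4,4]), (24,[2,4,2]), (129,[2,0,2,5]), (75,[2,0,2,5]), (24,[3,3,1]), (24,[1,3,5]), (77,[2,0,2,5]), (6,[3,4]), (136,[2,0,2,5]), (24,[2,1]), (7,[3,4]), (18,[3,4]), (86,[3,4]), (7,[2,0,2,5]), (133,[3,4]), (24,[0,2,2,4]), (111,[2,0,2,5]), (45,[2,0,2,5]), (125,[3,4]), (121,[3,4]), (97,[2,0,2,5]), (65,[3,4]), (24,[0,2,2]), (14,[3,4]), (12,[2,0,2,5]), (24,[0,3,5]), (102,[3,4]), (119,[2,0,2,5]), (80,[2,0,2,5]), (98,[3,4]), (57,[3,4]), (87,[3,4]), (24,[1,4,0,2]), (46,[3,4]), (139,[0,2,2])]),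
    (17,[]),
    (17,[]),
    (19,[(110,[2,2,2]), (77,[0,2,2,2]), (87,[0,2,2,2]), (110,[0,2,2]), (110,[4,1,1]), (119,[0,3,0,2]), (113,[0,3,4]), (110,[3,3,1]), (77,[0,3,0,2]), (56,[0,3,0,2]), (110,[0,3]), (37,[0,3,0,2]), (113,[1,1,4,4]), (110,[1,1,5]), (18,[0,2,2,2]), (110,[0,2,2,4]), (86,[0,2,2,2]), (101,[0,2,2,2]), (112,[0,2,2,2]), (76,[0,2,2,2]), (6,[0,2,2,2]), (98,[0,2,2,2]), (110,[0,0,5]), (46,[0,2,2,2]), (113,[5,5]), (110,[3,3,0]), (80,[0,2,2,2]), (14,[0,2,2,2]), (57,[0,2,2,2]), (39,[0,2,2,2]), (110,[0,0,2,1]), (74,[0,3,0,2]), (102,[0,2,2,2]), (101,[0,3,0,2]), (86,[0,3,0,2]), (64,[0,2,2,2]), (9,[0,2,2,2]), (68,[0,2,2,2]), (110,[5,0,0]), (113,[0,3,5]), (17,[0,2,2,2]), (133,[0,2,2,2]), (37,[0,2,2,2]), (33,[0,2,2,2]), (110,[2,0]), (45,[0,3,0,2]), (110,[0,0,2,0]), (56,[0,2,2,2]), (110,[0,0,4]),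 (110,[2,1,5]), (113,[1,3]), (33,[0,3,0,2]), (36,[0,3,0,2]), (7,[0,3,0,2]), (102,[0,3,0,2]), (29,[0,2,2,2]), (7,[0,2,2,2]), (110,[1,1,5,5]), (14,[0,3,0,2]), (80,[0,3,0,2]), (97,[0,3,0,2]), (29,[0,3,0,2]), (110,[2,1]), (112,[0,3,0,2]), (17,[0,3,0,2]), (65,[0,2,2,2]), (64,[0,3,0,2]), (12,[0,2,2,2]), (110,[1,3]), (113,[1,4,2]), (82,[0,2,2,2]), (113,[1,3,1,1]), (110,[2,1,4]), (110,[4]), (92,[0,2,2,2]), (110,[3,0,2]), (74,[0,2,2,2]), (45,[0,2,2,2]), (110,[4,4,4]), (97,[0,2,2,2]), (110,[5]), (110,[2,0,4]), (6,[0,3,0,2]), (75,[0,2,2,2]), (48,[0,2,2,2]), (110,[1,1,4]), (110,[2,4,2]), (113,[5,0,0]), (113,[2,4,2]), (5,[0,2,2,2]), (5,[0,3,0,2]), (111,[0,3,0,2]), (36,[0,2,2,2]), (110,[4,4])]),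
    (17,[]),
    (17,[]),
    (17,[]),
    (17,[]),
    (19,[(110,[2,2,2]), (77,[0,2,2,2]), (21,[4]), (6,[2,5]), (33,[0,4,0]), (119,[0,3,0,2]), (9,[2,5]), (46,[0,4,0]), (80,[2,5]), (14,[2,5]), (45,[2,5]), (21,[4,4]), (48,[0,4,0]), (18,[0,2,2,2]), (21,[1,3]), (21,[4,1,1]), (21,[5]), (21,[2,1]), (47,[0,3]), (47,[0,0,2,0]), (47,[4]), (33,[2,5]), (47,[5]), (37,[2,5]), (37,[0,4,0]), (47,[0,2,2]), (47,[1,3]), (57,[0,2,2,2]), (47,[2,4,2]), (46,[2,5]), (21,[5,0,0]), (57,[0,4,0]), (64,[2,5]), (47,[2,1]), (9,[0,2,2,2]), (21,[0,0,4]), (47,[0,4,2]), (102,[2,5]), (21,[3,0,2]), (77,[0,3,3,5]), (37,[0,2,2,2]), (47,[0,0,5]), (65,[2,5]), (12,[0,4,0]), (5,[2,5]), (47,[3,0,2]), (12,[2,5]), (21,[0,3]), (113,[1,3]), (64,[0,4,0]), (29,[2,5]), (47,[4,4]), (65,[0,4,0]), (29,[0,2,2,2]), (7,[0,2,2,2]), (29,[0,3,3,5]),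 (6,[0,4,0]), (77,[2,5]), (75,[2,5]), (21,[5,5]), (21,[0,3,4]), (18,[2,5]), (21,[2,2,2]), (47,[1,1,5]), (86,[2,5]), (21,[0,0,5]), (77,[0,4,0]), (7,[2,5]), (47,[2,0]), (116,[2,1,4]), (110,[2,1,4]), (80,[0,4,0]), (21,[3,3,0]), (21,[0,3,5]), (47,[4,1,1]), (87,[2,5]), (21,[0,2,2]), (39,[2,5]), (47,[2,1,4]), (75,[0,2,2,2]), (21,[0,0,2,1]), (110,[1,1,4]), (48,[2,5]), (47,[3,3,1]), (21,[1,1,5]), (21,[3,3,1]), (39,[0,4,0]), (17,[2,5]), (36,[0,2,2,2]), (110,[4,4])]),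
    (19,[(24,[1,1]), (24,[0,0]), (5,[3,4]), (24,[5]), (5,[2,4,1]), (24,[1,1,4]), (24,[1,1,5]), (56,[2,4,1]), (24,[0,0,4]), (24,[0,0,5]), (52,[5]), (79,[1,1]), (24,[2,0]), (84,[5]), (7,[0,5,3]), (24,[5,5]), (37,[3,4]), (52,[1,3,5]), (29,[3,4]), (12,[3,4]), (52,[0,3,4]), (84,[1,1,5]), (36,[3,4]), (24,[1,3]), (39,[2,4,1]), (39,[3,4]), (24,[0,4,2]), (24,[4,4]), (52,[0,4,2]), (48,[2,4,1]), (52,[0,3]), (48,[3,4]), (52,[2,0]), (52,[2,1]), (33,[0,5,3]), (56,[3,4]), (24,[0,3]), (79,[1,4,2]), (33,[3,4]), (17,[0,5,3]), (75,[0,5,3]), (17,[3,4]), (84,[2,4,2]), (24,[4]), (14,[2,4,1]), (68,[3,4]), (64,[2,4,1]), (12,[0,5,3]), (74,[3,4]), (92,[2,4,1]), (74,[2,4,1]), (52,[1,1,5]), (52,[2,0,4]), (9,[3,4]), (46,[5,0,4]), (29,[2,4,1]), (79,[2,1,4]), (76,[2,4,1]), (33,[5,0,4]), (79,[1,3,4]), (68,[2,4,1]), (57,[0,5,3]),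 (6,[3,4]), (84,[0,3]), (24,[2,1]), (7,[3,4]), (18,[3,4]), (9,[0,5,3]), (84,[0,0,4]), (46,[3,0,4]), (76,[3,0,4]), (52,[0,0,4]), (52,[1,1,4]), (84,[4,4]), (36,[0,5,3]), (57,[2,4,1]), (45,[0,5,3]), (24,[0,2,2]), (14,[3,4]), (52,[4]), (24,[0,3,5]), (79,[0,0,5]), (84,[4]), (80,[2,4,1]), (5,[0,5,3]), (57,[3,4]), (37,[3,0,4]), (37,[2,4,1]), (46,[3,4]), (18,[3,0,4])]),
    (17,[]),
    (19,[(10,[5]), (5,[5,1]), (31,[0,4,2]), (48,[0,4]), (37,[0,4]), (31,[1,3]), (33,[0,4]), (12,[0,4]), (92,[0,4]), (56,[0,4]), (18,[0,4]), (5,[0,4]), (85,[4]), (37,[0,5,5]), (9,[0,5,5]), (10,[2,0]), (9,[5,1]), (29,[5,1]), (14,[5,1]), (31,[0,0]), (31,[0,3]), (31,[5,5]), (85,[3,0,2]), (31,[2,4,2]), (33,[5,1]), (6,[5,1]), (12,[5,1]), (45,[5,1]), (53,[0,2,2]), (31,[5]), (10,[4]), (85,[0,0,5]), (36,[0,4]), (33,[0,5,5]), (53,[1,4,2]),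 (31,[0,0,5]), (10,[4,4]), (46,[5,1]), (56,[0,5,5]), (9,[3,0,5]), (31,[0,3,5]), (14,[0,4]), (7,[0,4]), (85,[0,3]), (10,[2,1]), (10,[2,2,2]), (10,[0,2,2]), (17,[5,1]), (53,[2,0]), (86,[0,4]), (31,[4]), (31,[0,2,2]), (14,[0,5,5]), (48,[5,1]), (31,[2,0]), (10,[1,1]), (9,[0,4]), (39,[0,4]), (17,[0,4]), (10,[0,0]), (18,[5,1]), (6,[0,4]), (31,[0,3,4]), (10,[0,3,4]), (53,[2,1,5]), (37,[5,1]), (7,[5,1]), (85,[1,1,5]), (10,[0,0,5]), (18,[3,0,5]), (53,[2,1]), (82,[0,4]), (85,[5,5]), (31,[1,1]), (31,[2,1]), (10,[0,3]), (93,[0,3,5]), (29,[0,5,5]), (64,[0,4]), (10,[0,0,4]), (53,[2,1,4]), (29,[0,4]), (31,[4,4]), (39,[5,1]), (53,[3,3,1]), (31,[1,1,4]), (31,[2,1,4]), (31,[2,1,5])]),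
    (19,[(24,[1,1]), (24,[0,0]), (5,[3,4]), (24,[5]), (96,[0,0,5]), (24,[1,1,4]), (24,[1,1,5]), (77,[3,5,5]), (24,[0,0,4]), (24,[0,0,5]), (92,[3,5,5]), (37,[3,5,5]), (24,[2,0]), (96,[3,0,2]), (9,[4,4,2]), (24,[5,5]), (37,[3,4]), (75,[3,4]), (29,[3,4]), (12,[3,4]), (68,[4,4,2]), (56,[3,5,5]), (36,[3,4]), (24,[1,3]), (87,[3,5,5]), (39,[3,4]), (24,[0,4,2]), (24,[4,4]), (80,[3,4]), (82,[3,5,5]), (57,[3,5,5]), (48,[3,4]), (96,[0,3]), (96,[0,2,2]), (77,[3,4]), (56,[4,4,2]), (56,[3,4]), (24,[0,3]), (45,[3,5,5]), (33,[3,4]), (90,[1,1,4]), (90,[2,1]), (17,[3,4]), (76,[3,5,5]), (24,[4]), (18,[3,5,5]), (68,[3,4]), (17,[3,5,5]), (17,[4,4,2]), (74,[3,4]), (6,[3,5,5]), (7,[3,5,5]), (24,[3,0,2]), (90,[0,3,5]), (76,[3,4]), (24,[2,2,2]), (9,[3,4]), (39,[3,5,5]), (24,[3,3,0]), (24,[2,4,2]), (96,[1,1,4]), (64,[3,5,5]),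 (24,[3,3,1]), (112,[3,5,5]), (6,[3,4]), (74,[3,5,5]), (24,[2,1]), (7,[3,4]), (18,[3,4]), (86,[3,4]), (46,[3,5,5]), (101,[4,4,2]), (86,[3,5,5]), (90,[2,0]), (45,[0,2,2,2]), (24,[0,2,2]), (14,[3,4]), (33,[3,5,5]), (24,[0,3,5]), (12,[4,4,2]), (9,[3,5,5]), (14,[3,5,5]), (90,[0,3]), (57,[3,4]), (87,[3,4]), (29,[3,5,5]), (46,[3,4]), (110,[4,4])]),
    (17,[]),
    (17,[]),
    (17,[]),
    (19,[(10,[5]), (8,[1,3]), (20,[5]), (12,[1,5]), (7,[1,5]), (12,[0,2]), (12,[0,4]), (5,[0,4]), (19,[0,0]), (10,[2,0]), (16,[5]), (20,[2,0]), (20,[1,3]), (31,[5,5]), (24,[1,3]), (5,[2,4]), (8,[4]), (8,[5]), (24,[4,4]), (8,[2,0]), (29,[1,5]), (6,[1,5]), (10,[4]), (17,[2,4]), (16,[2,0]), (8,[1,1]), (19,[5]), (17,[3,4]), (14,[0,4]), (7,[0,4]), (14,[0,2]), (29,[4,0]), (7,[4,0]), (14,[1,5]), (17,[0,2]), (6,[0,2]), (7,[0,2]),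 (19,[1,3]), (6,[3,3]), (23,[4]), (5,[0,2]), (26,[5]), (5,[1,5]), (10,[0,0]), (6,[0,4]), (19,[2,0]), (16,[0,0]), (7,[3,4]), (17,[4,0]), (8,[0,0]), (39,[0,2]), (54,[0,3,4]), (31,[1,1]), (12,[2,2]), (14,[3,4]), (19,[4,4]), (12,[3,3]), (23,[0,0]), (29,[0,4]), (29,[3,3]), (36,[3,3]), (17,[2,2]), (17,[3,3]), (8,[0,0,4])]),
    (19,[])]
def js34c18 : List (ℕ × List (ℕ × List ℕ)) := [
    (18,[]),
    (18,[]),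
    (18,[]),
    (19,[(74,[0,0,4,1]), (74,[1,2,5]), (24,[2,0,4]), (10,[2,0,4]), (74,[0,4,0,2]), (56,[2,0,4]), (68,[1,1,4,4]), (74,[4,1,2]), (92,[2,0,4]), (74,[1,1,3]), (119,[1,1,4,4]), (55,[2,0,4]), (65,[1,1,4,4]), (113,[1,1,4,4]), (67,[1,1,4,4]), (53,[1,1,4,4]), (85,[2,0,4]), (109,[1,1,4,4]), (18,[2,0,4]), (106,[1,1,4,4]), (74,[1,4,2]), (120,[1,1,4,4]), (74,[0,0,2,5]), (9,[2,0,4]), (20,[2,0,4]), (128,[1,3,5]), (74,[0,4,0,3]), (31,[2,0,4]), (60,[2,0,4]), (74,[4,4,2]), (74,[0,5,0]), (74,[2,1]), (97,[2,0,4]), (74,[0,3,0,2]), (74,[5,0,0]), (24,[1,1,4,4]), (104,[2,0,4]), (23,[1,1,4,4]), (101,[1,1,4,4]), (74,[1,4,1]), (74,[1,4,4]), (53,[2,0,4]), (74,[1,2,1,1]), (68,[2,0,4]), (74,[0,2]), (19,[2,0,4]), (54,[2,0,4]), (74,[3,4]), (74,[5,3]), (97,[1,1,4,4]), (37,[2,0,4]), (128,[1,3,1,1]), (93,[2,0,4]),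 (74,[2,4]), (74,[4,4,4]), (74,[0,4]), (74,[0,0,2,0]), (74,[3,0,5]), (23,[2,0,4]), (128,[2,1]), (111,[1,1,4,4]), (10,[1,1,4,4]), (50,[2,0,4]), (8,[2,0,4]), (93,[1,1,4,4]), (118,[1,1,4,4]), (32,[2,0,4]), (74,[1,1,2]), (111,[2,0,4]), (74,[3,5,5]), (26,[2,0,4]), (96,[1,1,4,4]), (55,[1,1,4,4]), (9,[1,1,4,4]), (16,[1,1,4,4]), (37,[1,1,4,4]), (74,[0,2,2,2]), (61,[2,0,4]), (56,[1,1,4,4]), (128,[1,2,1,1]), (110,[2,0,4]), (16,[2,0,4]), (74,[0,2,2,4]), (120,[2,0,4]), (128,[5,1]), (65,[2,0,4]), (67,[2,0,4]), (69,[2,0,4]), (74,[1,3,5]), (128,[1,3,4,1]), (128,[0,4]), (74,[1,3,0]), (74,[0,3]), (109,[2,0,4])]),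
    (19,[(110,[2,2,2]), (77,[0,2,2,2]), (23,[2,2,2]), (19,[2,2,2]), (98,[3,0,2]), (77,[5,0,0]), (82,[0,2,2,4]), (77,[5,3]), (111,[2,2,2]), (54,[3,0,2]), (9,[3,0,2]), (77,[0,3,0,2]), (92,[3,0,2]), (82,[0,5,0]), (82,[2,2]), (50,[3,0,2]), (82,[4,4,2]), (93,[3,0,2]), (82,[2,1]), (82,[5,1]), (77,[0,3]), (8,[3,0,2]), (82,[1,5]), (82,[1,3,5]), (77,[1,4,1]), (9,[2,2,2]), (82,[4,0]), (61,[2,2,2]), (53,[2,2,2]), (77,[1,3,0]), (8,[2,2,2]), (65,[3,0,2]), (77,[4,4,4]), (16,[2,2,2]), (56,[2,2,2]), (77,[1,1,2]), (50,[2,2,2]), (77,[3,4]), (97,[3,0,2]), (67,[2,2,2]), (69,[2,2,2]), (60,[2,2,2]), (77,[0,2]), (77,[0,2,2,4]), (31,[3,0,2]), (10,[2,2,2]), (82,[1,1,2]), (19,[3,0,2]), (60,[3,0,2]), (82,[1,3,1,1]), (82,[4,4,4]), (65,[2,2,2]), (20,[2,2,2]), (24,[3,0,2]), (97,[2,2,2]), (32,[2,2,2]), (82,[3,3]), (24,[2,2,2]),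 (18,[2,2,2]), (77,[2,1]), (77,[2,4]), (77,[0,5,0]), (82,[0,2]), (109,[3,0,2]), (69,[3,0,2]), (77,[2,0,2,5]), (10,[3,0,2]), (82,[1,4,2]), (77,[1,1,3]), (82,[0,2,2,2]), (67,[3,0,2]), (82,[0,3,0,2]), (77,[1,3,5]), (82,[0,4]), (82,[1,1,4]), (77,[1,2,5]), (31,[2,2,2]), (56,[3,0,2]), (55,[2,2,2]), (77,[4,0]), (113,[2,2,2]), (68,[2,2,2]), (54,[2,2,2]), (55,[3,0,2]), (77,[0,0,2,0]), (37,[2,2,2]), (82,[2,4]), (96,[2,2,2]), (68,[3,0,2]), (26,[2,2,2]), (26,[3,0,2]), (20,[3,0,2]), (77,[1,4,2]), (77,[1,4,4])]),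
    (18,[]),
    (18,[]),
    (18,[]),
    (18,[]),
    (18,[]),
    (19,[(31,[0,4,0]), (21,[0,4]), (24,[2,0,4]), (56,[0,4,0]), (21,[5,1]), (10,[0,4,0]), (47,[5,3]), (9,[2,5]), (19,[0,4,0]), (74,[1,1,3]), (16,[2,5]), (55,[2,0,4]), (21,[4,0]), (98,[2,5]), (23,[2,5]), (21,[2,1]), (21,[2,2]), (21,[2,4]), (31,[2,5]), (32,[2,5]), (21,[1,1,4]), (37,[2,5]), (21,[5,3]), (37,[0,4,0]), (116,[0,4,0,3]), (26,[2,5]), (31,[2,0,4]), (26,[0,4,0]), (74,[4,4,2]), (74,[0,5,0]), (19,[2,5]), (47,[1,4,1]), (67,[0,4,0]), (47,[1,1,3]), (68,[0,4,0]), (47,[2,1]), (55,[2,5]), (47,[1,4,4]), (24,[0,4,0]), (23,[0,4,0]), (65,[2,5]), (21,[0,2]), (74,[0,2]), (19,[2,0,4]), (21,[0,3]), (74,[3,4]), (68,[2,5]), (90,[2,5]), (20,[0,4,0]), (50,[0,4,0]), (18,[0,4,0]), (74,[2,4]), (55,[0,4,0]), (65,[0,4,0]), (50,[2,5]), (74,[3,0,5]),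 (53,[0,4,0]), (32,[0,4,0]), (118,[2,5]), (56,[2,5]), (21,[3,4]), (9,[0,4,0]), (18,[2,5]), (111,[2,5]), (47,[0,5,5]), (21,[0,0,5]), (47,[5,1]), (47,[3,4]), (47,[1,1,4]), (21,[1,5]), (101,[2,5]), (8,[2,5]), (21,[1,4,4]), (20,[2,5]), (61,[0,4,0]), (10,[2,5]), (16,[0,5,0,3]), (16,[2,0,4]), (16,[0,4,0]), (47,[0,4]), (69,[2,5]), (21,[1,2,5]), (67,[2,0,4]), (69,[2,0,4]), (74,[1,3,5]), (21,[1,1,3]), (106,[0,3,3,5]), (54,[2,5]), (74,[0,3]), (109,[0,4,0])]),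
    (19,[(52,[2,4]), (56,[0,5,3]), (52,[5,3]), (19,[2,2,2]), (8,[0,5,3]), (10,[3,0,4]), (10,[0,5,3]), (52,[3,3]), (79,[2,4]), (31,[0,5,3]), (52,[1,5]), (79,[1,3,5]), (52,[0,5,5]), (18,[2,4,1]), (52,[5,1]), (37,[0,5,3]), (52,[1,3,5]), (52,[1,4,1]), (79,[1,2,5]), (65,[0,5,3]), (16,[0,5,3]), (10,[2,4,1]), (52,[0,0,5]), (82,[1,3,5]), (77,[1,4,1]), (9,[2,2,2]), (18,[0,5,3]), (61,[2,2,2]), (53,[2,2,2]), (77,[1,3,0]), (8,[2,2,2]), (52,[2,2]), (20,[3,0,4]), (52,[0,3]), (56,[2,2,2]), (77,[1,1,2]), (52,[2,1]), (79,[3,3]), (67,[2,2,2]), (69,[2,2,2]), (60,[2,2,2]), (77,[0,2]), (32,[5,0,4]), (54,[0,5,3]), (52,[1,3,0]), (52,[0,2]), (20,[2,4,1]), (52,[4,0]), (79,[5,3]), (19,[0,5,3]), (65,[2,2,2]), (20,[2,2,2]), (79,[0,2]), (32,[2,2,2]), (82,[3,3]), (18,[2,2,2]), (50,[0,5,3]), (77,[2,4]), (77,[0,5,0]), (52,[1,1,2]),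 (61,[0,5,3]), (53,[0,5,3]), (8,[2,4,1]), (82,[1,4,2]), (69,[0,5,3]), (23,[5,0,4]), (9,[0,5,3]), (23,[0,5,3]), (32,[0,5,3]), (52,[1,1,4]), (52,[0,4]), (77,[1,2,5]), (31,[2,2,2]), (54,[2,4,1]), (55,[2,2,2]), (52,[1,4,2]), (65,[5,0,4]), (68,[2,2,2]), (54,[2,2,2]), (55,[2,4,1]), (20,[0,5,3]), (52,[1,1,3]), (82,[2,4]), (96,[2,2,2]), (69,[2,4,1]), (26,[2,2,2]), (26,[0,5,3]), (19,[2,4,1]), (77,[1,4,2]), (77,[1,4,4])]),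
    (19,[(10,[5]), (16,[4]), (20,[5]), (24,[5]), (6,[2,1]), (10,[5,5]), (56,[5]), (6,[5,3]), (48,[2,1]), (16,[4,4]), (33,[0,0,5]), (5,[0,4]), (29,[0,2]), (24,[5,5]), (16,[5]), (29,[3,4]), (33,[4,0]), (31,[5,5]), (29,[2,4]), (5,[0,3]), (5,[2,4]), (37,[0,4,2]), (8,[4]), (8,[5]), (24,[4,4]), (20,[4]), (29,[1,5]), (9,[4]), (9,[5]), (6,[1,5]), (10,[4]), (8,[0,4,2]), (19,[4]), (6,[0,3]), (10,[4,4]), (19,[5]), (32,[5]), (33,[2,2]), (65,[5]), (6,[2,4]), (32,[4,4]), (29,[4,0]), (48,[1,1,2]), (32,[5,5]), (48,[1,1,4]), (18,[4]), (18,[5]), (9,[4,4]), (33,[5,3]), (6,[0,2]), (5,[2,1]), (6,[2,2]), (29,[0,3]), (5,[4,0]), (6,[3,3]), (9,[5,5]), (23,[4]), (5,[0,2]), (26,[5]), (5,[1,5]), (5,[2,2]), (6,[0,4]), (6,[3,4]), (29,[0,0,5]), (48,[5,3]), (33,[1,1,2]), (6,[1,3,0]), (86,[5,3]), (86,[2,1]), (29,[1,1,3]),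 (48,[1,3,5]), (85,[5,5]), (23,[0,4,2]), (16,[0,4,2]), (50,[5]), (19,[4,4]), (33,[0,3]), (6,[0,5,5]), (48,[1,2,5]), (56,[4]), (18,[4,4]), (29,[0,4]), (29,[3,3]), (29,[2,1]), (48,[4,0]), (5,[0,5,0]), (86,[1,1,2]), (69,[0,4,2])]),
    (18,[]),
    (18,[]),
    (19,[(46,[0,5,5]), (57,[4,0]), (46,[1,4,4]), (10,[2,0,4]), (46,[1,4,2]), (18,[0,3,5]), (46,[1,3,5]), (24,[1,1,5]), (37,[0,3,5]), (23,[1,1,5]), (80,[1,3,5]), (20,[0,3,5]), (37,[1,1,5]), (46,[1,1,3]), (46,[2,4]), (19,[1,1,5]), (57,[1,3,0]), (46,[1,1,2]), (46,[1,1,4]), (57,[3,3]), (74,[1,4,2]), (32,[1,1,5]), (46,[0,2]), (9,[2,0,4]), (55,[0,3,5]), (68,[0,3,5]), (10,[1,1,5]), (53,[0,3,5]), (46,[4,0]), (69,[2,1,4]), (57,[1,1,3]), (57,[1,1,4]), (46,[0,5,0]), (75,[2,1]), (8,[1,1,5]), (10,[0,3,5]), (23,[2,1,4]), (46,[0,4]), (46,[5,1]), (31,[0,3,5]),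 (54,[1,1,5]), (68,[2,0,4]), (53,[1,1,5]), (50,[0,3,5]), (23,[0,3,5]), (50,[1,1,5]), (61,[1,1,5]), (37,[2,0,4]), (20,[2,2,2]), (57,[2,2]), (46,[1,4,1]), (57,[5,1]), (54,[0,3,5]), (18,[2,2,2]), (65,[2,1,4]), (60,[1,1,5]), (19,[0,3,5]), (32,[0,3,5]), (26,[1,1,5]), (80,[0,2]), (8,[0,3,5]), (74,[1,1,2]), (57,[0,3]), (31,[1,1,5]), (57,[1,2,5]), (16,[1,1,5]), (19,[2,1,4]), (9,[1,1,5]), (16,[2,1,4]), (46,[2,1]), (67,[1,1,5]), (60,[0,3,5]), (46,[0,3]), (75,[0,2]), (75,[1,2,5]), (57,[0,2]), (9,[0,3,5]), (24,[0,3,5]), (20,[1,1,5]), (57,[1,4,2]), (16,[0,3,5]), (57,[3,4]), (74,[1,3,5]), (75,[1,1,2]), (46,[5,3]), (46,[3,4]), (56,[1,1,5]), (26,[0,3,5])]),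
    (18,[]),
    (19,[(10,[5]), (8,[1,3]), (20,[5]), (12,[1,5]), (7,[1,5]), (12,[0,2]), (12,[0,4]), (5,[0,4]), (19,[0,0]), (10,[2,0]), (16,[5]), (20,[2,0]), (20,[1,3]), (31,[5,5]), (24,[1,3]), (5,[2,4]), (8,[4]), (8,[5]), (24,[4,4]), (8,[2,0]), (29,[1,5]), (6,[1,5]), (10,[4]), (17,[2,4]), (16,[2,0]), (8,[1,1]), (19,[5]), (17,[3,4]), (14,[0,4]), (7,[0,4]), (14,[0,2]), (29,[4,0]), (7,[4,0]), (14,[1,5]), (17,[0,2]), (6,[0,2]), (7,[0,2]), (19,[1,3]), (6,[3,3]), (23,[4]), (5,[0,2]), (26,[5]), (5,[1,5]), (10,[0,0]), (6,[0,4]), (19,[2,0]), (16,[0,0]), (7,[3,4]), (17,[4,0]), (8,[0,0]), (39,[0,2]), (54,[0,3,4]), (31,[1,1]), (12,[2,2]), (14,[3,4]), (19,[4,4]), (12,[3,3]), (23,[0,0]), (29,[0,4]), (29,[3,3]), (36,[3,3]), (17,[2,2]), (17,[3,3]), (8,[0,0,4])]),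
    (18,[]),
    (19,[])]
def js34c19 : List (ℕ × List (ℕ × List ℕ)) := [
    (19,[]),
    (19,[]),
    (19,[]),
    (19,[]),
    (19,[]),
    (19,[]),
    (19,[]),
    (19,[]),
    (19,[]),
    (19,[]),
    (19,[]),
    (19,[]),
    (19,[]),
    (19,[]),
    (19,[]),
    (19,[]),
    (19,[]),
    (19,[]),
    (19,[]),
    (19,[])]
def pr34c0 : List (ℕ × List (ℕ × List ℕ)) := [
    (0,[]),
    (19,[]),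
    (19,[(2,[3,1,3,3]), (2,[1,1,1,5,2]), (105,[0,0,3,4]), (15,[5,0,0])]),
    (19,[(3,[2]), (3,[3,1,3,3]), (3,[1,1,1,5,2]), (63,[0,4,4]), (19,[0,2,0])]),
    (19,[(4,[3,1,3,3]), (4,[2,0,2]), (8,[3])]),
    (12,[]),
    (12,[(6,[3,1,3,3])]),
    (17,[]),
    (18,[]),
    (16,[]),
    (13,[]),
    (19,[(11,[3,1,3,3]), (71,[1,1,1,5,2]), (11,[3,0,3]), (11,[1,1,1,5,2]), (91,[3,0,3]), (47,[1,5])]),
    (17,[(12,[1,1])]),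
    (19,[(13,[1,1,1,5,2]), (13,[0,3,3]), (13,[0,3])]),
    (17,[(14,[1,1,1,5,2]), (14,[1,1,2,0]), (14,[3,1,3,3]), (39,[1,3]), (45,[0,0,2,1])]),
    (19,[(15,[1,1,1,5,2]), (15,[1,4]), (108,[4,2]), (15,[3,1,3,3]), (28,[1]), (118,[2,4,2])]),
    (18,[(16,[3,1,3,3]), (16,[1,1,1,5,2]), (69,[1,4,1]), (16,[1,5]), (60,[4,0])]),
    (17,[(17,[1,1,1,5,2]), (17,[1,3,0,0])]),
    (16,[(18,[3,1,3,3])]),
    (18,[(19,[3,1,3,3]), (109,[0,2,0,3])])]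
def pr34c1 : List (ℕ × List (ℕ × List ℕ)) := [
    (18,[(20,[3,1,3,3]), (61,[1,1,1,5,2]), (109,[0,2,0,3])]),
    (10,[]),
    (19,[(22,[3,0]), (22,[3,1,3,3]), (135,[3,0]), (129,[0,0,2,0,2])]),
    (18,[(23,[3,1,3,3])]),
    (2,[]),
    (19,[(25,[1,1,1,5,2]), (25,[1,3,1]), (25,[3,5]), (35,[2,1])]),
    (18,[(26,[1,1,1,5,2]), (60,[4,0])]),
    (19,[(27,[1,1,1,5,2]), (140,[2,0,3,3]), (37,[4,1])]),
    (19,[(28,[3,1,3,3]), (38,[1,1,1,5,2]), (28,[4,2]), (35,[2,1])]),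
    (12,[(29,[3,1,3,3]), (33,[1,1,1,5,2]), (86,[3,3,0])]),
    (19,[(30,[1,1,1,5,2])]),
    (13,[(31,[5,1])]),
    (18,[(32,[1,1,1,5,2])]),
    (12,[(33,[1,1,1,5,2]), (86,[3,3,0])]),
    (19,[(34,[3,1,3,3]), (34,[1,1,1,5,2]), (44,[1,1,3,3]), (34,[3,3,0,5])]),
    (19,[(35,[3,1,3,3]), (35,[0,0,2,0,2]), (35,[3,5,5])]),
    (17,[(36,[3,1,3,3])]),
    (6,[]),
    (19,[(38,[1,1,1,5,2]), (38,[3,1,3,3]), (28,[4,2]), (35,[2,1])]),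
    (17,[(39,[1,1,1,5,2]), (39,[1,4,0,2]), (39,[3,1,3,3]), (14,[1,3]), (76,[1,4,2])])]
def pr34c2 : List (ℕ × List (ℕ × List ℕ)) := [
    (19,[(40,[1,1,1,5,2]), (40,[3,1,3,3]), (42,[3,3,5]), (42,[0,3,0]), (52,[2,4])]),
    (19,[(41,[0,2,5]), (41,[1,1,1,5,2]), (72,[2,0,2]), (32,[0,0,2,1])]),
    (19,[(42,[3,1,3,3]), (103,[1,1,1,5,2]), (42,[1,1,1,5,2]), (103,[0,2,4]), (89,[0,0,5])]),
    (19,[(43,[0,3,1]), (43,[3,1,3,3]), (93,[1,3,0,5]), (93,[4,1,2]), (36,[5,1])]),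
    (19,[(44,[3,1,3,3]), (44,[1,1,1,5,2]), (34,[1,2]), (53,[0,3,3])]),
    (17,[(45,[1,1,1,5,2]), (12,[1,1])]),
    (15,[]),
    (10,[(47,[1,1,1,5,2])]),
    (12,[(48,[1,1,1,5,2])]),
    (19,[(49,[1,1,1,5,2]), (3,[2]), (49,[0,4,4]), (19,[1,1,2,0])]),
    (18,[(50,[3,1,3,3]), (26,[1,1,1,5,2]), (60,[4,0])]),
    (19,[(51,[1,1,1,5,2]), (51,[2,0,3]), (51,[3,1,3,3]), (25,[2,0,3]), (129,[0,0,2,0,2])]),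
    (11,[]),
    (13,[(53,[1,1,1,5,2]), (85,[3,0,5])]),
    (18,[(54,[3,1,3,3]), (32,[1,1,1,5,2])]),
    (18,[(55,[3,1,3,3]), (60,[1,1,1,5,2]), (60,[4,0])]),
    (16,[(56,[3,1,3,3]), (119,[1,1,1,5,2]), (56,[1,1,4]), (98,[1,3,1,1])]),
    (15,[(57,[1,1,5])]),
    (19,[(58,[1,1,1,5,2]), (58,[3,1,3,3]), (95,[0,0,5,1]), (95,[1,2,1]), (76,[0,5,3])]),
    (19,[(59,[1,1,1,5,2]), (107,[0,0,5,1]), (59,[1,2,4]), (8,[0,0,5,1]), (99,[0,4,2,5])])]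
def pr34c3 : List (ℕ × List (ℕ × List ℕ)) := [
    (18,[(60,[1,1,1,5,2]), (60,[4,0])]),
    (18,[(61,[1,1,1,5,2]), (109,[0,2,0,3])]),
    (19,[(62,[1,3,1]), (62,[3,1,3,3]), (73,[2,0,3]), (118,[2,4,2])]),
    (19,[(63,[3,1,3,3]), (3,[2]), (3,[1,1,1,5,2]), (63,[0,4,4]), (19,[0,2,0])]),
    (17,[(64,[1,1,1,5,2])]),
    (7,[]),
    (19,[(66,[1,1,1,5,2]), (66,[3,1,3,3]), (70,[0,3,4,1]), (117,[1,1,1,5,2]), (70,[5,3,4]), (10,[5])]),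
    (18,[(67,[3,1,3,3]), (67,[0,0,4,1]), (106,[0,0,4,1]), (9,[1,1,3])]),
    (16,[(68,[3,1,3,3]), (129,[1,1,1,5,2])]),
    (18,[(69,[1,1,1,5,2]), (69,[3,1,3,3]), (106,[1,5]), (16,[1,4,4]), (56,[2,4])]),
    (19,[(70,[3,1,3,3]), (100,[1,1,1,5,2]), (70,[0,3,4,1]), (70,[5,3,4]), (10,[5])]),
    (19,[(71,[3,1,3,3]), (71,[1,1,1,5,2]), (11,[3,0,3]), (71,[1,5,3]), (67,[1,1,1,5,2]), (47,[1,5])]),
    (19,[(72,[3,1,3,3]), (72,[3]), (4,[2,0])]),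
    (19,[(73,[3,1,3,3]), (62,[1,3,1]), (73,[2,0,3]), (118,[2,4,2])]),
    (3,[]),
    (15,[(75,[3,1,3,3])]),
    (17,[(76,[3,1,3,3]), (45,[1,1,1,5,2]), (12,[1,1])]),
    (4,[]),
    (19,[(78,[3,1,3,3]), (140,[2,0,3,3]), (140,[1,1,1,5,2]), (37,[4,1])]),
    (11,[(79,[3,1,3,3]), (84,[1,1,1,5,2])])]
def pr34c4 : List (ℕ × List (ℕ × List ℕ)) := [
    (15,[(80,[3,1,3,3]), (57,[1,1,5])]),
    (19,[(81,[1,1,1,5,2]), (81,[2,5,1]), (63,[1,3,0]), (61,[1,3,3]), (77,[5,3,4])]),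
    (4,[(82,[3,1,3,3])]),
    (19,[(83,[3,0,3]), (83,[1,3,0,0]), (83,[3,1,3,3]), (131,[4,0,5]), (66,[0,0,2,2])]),
    (11,[(84,[1,1,1,5,2])]),
    (13,[(85,[3,0,5])]),
    (12,[(86,[3,3,0])]),
    (17,[(87,[3,3,1]), (36,[3,1,3,3])]),
    (19,[(88,[1,1,1,5,2]), (88,[3,3,4]), (131,[1,1,1,5,2]), (4,[2,0])]),
    (19,[(89,[1,1,1,5,2]), (89,[0,0,2,2]), (61,[3,3,5])]),
    (14,[]),
    (19,[(91,[1,1,1,5,2]), (91,[3,1,3,3]), (11,[3,0,3]), (91,[3,0,3]), (47,[1,5])]),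
    (6,[(92,[1,1,1,5,2])]),
    (13,[(93,[4,1,2]), (31,[5,1])]),
    (19,[(94,[3,1,3,3]), (94,[1,1,1,5,2]), (27,[2,4,0]), (37,[4,1])]),
    (19,[(95,[4,2,2]), (95,[1,1]), (95,[1,1,1,5,2]), (10,[1,2,1])]),
    (14,[(96,[4,4,2])]),
    (1,[]),
    (16,[(98,[5,0,0]), (98,[1,3,1,1])]),
    (11,[(99,[3,1,3,3])])]
def pr34c5 : List (ℕ × List (ℕ × List ℕ)) := [
    (19,[(100,[3,1,3,3]), (100,[1,1,1,5,2]), (70,[0,3,4,1]), (70,[5,3,4]), (10,[5])]),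
    (8,[]),
    (17,[(102,[3,1,3,3]), (17,[1,1,1,5,2]), (17,[1,3,0,0])]),
    (19,[(103,[1,1,1,5,2]), (103,[3,3,5]), (89,[0,0,5])]),
    (13,[(104,[3,1,3,3]), (85,[3,0,5])]),
    (19,[(105,[0,0,3,4]), (98,[0,0,3,4])]),
    (18,[(106,[3,1,3,3]), (106,[1,4,1]), (109,[0,2,0,3])]),
    (19,[(107,[1,1,1,5,2]), (107,[0,0,5,1]), (59,[5,0,4]), (59,[0,0,5,1]), (40,[5,3])]),
    (19,[(108,[1,1,1,5,2]), (108,[3,1,3,3]), (105,[0,0,3,4]), (15,[5,0,0])]),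
    (18,[(109,[0,2,0,3])]),
    (5,[]),
    (7,[(111,[3,1,3,3])]),
    (17,[(112,[3,1,3,3]), (64,[1,1,1,5,2])]),
    (5,[(113,[3,1,3,3])]),
    (19,[(114,[3,1,3,3])]),
    (17,[(115,[3,1,3,3]), (12,[1,1])]),
    (10,[(116,[3,1,3,3]), (47,[1,1,1,5,2])]),
    (19,[(117,[1,1,1,5,2]), (117,[3,1,3,3]), (66,[1,1,1,5,2]), (100,[1,5,0]), (117,[5,3,4]), (31,[0,4,0])]),
    (14,[(118,[3,1,3,3]), (96,[4,4,2])]),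
    (16,[(119,[0,4,0,2]), (119,[3,1,3,3]), (92,[1,1,4])])]
def pr34c6 : List (ℕ × List (ℕ × List ℕ)) := [
    (14,[(120,[3,1,3,3])]),
    (12,[(121,[3,1,3,3]), (48,[1,1,1,5,2])]),
    (19,[(122,[0,5,0,0]), (122,[3,1,3,3]), (127,[1,1,1,5,2]), (52,[1,4,1,5]), (67,[0,5,0,0])]),
    (10,[(123,[3,1,3,3])]),
    (19,[(124,[3,1,3,3]), (30,[1,1,1,5,2])]),
    (17,[(125,[1,1,1,5,2]), (125,[1,3]), (12,[1,1])]),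
    (19,[(126,[1,1,1,5,2]), (126,[3,1,3,3]), (34,[1,2]), (13,[1,1,1,5,2]), (53,[0,3,3])]),
    (19,[(127,[1,1,4,1]), (127,[1,1,1,5,2]), (127,[3,1,3,3]), (137,[0,5,0,0]), (99,[0,4,2,5])]),
    (3,[(128,[3,1,3,3])]),
    (16,[(129,[1,1,1,5,2])]),
    (13,[(130,[1,1,1,5,2])]),
    (17,[(131,[1,1,1,5,2]), (17,[1,3,0,0])]),
    (19,[(132,[1,3,0,5]), (132,[1,1,1,5,2]), (22,[0,3]), (9,[2])]),
    (8,[(133,[3,1,3,3])]),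
    (13,[(134,[3,1,3,3])]),
    (19,[(135,[3,1,3,3]), (22,[3,0]), (135,[3,0]), (129,[0,0,2,0,2])]),
    (17,[(136,[1,4,0,2]), (136,[3,1,3,3]), (136,[1,1,1,5,2]), (125,[0,2,2]), (9,[2,0])]),
    (19,[(137,[3,1,3,3]), (137,[1,4,1,5]), (138,[2,4,1]), (137,[1,1,1,5,2]), (138,[1,1,4,1]), (26,[0,4,2])]),
    (19,[(138,[3,1,3,3]), (137,[1,1,1,5,2]), (137,[1,1,4,1]), (138,[1,1,1,5,2]), (122,[2,0,2,2]), (10,[5])]),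
    (2,[(139,[3,1,3,3])])]
def pr34c7 : List (ℕ × List (ℕ × List ℕ)) := [
    (19,[(140,[2,0,3,3]), (140,[1,1,1,5,2]), (37,[4,1])]),
    (16,[(141,[3,1,3,3]), (141,[2,2,2,4]), (98,[0,0,5])]),
    (12,[(142,[3,1,3,3]), (86,[3,3,0])]),
    (19,[(143,[3,1,3,3]), (143,[0,0,3]), (143,[1,1,1,5,2]), (46,[4,2])])]
def base34c0 : List (List (ℕ × List ℕ)) := [
    [],
    [],
    [(24,[3,1,3,3])],
    [(74,[3,1,3,3])],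
    [(77,[3,1,3,3])],
    [(110,[3,1,3,3])],
    [(37,[1,1,1,5,2]), (37,[0,0,5])],
    [(65,[3,1,3,3]), (65,[0,2,2,4])],
    [(101,[0,0,2,0]), (101,[3,1,3,3])],
    [],
    [(21,[1,1,1,5,2]), (47,[2,5]), (21,[3,1,3,3]), (123,[1,1,1,5,2]), (116,[2,5]), (47,[0,5,0,3]), (47,[0,4,0])],
    [(52,[3,1,3,3]), (52,[5,0,4]), (99,[0,5,3]), (99,[1,1,1,5,2]), (99,[5,0,4]), (52,[1,1,1,5,2]), (52,[0,5,3])],
    [(5,[3,1,3,3]), (5,[4]), (6,[5]), (5,[1,1,1,5,2]), (6,[1,1,1,5,2]), (6,[0,4,2,5]), (5,[4,4]), (48,[4]), (6,[0,4,2]), (29,[1,1,1,5,2])],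
    [(10,[0,4]), (10,[1,1,1,5,2]), (130,[0,4]), (10,[3,1,3,3]), (134,[0,4]), (134,[1,2,1,1]), (130,[1,3,4,1]), (134,[1,3,4,1]), (111,[1,3,5]), (134,[5,1])],
    [(90,[3,1,3,3]), (90,[0,4,0,3]), (90,[0,3,5,3]), (120,[3,5,5]), (90,[3,5,5]), (120,[0,4,0,3]), (111,[1,3,5]), (118,[3,5,5]), (118,[0,4,0,3]), (120,[4,4,2])],
    [(46,[3,1,3,3]), (75,[0,3,5]), (46,[0,3,5]), (46,[2,1,4]), (133,[2,4,2]), (75,[2,1,4]), (101,[0,3,5]), (133,[2,1,4]), (133,[1,3,1,1]), (46,[1,3,1,1])],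
    [(9,[3,1,3,3]), (9,[0,3]), (92,[1,1,1,5,2]), (18,[1,1,1,5,2]), (9,[1,1,1,5,2]), (9,[1,1,5,5]), (68,[0,2,2,4]), (129,[2,1]), (92,[4,1,1]), (9,[4,1,1]), (129,[0,3]), (18,[1,1,5,5]), (129,[1,3,1,1]), (18,[4,1,1])],
    [(7,[0,0]), (7,[3,1,3,3]), (12,[0,0,4]), (7,[1,1,1,5,2]), (7,[1,3,4]), (45,[0,0]), (36,[1,1,1,5,2]), (64,[0,2,2,5]), (36,[0,0]), (36,[0,0,4]), (68,[2,0]), (36,[1,3,4]), (17,[0,2,2,5]), (7,[0,0,4]), (56,[2,0]), (68,[1,1,4]), (64,[1,3,4]), (12,[5,0,0]), (56,[0,0,4]), (17,[0,0]), (68,[0,2,2,5]), (68,[1,4,2]), (68,[1,3,4]), (17,[1,1,4]), (112,[0,2,2,5]), (64,[0,3,4]), (64,[2,0]), (64,[1,1]), (56,[1,1]), (112,[1,3,4]), (18,[2,1]), (12,[0,2,2,5]), (112,[1,1]), (112,[0,0]), (98,[2,1]), (64,[0,0,4]), (64,[0,0]), (45,[1,3,4]), (12,[2,0]), (36,[1,1]), (112,[0,0,4]), (7,[0,2,2,5]), (56,[1,1,4]),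 (12,[1,4,2]), (36,[0,2,2,5]), (112,[1,1,4])],
    [(8,[3,1,3,3]), (8,[3,3]), (8,[1,1,1,5,2]), (8,[5,3]), (23,[3,3]), (56,[2,2]), (23,[5,3]), (26,[4,0]), (8,[0,2]), (23,[1,1,1,5,2]), (23,[1,1,2]), (32,[2,2]), (32,[2,1]), (56,[2,1]), (18,[5,3]), (8,[2,1]), (54,[3,3]), (54,[0,2]), (18,[1,1,2]), (23,[0,2]), (32,[0,2,0,3]), (109,[1,1,4]), (32,[5,3]), (56,[0,2,0,3]), (26,[0,2]), (54,[4,0]), (18,[2,1]), (23,[0,3]), (26,[1,4,2]), (19,[5,3]), (32,[3,3]), (18,[1,1,4]), (109,[1,1,2]), (56,[4,0]), (9,[3,3]), (54,[2,2]), (9,[0,2]), (9,[5,3]), (32,[1,1,2]), (98,[0,5,5]), (8,[1,1,2]), (54,[0,3]), (56,[1,1,4]), (26,[5,3]), (54,[0,2,0,3]), (32,[0,2])],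
    [(1,[3,1,3,3]), (1,[1,1,1,5,2]), (114,[5,0]), (1,[0]), (1,[0,0]), (64,[3,4]), (114,[1,1,1,5,2]), (1,[0,5,3,4]), (26,[1,3,4]), (114,[0]), (7,[1,1,3]), (7,[0,0]), (30,[0,3,1,2]), (12,[0,0,4]), (30,[0,0]), (24,[0,3,4,1]), (7,[0,3,1,2]), (7,[5,0,4]), (114,[0,3,1,2]), (124,[1,3,1]), (124,[0,5,3,4]), (24,[1,1,4]), (55,[0,0]), (1,[0,3,1,2]), (62,[2,2,2,4]), (62,[0]), (24,[0,0,4]), (7,[5,0]), (62,[0,2,5]), (36,[0,0,4]), (36,[1,3,4]), (1,[1,3,1]), (64,[0,5,3,4]), (30,[5,0]), (12,[0,5,1]), (1,[5,0]), (7,[0,5,0]), (141,[3,4]), (30,[0,5,3,4]), (26,[1,1]), (62,[0,5,1]), (114,[0,5,3,4]), (112,[2,2,2,4]), (117,[0,0]), (30,[0]), (98,[1,1,3]), (7,[5,0,0]), (36,[3,4]), (12,[1,1,3]), (141,[2,2,2,4]), (41,[4,0]), (55,[1,3,1]), (41,[0,5,1]), (98,[1,3,1]), (7,[1,3,1]), (141,[0,5,1]), (7,[1,3,4]), (50,[0,5,3,4]),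 (98,[0,5,3,4]), (7,[2,2,2,4]), (26,[0,0]), (64,[0]), (24,[0,5,0]), (55,[1,1,3]), (51,[0,5,1]), (26,[0,0,4]), (141,[1,3,1]), (124,[0,3,1,2]), (62,[0,0]), (62,[0,0,4]), (117,[0,3,1,2]), (1,[0,0,4]), (141,[0,5,0]), (55,[0,5,0]), (25,[1,1]), (141,[0,5,3,4]), (114,[2,2,2,4]), (124,[1,1,3]), (124,[0]), (30,[1,1,3]), (141,[0,0]), (112,[0,2,2,5]), (98,[0,0,4]), (25,[2,2,2,4]), (117,[2,2,2,4]), (51,[4,0]), (117,[5,0,0]), (30,[0,3,4,1]), (51,[2,2,2,4]), (98,[0,3,4,1]), (117,[0,5,3,4]), (99,[0,5,0]), (36,[2,2,2,4]), (7,[0,5,3,4]), (24,[1,3,1]), (124,[0,0]), (55,[1,3,4]), (141,[1,1,4]), (12,[0,5,3,4]), (36,[0,5,1]), (141,[0,3,1,2]), (36,[1,3,1]), (12,[0,2,2,5]), (141,[5,0]), (112,[1,1]), (55,[5,0,4]), (98,[2,0,3]), (98,[0,5,0]), (124,[5,0,0]), (50,[1,1,3]), (1,[0,5,1]), (1,[2,2,2,4]), (62,[1,3,4]), (55,[2,2,2,4]),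 (141,[5,0,0]), (51,[0,3,4,1]), (64,[2,2,2,4]), (30,[0,5,0]), (62,[1,3,1]), (124,[5,0]), (62,[0,5,3,4]), (117,[3,4]), (50,[0]), (141,[0]), (124,[0,5,0]), (51,[5,0,0]), (124,[2,2,2,4]), (55,[5,0]), (51,[0,5,3,4]), (141,[1,1,3]), (64,[5,0,0]), (36,[0,5,0]), (98,[5,0,0]), (98,[3,4]), (62,[0,5,0]), (62,[1,1,3]), (26,[0,5,3,4]), (51,[3,4]), (64,[0,3,1,2]), (99,[0,0,4]), (41,[1,1,3]), (88,[1,1,3])]]

def cert34 : Trans.Cert where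
  N := 144
  ops := [
    27592216860577362925592701879321986131682054081890763455936397000982957384378852261352805777128322998933880077385096387384295623130263802759676361390541265531713287584471801429181772443642644323504123169759087062901234095458080448891778438986300738780661485804236320064033170410044132688760155129408841188986036542265906058183184887681056839304961,
    30951641509596391625239314328358806084823486181631329926233881713475308046634784328890389259207018435788819832104200326415240993588333489563350594016568230790360990692659515846474448468380255985022490463684386813950198969373767687789071742483043688187420579336708867284820249492782449675182672682708767983393080237165233448353484410881501511286786,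
    28296995744467864846163957955865741836631256892972723436577417609070555912283682400220070481683137499460631386587901009919660049446521481046097580313425362390315591669407130985409045656190511128278122589889346678661370556364504930460962081692906191541272217352931600150819436696210989226660140401663696897364631900028473092065308546219198835918851,
    24235529473893059239335234908151965376747644173524027733127142623948351628104265237525891712188183790817000223874858941892603130607848842009261986993322542497728259692139060947922539269343894623541977123139407517133844406970703951012081423257948385835887506662224256643508833947263283395199121472025418213679561608364231034415958684910115214985476,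
    28277212406046554121156511949088879747868980011883277355628384429033352445862299293360560804659455903819982067874300082451239262423148026120895269152966729286640851926645259680918998280187769094585518679776023289531496828429237832766138367015516153511270096231337351958723871957687370619265624843371261822754572205478847584309934028845744565193221,
    25901633081959614680369890414423987629439724079021666290523154265342204080408799079869627376367118789854238632285341201721472219865988991005307797335811486177217961649180452866757301342597742228306893288888994065914845659420367123547399243656543877005060148284612545534827047022214581616865671079236132717273073944334864971978509951945659382762246]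
  labs := [
    34303540941163791483709176540978356360912392346648601254384082691672677592259856489744501447766125081660975841578402673943823964331534612799904113899033298808406842636402451403992235824621142041175761533901416583637387568776943267748574411241019977439699005576155530793001565584538173540318248346286717828325017852307087778325309079733656027791616,
    28070857562699826897747979986442756309029499009827870250588108990309454842576786375861540894471079270416914706151098239196336933271310620905426273441188249083626801751901857471099213858519381256778825382746122926679740043410478180243596999625733097057378593683727316084668260718459606404749755977620181744058842450189122901320271334628650473619712,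
    9356957361261818811591101473860365717642579541193955240756280526833480832900456688631209816393772495393460023336152834890370324384592476502121959827163577627685709221295234276216264819536725617368961382014004499881119615923233543866463317319078853238985704179217059210701918613397051369134908833908248899740400172544750082915443474689790161584384,
    19842058348868570266243290393957447388360617544430117621608860145624594919800281452386160484812519258589867715174485530195635063942991170738748506250397714432066447331898892119896798012501617105455117519564431011860327310861915980589663124398459885234947149243811936349261915990071750017948413581707823756757374778190653769941580426868199033798912,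
    16551344777923537337205780266479399394342827696896782993875255408786604758665055052398776892465564383864858755002620740108748675028445732997096020056641186728147549569954728924942582083614436214263890402845669746708715760545631856591450062771369389660072295880241709500057869694079883605644503655813421922038337020725582589943848406243812552343808,
    6955850296943429878086253810237435915515449354423566280514337926372916079907797319494505241571648068569886770741537064509007017990161435142248718033464539535115755407730319326470707275760330830080431479069325330496446656887963093752143939447645277396239802266166768591334132688386143123947319276044073132592819709766321766055319830892619688444160,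
    27970981487048940369877118425624040811892890428386453458297886117159694061264296790187173717112432804452724341501761345069851612603515384282611670810293350237863945261897450655289491609195855393690429885510591020684874989842754556017308497151204548928810883879632797790061949031328432285132520201512666432654867456171224848233273210607525924307200,
    10042684880667185473778958477278266719187403506479281825547714440787897024563803045128990594745210080334222027227194015993166278165963507670435940420485847347027273912691839226067446870857737448194269412837960960200093578344590157177911664527609026343017790346553953481752435293091524252956470474597948444624864654654408852953324115261947063173376,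
    721563719908378100681767283572734133281331947695362139352274056235822110735493132971364531644383777049820665284569363275000482201070246864855177672919213125986641559540765118335289613597298123007096611234820963198167924719106788658851349347305944055684062734992311205591554641084121878501280774816081836931448991217383962159595706586528967950592,
    721563463538115182343147948262960429366816444428118290154326205578781040373820444364763514050979701665268204943344250016892804045159475134933391500024054232794108023061475905822179132544485740714585151320561152631420171525971349020653455139295910688688702818999261305536640120520562606643188183844018861022830266022246603537449729827457841889536,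
    4787496289599955542554303533103164670065375807895137662007895036490875143230453253259835747860908779082345696886263506612221042092031148868580993707146920363499691268055792336194831666882417275053102964563959238038565804385080283553445776762279524399489986865029700442484645125375015908314636305909170044135979033666323895191601182441534243602688,
    3369648910870883982510371212452274801533238198185276934166772456094238747136155273152798358729525665379030953880335212130066509629360330524352435837592301776997888955416910790740350188922503625137272422774821981207625177320671855124768312273677055157341816665119162617978007102276233546778027849398965689361493540018309135668594277808261199692032,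
    716896627457208101839253781471319461206124302744926643044985443762950252043117326505559835908192750515928116512631756150909614660069554343029068875077380994257793196808449217975877684444831717539217417263364984413817331025791549298267886689126697459556446866291228211937507890830758062648368186200775325810122420009311654323712371052597769011456,
    2874052634638855209952722413621946432541697282117548805886155569578858861877488274433619316421135733070937635006643642958588082613791477096187225713782839192880987687989806375995459620253338548188880859639780476148299303857599063061462838412015099818141854638129767225980450653519233334317775951556843072409362344718788147863363812339802548863232,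
    957720981121998772483667498011506055579846722927631367032341382320930140408735535574772865843205293899682232526292950157602920530714394716521473976939737660203362947001663247344965519591892728740659658493250605022385014890485309435539537007317074504724644679758961253849761625039793452094307336483566079376709365411466171042915844065589937176832,
    721548863841165681249330330116558089913926293392242976817542474131857131325806893690820308285294944606909035603854895723953333030135417189437358522210249845724527248381592385627719810458622643549896725583733329958109369302250338214200521413154118507187951429668655253261011464243578666195816728734463261467349460382933585061482119314375555809536,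
    243621511410374980549648472759010883785265083140274626702318341006236549053121510786457219189922974820972963843916156525605920853448325262938008609778936103658188303166960652783510932430477572058712248875247123238028943842440158820178451207112486242055315758390893293196768159528103173901760499108817397951924338250389505047391510809762722873600,
    238954418735140040097642689102877566729539955569545601784663133618572326106470094604305195312307735877802071191593805594119005671742647534634352000665811917661483122007223143069472578677362868652459946944217119043370696367366973891896252303030571116762856333434887251141650361007435252056047811907917517209057765094026817929631338616190767530240,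
    240821264038305189987340155579131141056019805429520361869317317993465584498024384123244642159743053859731460146345621328024842528781530097616503973823195477444666884942501709339845531940942889314517776391210105296530194801482913617224314851849086736032380628332731669392736266505831133883338399216112747065806220450399478802249007287026357240064,
    0]
  cls := [
    1,
    158456325028528675187087900673,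
    696898287454081973172991196020261313839105,
    340282366920938482352840538910349066241,
    4986819005910345345662977,
    11682667931703362164193616740745217,
    163408085185670196424123351041,
    2596306885592479236428582671613953,
    10889035744163788356312974915997077078017,
    10889038340317169383920824190629696241665,
    351010950304886069940291817688090542081,
    696898287454715823407200344776336021127169,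
    5586077993832811220943240806309959298973793,
    23139203567223052917580899875424347096065,
    696899963268131987716227276119154519703553,
    11229318111084733072189717028395928256513,
    2799163417504801744111101086703216127902209,
    8464569784859105477108612273956271998522081,
    3519202579877709759292152308799292707768065,
    22300745198530623141535718272648361505980415]
  down := [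
    (0,0), (1,0), (0,1), (3,2), (2,3), (5,4), (4,5), (1,0), (3,2), (2,3), (5,4), (4,5),
    (0,1), (0,1), (2,3), (5,4), (4,5), (1,0), (0,1), (0,1), (5,4), (0,1), (0,1), (2,3),
    (0,1), (0,1), (1,0), (0,1), (3,2), (5,4), (1,0), (0,1), (2,3), (3,2), (3,2), (0,1),
    (2,3), (4,5), (1,0), (3,2), (2,3), (0,1), (1,0), (0,1), (2,3), (0,1), (1,0), (1,0),
    (0,1), (1,0), (1,0), (0,1), (2,3), (0,1), (3,2), (0,1), (2,3), (0,1), (0,1), (1,0),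
    (1,0), (1,0), (0,1), (1,0), (0,1), (1,0), (1,0), (0,1), (2,3), (0,1), (1,0), (2,3),
    (0,1), (2,3), (1,0), (0,1), (0,1), (2,3), (1,0), (0,1), (0,1), (0,1), (3,2), (1,0),
    (2,3), (0,1), (1,0), (0,1), (3,2), (0,1), (1,0), (1,0), (0,1), (0,1), (2,3), (0,1),
    (0,1), (0,1), (1,0), (0,1), (1,0), (1,0), (0,1), (1,0), (0,1), (0,1), (0,1), (0,1),
    (1,0), (0,1), (0,1), (0,1), (0,1), (2,3), (0,1), (0,1), (2,3), (0,1), (0,1), (0,1),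
    (0,1), (0,1), (0,1), (0,1), (0,1), (1,0), (1,0), (0,1), (0,1), (1,0), (0,1), (0,1),
    (0,1), (0,1), (0,1), (1,0), (0,1), (0,1), (0,1), (0,1), (1,0), (0,1), (0,1), (0,1)]
  base := base34c0
  pr := pr34c0 ++ pr34c1 ++ pr34c2 ++ pr34c3 ++ pr34c4 ++ pr34c5 ++ pr34c6 ++ pr34c7
  js := js34c0 ++ js34c1 ++ js34c2 ++ js34c3 ++ js34c4 ++ js34c5 ++ js34c6 ++ js34c7 ++ js34c8 ++ js34c9 ++ js34c10 ++ js34c11 ++ js34c12 ++ js34c13 ++ js34c14 ++ js34c15 ++ js34c16 ++ js34c17 ++ js34c18 ++ js34c19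

theorem base34 : IsConLattice (maskRel (20, 1291126786013962592033168404883684934406148080893805461614095338693395519941881594193564098738480252370298064034356789247)) :=
  Trans.isConLattice_of_check (C := cert34) (by decide +kernel)

theorem rep34 : IsConLattice (maskRel (7, 284795138682751)) :=
  isConLattice_sub base34 2 3 [0, 2, 14, 18, 11, 3, 19] (by decide +kernel)

end Vale.Agent.P183.Reps
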