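import Vale.Agent.P183.Small

/-! Representation of the lattice number 35 of `small78` (middle order `1 < 4`, `1 < 5`, `2 < 3`):
the congruences of a unary algebra on 18 points. -/

namespace Vale.Agent.P183

def cert35 : Small.Cert where
  N := 18
  ops := [
    [1, 0, 4, 5, 2, 3, 7, 6, 10, 11, 8, 9, 13, 12, 16, 17, 14, 15],
    [2, 3, 5, 4, 1, 0, 8, 9, 11, 10, 7, 6, 14, 15, 17, 16, 13, 12],
    [9, 11, 10, 6, 8, 7, 6, 7, 8, 9, 10, 11, 12, 13, 14, 15, 16, 17],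
    [15, 12, 16, 14, 17, 13, 14, 13, 17, 15, 16, 12, 6, 9, 8, 10, 7, 11],
    [0, 1, 2, 6, 4, 7, 6, 7, 8, 9, 10, 11, 12, 13, 14, 15, 16, 17],
    [0, 0, 0, 0, 0, 0, 0, 0, 9, 9, 0, 0, 0, 0, 0, 0, 0, 0],
    [0, 14, 14, 0, 0, 0, 0, 0, 0, 0, 0, 0, 0, 0, 0, 0, 0, 0]]
  labs := [
    [0, 1, 2, 3, 4, 5, 6, 7, 8, 9, 10, 11, 12, 13, 14, 15, 16, 17],
    [0, 1, 2, 3, 4, 5, 3, 5, 4, 0, 2, 1, 5, 3, 0, 4, 1, 2],
    [0, 1, 2, 3, 4, 5, 6, 6, 8, 8, 10, 10, 12, 13, 13, 15, 12, 15],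
    [0, 1, 1, 3, 0, 3, 6, 6, 8, 8, 10, 10, 12, 13, 13, 15, 12, 15],
    [0, 1, 0, 1, 1, 0, 1, 0, 1, 0, 0, 1, 0, 1, 0, 1, 1, 0],
    [0, 0, 2, 2, 4, 4, 2, 4, 4, 0, 2, 0, 4, 2, 0, 4, 0, 2],
    [0, 0, 0, 0, 0, 0, 0, 0, 0, 0, 0, 0, 0, 0, 0, 0, 0, 0]]

theorem rep35 : IsConLattice (maskRel (7, 284795138685311)) :=
  Small.isConLattice_of_check (C := cert35) (by decide +kernel)

end Vale.Agent.P183
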