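import Vale.Agent.P183.Trans

/-! The lattice with index 38 is the congruence lattice of a unary algebra on the 72 cosets of a
subgroup of A4xS3 (group translations with further maps preserving seven chosen congruences). -/

namespace Vale.Agent.P183.Reps

def cert38 : Trans.Cert where
  N := 72
  ops := [
    64980884166838902123479168878514676050006447181567549767728828199355426914440102262666266566129025298181693858566742187844346812277164939756429338267862294624144843722261761,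
    66920863646166226788480775525590555312193182644019504321159551603449922463424262742277712161873357431029831674075734212401424733005276587739808855332196419641954287674066946,
    61089958617670205615223239793697837884229228156752014570394914902469337433620364335779028884983415639135579890207121114184971530796101175117925711188475060556999121039132931,
    59202904385424681215563167575865087223294652098769637924888185900205662569089604266253974670360139375091595448177768489320612768355308761960401156430927784689278433102858756,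
    60127538718539795591544962450119183629359443295912359898367857878544655477316959922067665299213366305706697119012007835201976507662189809198729784345883824418762973596614661,
    63041319071425866616553395523065204812626478738156529207615115676219726534129063991189755546411761293695072026556297057049633327855140115269403945332257947681391997746154246,
    67860623771260572947832642078325778011322536547196483230279958913895366527642751529179132665264662373884997665843613005449503628949562085737380822698444819197888756439911431,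
    56115522793680464923270176908678115190399264689880488070725298624158106803931532788531620947702561190778354526042148582981874696213457326436223062727201381089137214450827776,
    4948805173997516021091592358454580044756666830132574848486154648533732666186332484465796656612708570415852025039039565560121600561175850402672340200100741429330688]
  labs := [
    68860739535087804454153596932559672870373209444495796229207190580635315083870094936584515568054503444700903398640464230674619186175923474129218848011759691072083798584852736,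
    24300943423166992405620912737457269751081791193345341129995095858614076345334491904876076894014458880864233091145040225899025940572470359053142597000020418995140197710168320,
    6778287996171386667207859934356003988435521295422684754653138256189349540594681476901362307386879716152835045018592494639091956494054163668075404051054853481922871402037504,
    29599479464888232345499595933458786531539043607808536798556096677672789151467551878324146272988347118623950336350607758798549002264939579486732244993739953140477853952,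
    6778139941187086948384914085293580462203157434462950309875103761967475639753361056432393120796632218450705401060286979379625000449694479635363422967167442280781014886252544,
    49428193819270535147619499065162501877203506326067115602277862979012968881639164498572512393981201199845721411200438941167237871991157521317706871073716783020500023316185344,
    0]
  cls := [
    1,
    4194569,
    2305843352815280393,
    3554196353771089699225,
    2308106156672379759,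
    134218753,
    4722366482869645213695]
  down := [
    (0,0), (4,0), (5,1), (2,2), (6,3), (0,4), (1,5), (3,6), (5,1), (2,2), (6,3), (1,5), (3,6),
      (4,0), (2,2), (6,3), (0,4), (3,6), (6,3), (0,4), (1,5), (3,6), (2,2), (0,4), (1,5), (3,6),
      (5,1), (3,6), (4,0), (3,6), (6,3), (3,6), (6,3), (1,5), (3,6), (1,5), (4,0), (3,6), (2,2),
      (6,3), (6,3), (0,4), (3,6), (5,1), (0,4), (3,6), (5,1), (0,4), (1,5), (3,6), (3,6), (4,0),
      (3,6), (6,3), (3,6), (1,5), (4,0), (3,6), (2,2), (3,6), (1,5), (4,0), (3,6), (4,0), (0,4),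
      (3,6), (6,3), (3,6), (4,0), (3,6), (2,2), (3,6)]
  base := [
    [],
    [(3,[7]), (3,[1,6,8,5,4])],
    [(13,[7]), (13,[0,8,2]), (13,[0,1,8,5,4]), (3,[1,3,8]), (3,[1,0]), (22,[1,0])],
    [(4,[7]), (4,[2,7,2,5,4]), (4,[3,7,3,4,5]), (25,[3,7,3,4,5]), (31,[3,7,3,4,5]), (4,[0,8,2]),
      (63,[0,8,2]), (31,[3,8]), (4,[3]), (25,[3]), (59,[3]), (3,[3]), (22,[3]), (3,[1,0,6]),
      (22,[1,0,6]), (7,[1,0,6]), (18,[1,0,6]), (53,[1,0,6]), (3,[0,1,6]), (22,[0,1,6]),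
      (49,[0,1,6]), (71,[0,1,6])],
    [(1,[7]), (1,[2,7,2,5,4]), (1,[3,7,3,4,5]), (2,[3,7,3,4,5]), (28,[3,7,3,4,5]), (1,[8]),
      (28,[0,8,2]), (1,[1,8]), (1,[0]), (2,[0]), (11,[0]), (3,[0]), (22,[0]), (28,[1]), (3,[1]),
      (22,[1]), (3,[5,0]), (22,[5,0]), (9,[5,0]), (20,[5,0]), (14,[0,5]), (33,[0,5])],
    [(10,[7])],
    [(12,[7]), (12,[2,7,2,5,4]), (12,[3,7,3,4,5]), (35,[3,7,3,4,5]), (15,[3,7,3,4,5]),
      (12,[0,8,2]), (45,[0,8,2]), (15,[3,8]), (12,[0,6]), (35,[0,6]), (15,[0,6]), (3,[0,6]),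
      (22,[0,6]), (8,[0,6]), (3,[0,3,5]), (22,[0,3,5]), (34,[0,3,5]), (52,[0,3,5]), (38,[1,3]),
      (61,[1,3]), (47,[3,5,0]), (68,[3,5,0]), (12,[2]), (35,[2]), (15,[2]), (56,[2]), (55,[2]),
      (45,[2]), (23,[2]), (34,[2]), (52,[2]), (29,[2]), (60,[2]), (40,[2]), (47,[2]), (68,[2]),
      (65,[2]), (67,[2]), (32,[0,6]), (62,[0,6]), (42,[0,6]), (69,[0,6]), (66,[0,6]), (64,[0,6]),
      (50,[0,6]), (10,[0,6]), (24,[0,6]), (48,[0,6]), (37,[0,6]), (17,[0,6]), (27,[0,6]),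
      (57,[0,6]), (44,[0,6]), (46,[0,6]), (32,[0,3,5]), (62,[0,3,5]), (42,[0,3,5]), (69,[0,3,5]),
      (66,[0,3,5]), (64,[0,3,5]), (50,[0,3,5]), (10,[0,3,5]), (24,[0,3,5]), (48,[0,3,5]),
      (37,[0,3,5]), (17,[0,3,5]), (27,[0,3,5]), (57,[0,3,5]), (44,[0,3,5]), (46,[0,3,5])]]
  pr := [
    (0,[]),
    (4,[]),
    (4,[(2,[2,7,2,5,4])]),
    (1,[]),
    (3,[]),
    (4,[(5,[4])]),
    (4,[(6,[7]), (11,[3,7,3,4,5])]),
    (3,[(7,[6])]),
    (1,[(8,[0,8,2])]),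
    (4,[(9,[0,8,2]), (3,[0,2])]),
    (5,[]),
    (4,[(11,[3,7,3,4,5])]),
    (6,[]),
    (2,[]),
    (4,[(14,[2,7,2,5,4]), (14,[3,8]), (22,[2,5])]),
    (6,[(15,[7])]),
    (4,[(16,[7]), (16,[2,7,2,5,4]), (2,[5,0])]),
    (6,[(17,[7]), (17,[8]), (17,[0,8,2]), (3,[3,4,1]), (66,[0,1]), (32,[2])]),
    (3,[(18,[0,8,2]), (3,[2,3])]),
    (4,[(19,[2,4])]),
    (4,[(20,[7]), (14,[3,8]), (22,[2,5])]),
    (3,[(21,[7]), (18,[2,6])]),
    (1,[(22,[7])]),
    (6,[(23,[3,4])]),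
    (6,[(24,[0,8,2]), (3,[1,3,8]), (22,[3,5]), (32,[2])]),
    (3,[(25,[2,7,2,5,4])]),
    (4,[(26,[2,7,2,5,4]), (11,[3,7,3,4,5])]),
    (5,[(27,[7])]),
    (4,[(28,[7])]),
    (6,[(29,[3,7,3,4,5]), (23,[1,8]), (8,[5,6])]),
    (3,[(30,[7]), (59,[3,7,3,4,5])]),
    (3,[(31,[7])]),
    (6,[(32,[7]), (50,[0,8,2]), (32,[2])]),
    (4,[(33,[2,7,2,5,4]), (33,[0,8,2]), (3,[0,2])]),
    (6,[(34,[8]), (3,[0,2,6])]),
    (6,[(35,[2,7,2,5,4])]),
    (2,[(36,[7])]),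
    (6,[(37,[7]), (37,[0,8,2]), (37,[0,1,8,5,4]), (3,[1,3,8]), (22,[1,3,4]), (66,[2]),
      (55,[0,1])]),
    (2,[(38,[0,8,2]), (3,[1,0,2])]),
    (3,[(39,[7]), (31,[0,1,6])]),
    (6,[(40,[7]), (34,[8]), (3,[0,2,6])]),
    (4,[(41,[7]), (19,[2,4])]),
    (6,[(42,[7]), (42,[2,7,2,5,4]), (66,[3,7,3,4,5]), (66,[3,8]), (22,[1,2,3,4]), (46,[2,4,1,3]),
      (51,[0,2,5,6])]),
    (4,[(43,[7]), (43,[2,7,2,5,4]), (14,[2,5,0])]),
    (6,[(44,[0,8,2]), (44,[0,1,8,5,4]), (3,[1,3,8]), (22,[1,3,4]), (66,[2]), (55,[0,1])]),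
    (6,[(45,[2,7,2,5,4]), (56,[3,7,3,4,5])]),
    (6,[(46,[8]), (46,[0,8,2]), (3,[3,4,1]), (66,[0,1]), (32,[2])]),
    (6,[(47,[3,7,3,4,5]), (47,[8]), (3,[0,2,6])]),
    (6,[(48,[7]), (69,[3,7,3,4,5]), (48,[0,8,2]), (32,[2])]),
    (3,[(49,[2,7,2,5,4]), (49,[0,8,2]), (3,[2,3])]),
    (6,[(50,[2,7,2,5,4]), (50,[0,8,2]), (32,[2])]),
    (4,[(51,[7]), (20,[3,7,3,4,5]), (14,[2,5,0])]),
    (6,[(52,[3,7,3,4,5]), (68,[0,6,8]), (22,[2,5,6])]),
    (3,[(53,[2,7,2,5,4]), (54,[3,8]), (22,[0,1,2,3])]),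
    (3,[(54,[7]), (53,[0,1,2,6])]),
    (6,[(55,[7]), (56,[3,7,3,4,5])]),
    (6,[(56,[3,7,3,4,5])]),
    (6,[(57,[7]), (57,[0,8,2]), (3,[1,3,8]), (22,[3,5]), (32,[2])]),
    (3,[(58,[7]), (58,[2,7,2,5,4]), (71,[3,7,3,4,5]), (53,[0,1,2,6])]),
    (3,[(59,[3,7,3,4,5])]),
    (6,[(60,[7]), (60,[3,7,3,4,5]), (65,[0,6,8]), (22,[2,5,6])]),
    (2,[(61,[0,6,8]), (22,[0,2,5,0])]),
    (6,[(62,[7]), (62,[2,7,2,5,4]), (62,[0,8,2]), (3,[0,2,5,6]), (37,[2,4,1,3]), (49,[1,2,3,4])]),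
    (3,[(63,[2,7,2,5,4]), (59,[3,7,3,4,5])]),
    (6,[(64,[7]), (64,[2,7,2,5,4]), (62,[1,2,3,4]), (7,[0,2,5,6]), (33,[1,2,6])]),
    (6,[(65,[7]), (68,[3,7,3,4,5]), (65,[0,6,8]), (22,[2,5,6])]),
    (6,[(66,[7]), (66,[2,7,2,5,4]), (42,[2,4,1,3]), (59,[1,2,6]), (51,[0,2,5,6])]),
    (6,[(67,[7]), (47,[3,7,3,4,5]), (47,[8]), (3,[0,2,6])]),
    (6,[(68,[3,7,3,4,5]), (68,[0,6,8]), (22,[2,5,6])]),
    (6,[(69,[7]), (69,[2,7,2,5,4]), (69,[0,8,2]), (3,[2,5,0,6]), (57,[0,2,3]), (54,[2,3,5])]),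
    (3,[(70,[7]), (70,[2,7,2,5,4]), (49,[3,7,3,4,5]), (18,[2,6])]),
    (3,[(71,[7]), (71,[2,7,2,5,4]), (58,[3,7,3,4,5]), (54,[3,8]), (22,[0,1,2,3])])]
  js := [
    (0,[]),
    (1,[]),
    (2,[]),
    (3,[]),
    (4,[]),
    (5,[]),
    (6,[]),
    (1,[]),
    (1,[]),
    (2,[]),
    (3,[]),
    (4,[]),
    (6,[(10,[2]), (27,[2]), (10,[0,1]), (27,[0,1]), (34,[0,1]), (47,[0,1]), (3,[0,3]), (8,[0,3]),
      (22,[0,3]), (34,[0,3]), (47,[0,3]), (46,[0,3]), (17,[0,3]), (67,[0,3]), (40,[0,3]),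
      (32,[0,1,2]), (24,[0,1,2]), (48,[0,1,2]), (19,[0,1,2]), (21,[0,1,2]), (37,[0,1,2]),
      (13,[0,1,2]), (33,[0,1,2]), (49,[0,1,2]), (3,[4,6]), (8,[4,6]), (22,[4,6]), (34,[4,6]),
      (47,[4,6]), (46,[4,6]), (17,[4,6]), (67,[4,6]), (40,[4,6]), (65,[4,6]), (45,[4,6]),
      (68,[4,6]), (61,[4,6]), (28,[4,6]), (63,[4,6]), (55,[7]), (45,[7]), (2,[7]), (30,[7]),
      (28,[7]), (63,[7]), (58,[7]), (39,[7]), (20,[7]), (62,[7]), (29,[7]), (11,[7]),
      (58,[2,7,2,5,4]), (39,[2,7,2,5,4]), (20,[2,7,2,5,4]), (62,[2,7,2,5,4]), (29,[2,7,2,5,4]),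
      (11,[2,7,2,5,4]), (65,[3,7,3,4,5]), (68,[3,7,3,4,5]), (61,[3,7,3,4,5]), (56,[3,7,3,4,5]),
      (16,[3,7,3,4,5]), (59,[3,7,3,4,5]), (71,[3,7,3,4,5]), (51,[3,7,3,4,5]), (64,[3,7,3,4,5])]),
    (6,[]),
    (2,[]),
    (2,[]),
    (2,[]),
    (3,[]),
    (4,[]),
    (6,[(10,[2]), (27,[2]), (10,[0,1]), (27,[0,1]), (34,[0,1]), (47,[0,1]), (3,[0,3]), (8,[0,3]),
      (13,[0,3]), (22,[0,3]), (38,[0,3]), (61,[0,3]), (34,[0,3]), (47,[0,3]), (46,[0,3]),
      (67,[0,3]), (40,[0,3]), (34,[1,0]), (47,[1,0]), (17,[1,0]), (67,[1,0]), (40,[1,0]),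
      (32,[0,1,2]), (48,[0,1,2]), (64,[0,1,2]), (66,[0,1,2]), (19,[0,1,2]), (21,[0,1,2]),
      (33,[0,1,2]), (49,[0,1,2]), (3,[4,6]), (22,[4,6]), (38,[4,6]), (61,[4,6]), (34,[4,6]),
      (47,[4,6]), (67,[4,6]), (40,[4,6]), (52,[4,6]), (60,[4,6]), (65,[4,6]), (68,[4,6]),
      (45,[4,6]), (12,[4,6]), (63,[4,6]), (19,[0,5,0]), (21,[0,5,0]), (33,[0,5,0]), (49,[0,5,0]),
      (28,[0,5,0]), (50,[1,0,2]), (69,[1,0,2]), (42,[1,0,2]), (62,[1,0,2]), (18,[1,0,2]),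
      (9,[1,0,2]), (70,[1,0,2]), (41,[1,0,2]), (53,[1,0,2]), (43,[1,0,2]), (58,[1,0,2]),
      (20,[1,0,2])]),
    (6,[]),
    (3,[]),
    (3,[]),
    (3,[]),
    (3,[]),
    (6,[(4,[0]), (7,[0]), (18,[0]), (21,[0]), (25,[0]), (30,[0]), (31,[0]), (39,[0]), (49,[0]),
      (53,[0]), (54,[0]), (58,[0]), (59,[0]), (63,[0]), (70,[0]), (71,[0]), (4,[1]), (7,[1]),
      (18,[1]), (21,[1]), (25,[1]), (30,[1]), (31,[1]), (39,[1]), (49,[1]), (53,[1]), (54,[1]),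
      (58,[1]), (59,[1]), (63,[1]), (70,[1]), (71,[1])]),
    (6,[(10,[2]), (27,[2]), (10,[3]), (27,[3]), (34,[3]), (47,[3]), (10,[6]), (27,[6]), (34,[6]),
      (47,[6]), (10,[0,1]), (27,[0,1]), (34,[0,1]), (47,[0,1]), (12,[0,1]), (5,[0,1]), (9,[0,1]),
      (50,[0,1]), (1,[0,1]), (23,[0,1]), (32,[0,1]), (19,[0,1]), (8,[0,3]), (13,[0,3]),
      (22,[0,3]), (25,[0,3]), (30,[0,3]), (31,[0,3]), (38,[0,3]), (39,[0,3]), (49,[0,3]),
      (53,[0,3]), (54,[0,3]), (58,[0,3]), (46,[0,3]), (67,[0,3]), (55,[0,3]), (43,[0,3]),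
      (26,[0,3]), (66,[0,3]), (17,[1,0]), (40,[1,0]), (2,[1,0]), (42,[1,0]), (15,[1,0]),
      (14,[1,0])]),
    (6,[]),
    (4,[]),
    (4,[]),
    (4,[]),
    (6,[(4,[0]), (7,[0]), (18,[0]), (21,[0]), (25,[0]), (30,[0]), (31,[0]), (39,[0]), (49,[0]),
      (53,[0]), (54,[0]), (58,[0]), (59,[0]), (63,[0]), (70,[0]), (71,[0]), (4,[1]), (7,[1]),
      (18,[1]), (21,[1]), (25,[1]), (30,[1]), (31,[1]), (39,[1]), (49,[1]), (53,[1]), (54,[1]),
      (58,[1]), (59,[1]), (63,[1]), (70,[1]), (71,[1])]),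
    (4,[]),
    (6,[(10,[0]), (27,[0]), (10,[1]), (27,[1]), (23,[1]), (7,[1]), (10,[2]), (27,[2]), (23,[2]),
      (7,[2]), (30,[2]), (55,[2]), (46,[2]), (17,[2]), (10,[4]), (27,[4]), (30,[4]), (55,[4]),
      (46,[4]), (17,[4]), (34,[4]), (47,[4]), (54,[4]), (66,[4]), (67,[4]), (40,[4]), (10,[5]),
      (27,[5]), (23,[5]), (7,[5]), (34,[5]), (47,[5]), (50,[5]), (18,[5]), (4,[5]), (12,[5]),
      (63,[5]), (45,[5]), (21,[5]), (32,[5]), (71,[5]), (64,[5]), (23,[0,1]), (7,[0,1]),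
      (50,[0,1]), (18,[0,1])]),
    (6,[]),
    (5,[]),
    (6,[(10,[2]), (27,[2]), (10,[0,1]), (27,[0,1]), (34,[0,1]), (47,[0,1]), (3,[0,3]), (8,[0,3]),
      (22,[0,3]), (34,[0,3]), (47,[0,3]), (46,[0,3]), (17,[0,3]), (67,[0,3]), (40,[0,3]),
      (32,[0,1,2]), (24,[0,1,2]), (48,[0,1,2]), (19,[0,1,2]), (21,[0,1,2]), (37,[0,1,2]),
      (13,[0,1,2]), (33,[0,1,2]), (49,[0,1,2]), (3,[4,6]), (8,[4,6]), (22,[4,6]), (34,[4,6]),
      (47,[4,6]), (46,[4,6]), (17,[4,6]), (67,[4,6]), (40,[4,6]), (65,[4,6]), (45,[4,6]),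
      (68,[4,6]), (61,[4,6]), (28,[4,6]), (63,[4,6]), (55,[7]), (45,[7]), (2,[7]), (30,[7]),
      (28,[7]), (63,[7]), (58,[7]), (39,[7]), (20,[7]), (62,[7]), (29,[7]), (11,[7]),
      (58,[2,7,2,5,4]), (39,[2,7,2,5,4]), (20,[2,7,2,5,4]), (62,[2,7,2,5,4]), (29,[2,7,2,5,4]),
      (11,[2,7,2,5,4]), (65,[3,7,3,4,5]), (68,[3,7,3,4,5]), (61,[3,7,3,4,5]), (56,[3,7,3,4,5]),
      (16,[3,7,3,4,5]), (59,[3,7,3,4,5]), (71,[3,7,3,4,5]), (51,[3,7,3,4,5]), (64,[3,7,3,4,5])]),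
    (6,[(10,[2]), (27,[2]), (10,[0,1]), (27,[0,1]), (34,[0,1]), (47,[0,1]), (3,[0,3]), (8,[0,3]),
      (13,[0,3]), (22,[0,3]), (38,[0,3]), (61,[0,3]), (34,[0,3]), (47,[0,3]), (46,[0,3]),
      (67,[0,3]), (40,[0,3]), (34,[1,0]), (47,[1,0]), (17,[1,0]), (67,[1,0]), (40,[1,0]),
      (32,[0,1,2]), (48,[0,1,2]), (64,[0,1,2]), (66,[0,1,2]), (19,[0,1,2]), (21,[0,1,2]),
      (33,[0,1,2]), (49,[0,1,2]), (3,[4,6]), (22,[4,6]), (38,[4,6]), (61,[4,6]), (34,[4,6]),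
      (47,[4,6]), (67,[4,6]), (40,[4,6]), (52,[4,6]), (60,[4,6]), (65,[4,6]), (68,[4,6]),
      (45,[4,6]), (12,[4,6]), (63,[4,6]), (19,[0,5,0]), (21,[0,5,0]), (33,[0,5,0]), (49,[0,5,0]),
      (28,[0,5,0]), (50,[1,0,2]), (69,[1,0,2]), (42,[1,0,2]), (62,[1,0,2]), (18,[1,0,2]),
      (9,[1,0,2]), (70,[1,0,2]), (41,[1,0,2]), (53,[1,0,2]), (43,[1,0,2]), (58,[1,0,2]),
      (20,[1,0,2])]),
    (6,[(10,[2]), (27,[2]), (10,[3]), (27,[3]), (34,[3]), (47,[3]), (10,[6]), (27,[6]), (34,[6]),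
      (47,[6]), (10,[0,1]), (27,[0,1]), (34,[0,1]), (47,[0,1]), (12,[0,1]), (5,[0,1]), (9,[0,1]),
      (50,[0,1]), (1,[0,1]), (23,[0,1]), (32,[0,1]), (19,[0,1]), (8,[0,3]), (13,[0,3]),
      (22,[0,3]), (25,[0,3]), (30,[0,3]), (31,[0,3]), (38,[0,3]), (39,[0,3]), (49,[0,3]),
      (53,[0,3]), (54,[0,3]), (58,[0,3]), (46,[0,3]), (67,[0,3]), (55,[0,3]), (43,[0,3]),
      (26,[0,3]), (66,[0,3]), (17,[1,0]), (40,[1,0]), (2,[1,0]), (42,[1,0]), (15,[1,0]),
      (14,[1,0])]),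
    (6,[(10,[0]), (27,[0]), (10,[1]), (27,[1]), (23,[1]), (7,[1]), (10,[2]), (27,[2]), (23,[2]),
      (7,[2]), (30,[2]), (55,[2]), (46,[2]), (17,[2]), (10,[4]), (27,[4]), (30,[4]), (55,[4]),
      (46,[4]), (17,[4]), (34,[4]), (47,[4]), (54,[4]), (66,[4]), (67,[4]), (40,[4]), (10,[5]),
      (27,[5]), (23,[5]), (7,[5]), (34,[5]), (47,[5]), (50,[5]), (18,[5]), (4,[5]), (12,[5]),
      (63,[5]), (45,[5]), (21,[5]), (32,[5]), (71,[5]), (64,[5]), (23,[0,1]), (7,[0,1]),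
      (50,[0,1]), (18,[0,1])]),
    (5,[]),
    (6,[]),
    (6,[]),
    (6,[]),
    (6,[]),
    (6,[]),
    (6,[]),
    (6,[]),
    (6,[])]

theorem rep38 : IsConLattice (maskRel (7, 284795138944895)) :=
  Trans.isConLattice_of_check (C := cert38) (by decide +kernel)

end Vale.Agent.P183.Reps
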