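import Vale.Agent.P183.Small

/-! Representation of the lattice number 43 of `small78` (middle order `1 < 2 < 4`, `3 < 4`):
the congruences of a unary algebra on 10 points. -/

namespace Vale.Agent.P183

def cert43 : Small.Cert where
  N := 10
  ops := [
    [1, 0, 3, 2, 5, 4, 7, 6, 9, 8],
    [0, 1, 2, 3, 4, 5, 6, 7, 8, 9],
    [0, 1, 7, 6, 4, 5, 6, 7, 4, 5],
    [4, 8, 2, 7, 2, 7, 7, 2, 2, 7],
    [0, 0, 3, 3, 5, 5, 6, 6, 9, 9],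
    [0, 0, 0, 0, 5, 5, 0, 0, 5, 5],
    [1, 0, 5, 4, 6, 7, 4, 5, 6, 7],
    [0, 0, 4, 4, 0, 0, 5, 5, 1, 1]]
  labs := [
    [0, 1, 2, 3, 4, 5, 6, 7, 8, 9],
    [0, 1, 2, 2, 4, 4, 2, 2, 8, 9],
    [0, 1, 2, 2, 4, 4, 2, 2, 8, 8],
    [0, 0, 2, 3, 4, 5, 6, 7, 4, 5],
    [0, 0, 2, 2, 4, 4, 2, 2, 4, 4],
    [0, 1, 2, 3, 1, 0, 0, 1, 2, 3],
    [0, 0, 0, 0, 0, 0, 0, 0, 0, 0]]

theorem rep43 : IsConLattice (maskRel (7, 284795172367231)) :=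
  Small.isConLattice_of_check (C := cert43) (by decide +kernel)

end Vale.Agent.P183
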