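import Vale.Agent.P183.Small

/-! The lattice with index 50 is the congruence lattice of a 16-element unary algebra (an
overalgebra of a four-element algebra, cut down by filter and ideal operations). -/

namespace Vale.Agent.P183

def cert50 : Small.Cert where
  N := 16
  ops := [
    [0, 1, 1, 0, 1, 1, 0, 0, 1, 0, 0, 1, 0, 0, 1, 1],
    [2, 3, 3, 2, 3, 3, 2, 2, 3, 2, 2, 3, 2, 2, 3, 3],
    [0, 1, 2, 3, 1, 2, 3, 0, 2, 3, 0, 1, 3, 0, 1, 2],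
    [0, 4, 5, 6, 4, 5, 6, 0, 5, 6, 0, 4, 6, 0, 4, 5],
    [7, 1, 8, 9, 1, 8, 9, 7, 8, 9, 7, 1, 9, 7, 1, 8],
    [10, 11, 2, 12, 11, 2, 12, 10, 2, 12, 10, 11, 12, 10, 11, 2],
    [13, 14, 15, 3, 14, 15, 3, 13, 15, 3, 13, 14, 3, 13, 14, 15],
    [0, 1, 2, 3, 0, 0, 0, 1, 1, 1, 2, 2, 2, 3, 3, 3],
    [14, 14, 14, 14, 14, 14, 14, 14, 4, 4, 14, 14, 14, 14, 14, 14],
    [0, 0, 0, 0, 0, 0, 0, 0, 0, 0, 0, 0, 0, 3, 3, 0]]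
  labs := [
    [0, 1, 2, 3, 4, 5, 6, 7, 8, 9, 10, 11, 12, 13, 14, 15],
    [0, 1, 2, 0, 4, 5, 0, 7, 8, 7, 10, 11, 10, 0, 4, 15],
    [0, 1, 2, 0, 4, 5, 0, 7, 8, 7, 10, 11, 10, 0, 4, 5],
    [0, 1, 1, 0, 4, 4, 0, 7, 1, 7, 10, 1, 10, 0, 4, 4],
    [0, 1, 1, 0, 4, 4, 0, 7, 1, 7, 7, 1, 7, 0, 4, 4],
    [0, 0, 2, 2, 0, 5, 5, 0, 8, 8, 10, 10, 2, 13, 13, 2],
    [0, 0, 0, 0, 0, 0, 0, 0, 0, 0, 0, 0, 0, 0, 0, 0]]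

theorem rep50Small : IsConLattice (maskRel (7, 284795172499327)) :=
  Small.isConLattice_of_check (C := cert50) (by decide +kernel)

end Vale.Agent.P183
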