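import Vale.Agent.P183.Small

/-! The lattices with index 11, 37, 47 and 64 are congruence lattices of small unary algebras:
all maps preserving chosen partitions (7 points), or translations of a group of order 24 with
further maps preserving chosen congruences. -/

namespace Vale.Agent.P183.Reps

def cert11 : Small.Cert where
  N := 7
  ops := [
    [0, 2, 2, 3, 3, 0, 3],
    [1, 5, 1, 1, 6, 5, 5],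
    [3, 6, 3, 3, 4, 6, 6],
    [5, 1, 1, 6, 6, 5, 6],
    [6, 3, 3, 4, 4, 6, 4]]
  labs := [
    [0, 1, 2, 3, 4, 5, 6],
    [0, 1, 0, 3, 4, 1, 3],
    [0, 0, 0, 3, 4, 0, 3],
    [0, 1, 2, 2, 2, 5, 1],
    [0, 1, 2, 0, 4, 4, 4],
    [0, 0, 0, 0, 0, 0, 0]]

theorem rep11 : IsConLattice (maskRel (6, 35175680447)) :=
  Small.isConLattice_of_check (C := cert11) (by decide +kernel)

def cert37 : Small.Cert where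
  N := 24
  ops := [
    [1, 0, 6, 8, 9, 11, 2, 13, 3, 4, 16, 5, 18, 7, 19, 20, 10, 21, 12, 14, 15, 17, 23, 22],
    [2, 4, 7, 0, 10, 1, 11, 3, 14, 8, 5, 17, 6, 18, 15, 9, 20, 12, 22, 13, 23, 16, 19, 21],
    [3, 5, 0, 7, 1, 10, 12, 2, 9, 15, 4, 6, 17, 19, 8, 14, 21, 11, 13, 22, 16, 23, 18, 20],
    [0, 17, 4, 10, 2, 6, 5, 11, 10, 11, 3, 7, 12, 2, 14, 4, 16, 1, 3, 17, 5, 1, 6, 7]]
  labs := [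
    [0, 1, 2, 3, 4, 5, 6, 7, 8, 9, 10, 11, 12, 13, 14, 15, 16, 17, 18, 19, 20, 21, 22, 23],
    [0, 1, 2, 3, 4, 5, 6, 7, 3, 7, 10, 11, 12, 4, 0, 2, 12, 17, 10, 1, 6, 17, 5, 11],
    [0, 1, 2, 3, 4, 4, 2, 7, 3, 7, 1, 7, 0, 4, 0, 2, 0, 3, 1, 1, 2, 3, 4, 7],
    [0, 1, 2, 2, 1, 1, 2, 0, 2, 0, 1, 0, 0, 1, 0, 2, 0, 2, 1, 1, 2, 2, 1, 0],
    [0, 0, 2, 3, 2, 3, 6, 6, 3, 6, 6, 3, 2, 2, 0, 2, 2, 0, 6, 0, 6, 0, 3, 3],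
    [0, 1, 1, 3, 4, 0, 0, 4, 3, 4, 3, 1, 3, 4, 0, 1, 3, 4, 3, 1, 0, 4, 0, 1],
    [0, 0, 0, 0, 0, 0, 0, 0, 0, 0, 0, 0, 0, 0, 0, 0, 0, 0, 0, 0, 0, 0, 0, 0]]

theorem rep37 : IsConLattice (maskRel (7, 284795138686847)) :=
  Small.isConLattice_of_check (C := cert37) (by decide +kernel)

def cert47 : Small.Cert where
  N := 24
  ops := [
    [1, 0, 6, 8, 9, 11, 2, 13, 3, 4, 16, 5, 18, 7, 19, 20, 10, 21, 12, 14, 15, 17, 23, 22],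
    [2, 4, 7, 0, 10, 1, 11, 3, 14, 8, 5, 17, 6, 18, 15, 9, 20, 12, 22, 13, 23, 16, 19, 21],
    [3, 5, 0, 7, 1, 10, 12, 2, 9, 15, 4, 6, 17, 19, 8, 14, 21, 11, 13, 22, 16, 23, 18, 20],
    [0, 18, 0, 0, 1, 18, 0, 0, 0, 0, 1, 0, 0, 1, 0, 0, 0, 0, 18, 1, 0, 0, 18, 0]]
  labs := [
    [0, 1, 2, 3, 4, 5, 6, 7, 8, 9, 10, 11, 12, 13, 14, 15, 16, 17, 18, 19, 20, 21, 22, 23],
    [0, 1, 2, 3, 4, 5, 2, 7, 8, 9, 10, 7, 0, 5, 14, 15, 14, 3, 1, 10, 15, 8, 4, 9],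
    [0, 1, 2, 3, 4, 4, 2, 7, 3, 7, 1, 7, 0, 4, 0, 2, 0, 3, 1, 1, 2, 3, 4, 7],
    [0, 1, 2, 3, 4, 5, 6, 7, 8, 9, 10, 11, 11, 10, 9, 8, 7, 6, 5, 4, 3, 2, 1, 0],
    [0, 1, 2, 2, 1, 1, 2, 0, 2, 0, 1, 0, 0, 1, 0, 2, 0, 2, 1, 1, 2, 2, 1, 0],
    [0, 0, 2, 3, 2, 3, 2, 7, 7, 2, 7, 7, 0, 3, 3, 0, 3, 3, 0, 7, 0, 7, 2, 2],
    [0, 0, 0, 0, 0, 0, 0, 0, 0, 0, 0, 0, 0, 0, 0, 0, 0, 0, 0, 0, 0, 0, 0, 0]]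

theorem rep47 : IsConLattice (maskRel (7, 284795172371327)) :=
  Small.isConLattice_of_check (C := cert47) (by decide +kernel)

def cert64 : Small.Cert where
  N := 24
  ops := [
    [1, 0, 6, 8, 9, 12, 2, 14, 3, 4, 18, 19, 5, 20, 7, 16, 15, 22, 10, 11, 13, 23, 17, 21],
    [2, 4, 7, 0, 10, 1, 12, 3, 15, 8, 5, 13, 11, 6, 20, 17, 14, 9, 22, 18, 21, 16, 23, 19],
    [3, 5, 0, 7, 1, 10, 13, 2, 9, 17, 4, 12, 6, 11, 16, 8, 21, 15, 19, 23, 14, 20, 18, 22],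
    [0, 2, 2, 2, 4, 5, 6, 7, 8, 2, 2, 11, 2, 2, 2, 2, 16, 17, 18, 2, 20, 2, 2, 23],
    [0, 1, 2, 3, 11, 6, 5, 7, 16, 9, 10, 4, 12, 13, 14, 15, 8, 20, 23, 19, 17, 21, 22, 18]]
  labs := [
    [0, 1, 2, 3, 4, 5, 6, 7, 8, 9, 10, 11, 12, 13, 14, 15, 16, 17, 18, 19, 20, 21, 22, 23],
    [0, 1, 2, 2, 4, 5, 6, 0, 6, 9, 10, 11, 12, 9, 1, 12, 5, 11, 18, 19, 4, 10, 19, 18],
    [0, 1, 2, 2, 4, 4, 6, 0, 6, 9, 1, 6, 9, 9, 1, 9, 4, 6, 0, 2, 4, 1, 2, 0],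
    [0, 1, 1, 3, 4, 0, 0, 4, 8, 9, 3, 4, 1, 3, 9, 15, 16, 16, 8, 9, 8, 15, 15, 16],
    [0, 1, 2, 3, 4, 5, 4, 7, 7, 2, 10, 5, 10, 1, 3, 3, 7, 0, 5, 10, 0, 2, 1, 4],
    [0, 1, 1, 1, 0, 0, 0, 0, 0, 1, 1, 0, 1, 1, 1, 1, 0, 0, 0, 1, 0, 1, 1, 0],
    [0, 0, 0, 0, 0, 0, 0, 0, 0, 0, 0, 0, 0, 0, 0, 0, 0, 0, 0, 0, 0, 0, 0, 0]]

theorem rep64 : IsConLattice (maskRel (7, 284803796120447)) :=
  Small.isConLattice_of_check (C := cert64) (by decide +kernel)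

end Vale.Agent.P183.Reps
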