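import Vale.Agent.P183.Small

/-! Small unary algebras whose congruence lattices are seven-element lattices: closed sublattices
of congruence lattices of overalgebras. -/

namespace Vale.Agent.P183.Reps

def cert31 : Small.Cert where
  N := 16
  ops := [
    [1, 0, 3, 2, 0, 3, 2, 1, 3, 2, 1, 0, 2, 1, 0, 3],
    [0, 4, 5, 6, 4, 5, 6, 0, 5, 6, 0, 4, 6, 0, 4, 5],
    [7, 1, 8, 9, 1, 8, 9, 7, 8, 9, 7, 1, 9, 7, 1, 8],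
    [0, 1, 2, 3, 0, 0, 0, 1, 1, 1, 2, 2, 2, 3, 3, 3],
    [3, 2, 1, 0, 15, 14, 13, 12, 11, 10, 3, 2, 0, 3, 2, 1]]
  labs := [
    [0, 1, 2, 3, 4, 5, 6, 7, 8, 9, 10, 11, 12, 13, 14, 15],
    [0, 0, 2, 2, 0, 5, 5, 0, 8, 8, 10, 10, 2, 13, 13, 2],
    [0, 0, 2, 2, 0, 5, 5, 0, 8, 8, 10, 10, 2, 10, 10, 2],
    [0, 0, 2, 2, 0, 5, 5, 0, 5, 5, 10, 10, 2, 10, 10, 2],
    [0, 1, 0, 1, 4, 0, 4, 7, 7, 1, 0, 11, 11, 13, 1, 13],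
    [0, 1, 1, 0, 4, 4, 0, 7, 1, 7, 10, 1, 10, 0, 14, 14],
    [0, 0, 0, 0, 0, 0, 0, 0, 0, 0, 0, 0, 0, 0, 0, 0]]

theorem rep31 : IsConLattice (maskRel (7, 284795138680703)) :=
  Small.isConLattice_of_check (C := cert31) (by decide +kernel)

def cert32 : Small.Cert where
  N := 9
  ops := [
    [0, 3, 4, 3, 4, 0, 4, 0, 3],
    [5, 1, 6, 1, 6, 5, 6, 5, 1],
    [7, 8, 2, 8, 2, 7, 2, 7, 8],
    [0, 1, 2, 0, 0, 1, 1, 2, 2],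
    [3, 1, 8, 1, 8, 3, 8, 3, 1]]
  labs := [
    [0, 1, 2, 3, 4, 5, 6, 7, 8],
    [0, 0, 2, 0, 4, 0, 6, 7, 7],
    [0, 1, 1, 3, 3, 5, 1, 7, 1],
    [0, 1, 1, 3, 3, 5, 1, 5, 1],
    [0, 0, 2, 0, 4, 0, 4, 7, 7],
    [0, 1, 0, 3, 0, 5, 5, 0, 3],
    [0, 0, 0, 0, 0, 0, 0, 0, 0]]

theorem rep32 : IsConLattice (maskRel (7, 284795138681215)) :=
  Small.isConLattice_of_check (C := cert32) (by decide +kernel)

end Vale.Agent.P183.Reps
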