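import Vale.Agent.P183.Small
import Vale.Agent.P183.Sub

/-! Small unary algebras representing small lattices, part 1. Generated. -/

set_option maxRecDepth 100000

namespace Vale.Agent.P183.Reps

def cert0 : Small.Cert :=
  ⟨1, [],
   [[0]]⟩

theorem rep0 : IsConLattice (maskRel (1, 1)) :=
  Small.isConLattice_of_check (C := cert0) (by decide +kernel)

def cert1 : Small.Cert :=
  ⟨2, [[0, 1],
    [1, 1]],
   [[0, 1],
    [0, 0]]⟩

theorem rep1 : IsConLattice (maskRel (2, 11)) :=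
  Small.isConLattice_of_check (C := cert1) (by decide +kernel)

def cert2 : Small.Cert :=
  ⟨3, [[0, 1, 1],
    [0, 1, 2],
    [2, 1, 2]],
   [[0, 1, 2],
    [0, 1, 1],
    [0, 0, 0]]⟩

theorem rep2 : IsConLattice (maskRel (3, 311)) :=
  Small.isConLattice_of_check (C := cert2) (by decide +kernel)

def cert3 : Small.Cert :=
  ⟨3, [[0, 0, 2],
    [0, 1, 0],
    [2, 2, 2]],
   [[0, 1, 2],
    [0, 0, 2],
    [0, 1, 0],
    [0, 0, 0]]⟩

theorem rep3 : IsConLattice (maskRel (4, 36015)) :=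
  Small.isConLattice_of_check (C := cert3) (by decide +kernel)

def cert4 : Small.Cert :=
  ⟨4, [[0, 2, 1, 3]],
   [[0, 1, 2, 3],
    [0, 1, 1, 3],
    [0, 1, 2, 0],
    [0, 0, 0, 3],
    [0, 1, 1, 0],
    [0, 1, 1, 1],
    [0, 0, 0, 0]]⟩

theorem base4 : IsConLattice (maskRel (7, 284795138817407)) :=
  Small.isConLattice_of_check (C := cert4) (by decide +kernel)

theorem rep4 : IsConLattice (maskRel (4, 36079)) :=
  isConLattice_sub base4 2 0 [0, 2, 4, 6] (by decide +kernel)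

def cert5 : Small.Cert :=
  ⟨3, [],
   [[0, 1, 2],
    [0, 0, 2],
    [0, 1, 0],
    [0, 1, 1],
    [0, 0, 0]]⟩

theorem rep5 : IsConLattice (maskRel (5, 17584735)) :=
  Small.isConLattice_of_check (C := cert5) (by decide +kernel)

def cert6 : Small.Cert :=
  ⟨4, [[1, 0, 3, 2],
    [3, 2, 2, 3]],
   [[0, 1, 2, 3],
    [0, 1, 2, 2],
    [0, 0, 2, 2],
    [0, 1, 1, 0],
    [0, 0, 0, 0]]⟩

theorem rep6 : IsConLattice (maskRel (5, 17584863)) :=
  Small.isConLattice_of_check (C := cert6) (by decide +kernel)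

def cert7 : Small.Cert :=
  ⟨4, [[0, 0, 1, 3],
    [0, 1, 2, 1],
    [1, 1, 2, 1]],
   [[0, 1, 2, 3],
    [0, 0, 2, 3],
    [0, 0, 0, 3],
    [0, 0, 2, 0],
    [0, 0, 0, 0]]⟩

theorem rep7 : IsConLattice (maskRel (5, 17585119)) :=
  Small.isConLattice_of_check (C := cert7) (by decide +kernel)

def cert8 : Small.Cert :=
  ⟨4, [[0, 2, 1, 3]],
   [[0, 1, 2, 3],
    [0, 1, 1, 3],
    [0, 1, 2, 0],
    [0, 0, 0, 3],
    [0, 1, 1, 0],
    [0, 1, 1, 1],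
    [0, 0, 0, 0]]⟩

theorem base8 : IsConLattice (maskRel (7, 284795138817407)) :=
  Small.isConLattice_of_check (C := cert8) (by decide +kernel)

theorem rep8 : IsConLattice (maskRel (5, 17593183)) :=
  isConLattice_sub base8 2 1 [0, 1, 2, 4, 6] (by decide +kernel)

def cert9 : Small.Cert :=
  ⟨5, [[2, 4, 1, 3, 3],
    [4, 1, 4, 4, 4]],
   [[0, 1, 2, 3, 4],
    [0, 1, 2, 3, 3],
    [0, 1, 2, 1, 1],
    [0, 1, 1, 1, 1],
    [0, 0, 0, 0, 0]]⟩

theorem rep9 : IsConLattice (maskRel (5, 17593311)) :=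
  Small.isConLattice_of_check (C := cert9) (by decide +kernel)

def cert10 : Small.Cert :=
  ⟨6, [[1, 0, 5, 4, 3, 2],
    [2, 4, 3, 0, 5, 1],
    [5, 5, 5, 5, 5, 5]],
   [[0, 1, 2, 3, 4, 5],
    [0, 0, 2, 3, 2, 3],
    [0, 1, 1, 3, 3, 0],
    [0, 1, 2, 1, 0, 2],
    [0, 1, 0, 0, 1, 1],
    [0, 0, 0, 0, 0, 0]]⟩

theorem rep10 : IsConLattice (maskRel (6, 35175680191)) :=
  Small.isConLattice_of_check (C := cert10) (by decide +kernel)

def cert12 : Small.Cert :=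
  ⟨12, [[2, 10, 7, 6, 5, 3, 8, 9, 11, 1, 0, 4],
    [11, 11, 11, 11, 11, 11, 11, 7, 7, 11, 11, 11]],
   [[0, 1, 2, 3, 4, 5, 6, 7, 8, 9, 10, 11],
    [0, 1, 2, 3, 4, 1, 0, 7, 2, 4, 3, 7],
    [0, 1, 1, 3, 0, 1, 0, 3, 1, 0, 3, 3],
    [0, 0, 2, 2, 2, 0, 0, 0, 2, 2, 2, 0],
    [0, 1, 2, 0, 1, 5, 2, 7, 7, 9, 5, 9],
    [0, 0, 0, 0, 0, 0, 0, 0, 0, 0, 0, 0]]⟩

theorem rep12 : IsConLattice (maskRel (6, 35175680959)) :=
  Small.isConLattice_of_check (C := cert12) (by decide +kernel)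

def cert13 : Small.Cert :=
  ⟨4, [[3, 0, 3, 0],
    [3, 1, 2, 0]],
   [[0, 1, 2, 3],
    [0, 1, 2, 0],
    [0, 0, 2, 0],
    [0, 1, 0, 0],
    [0, 1, 1, 0],
    [0, 0, 0, 0]]⟩

theorem rep13 : IsConLattice (maskRel (6, 35175681983)) :=
  Small.isConLattice_of_check (C := cert13) (by decide +kernel)

def cert14 : Small.Cert :=
  ⟨4, [[0, 2, 2, 0],
    [1, 3, 3, 1]],
   [[0, 1, 2, 3],
    [0, 1, 1, 3],
    [0, 1, 2, 0],
    [0, 1, 1, 0],
    [0, 1, 0, 1],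
    [0, 0, 0, 0]]⟩

theorem rep14 : IsConLattice (maskRel (6, 35175713471)) :=
  Small.isConLattice_of_check (C := cert14) (by decide +kernel)

def cert15 : Small.Cert :=
  ⟨6, [[0, 1, 1, 1, 1, 0],
    [3, 1, 5, 0, 4, 2]],
   [[0, 1, 2, 3, 4, 5],
    [0, 1, 2, 3, 1, 5],
    [0, 0, 2, 0, 4, 5],
    [0, 1, 2, 2, 4, 0],
    [0, 0, 2, 0, 0, 5],
    [0, 0, 2, 0, 4, 2],
    [0, 1, 2, 2, 1, 0],
    [0, 0, 0, 0, 4, 0],
    [0, 0, 2, 0, 0, 2],
    [0, 0, 2, 0, 2, 2],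
    [0, 0, 0, 0, 0, 0]]⟩

theorem base15 : IsConLattice (maskRel (11, 1330201947760869393011581657673275391)) :=
  Small.isConLattice_of_check (C := cert15) (by decide +kernel)

theorem rep15 : IsConLattice (maskRel (6, 35175713727)) :=
  isConLattice_sub base15 6 9 [0, 2, 5, 9, 6, 10] (by decide +kernel)

def cert16 : Small.Cert :=
  ⟨6, [[1, 3, 3, 1, 1, 3],
    [5, 4, 4, 2, 2, 0]],
   [[0, 1, 2, 3, 4, 5],
    [0, 1, 1, 3, 4, 5],
    [0, 1, 2, 3, 3, 5],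
    [0, 1, 1, 3, 3, 5],
    [0, 1, 2, 1, 2, 5],
    [0, 1, 2, 3, 0, 2],
    [0, 1, 1, 1, 1, 5],
    [0, 1, 1, 3, 0, 1],
    [0, 1, 2, 0, 0, 2],
    [0, 1, 2, 1, 2, 0],
    [0, 1, 0, 1, 0, 0],
    [0, 1, 1, 0, 0, 1],
    [0, 1, 1, 1, 1, 0],
    [0, 0, 0, 0, 0, 0]]⟩

theorem base16 : IsConLattice (maskRel (14, 50221411603569152155510572690841683354376496958287306211327)) :=
  Small.isConLattice_of_check (C := cert16) (by decide +kernel)

theorem rep16 : IsConLattice (maskRel (6, 35175713983)) :=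
  isConLattice_sub base16 7 9 [0, 4, 7, 11, 9, 13] (by decide +kernel)

end Vale.Agent.P183.Reps
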