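import Vale.Agent.P183.Small
import Vale.Agent.P183.Sub

/-! Small unary algebras representing small lattices, part 2. Generated. -/

set_option maxRecDepth 100000

namespace Vale.Agent.P183.Reps

def cert17 : Small.Cert :=
  ⟨4, [[1, 3, 0, 1]],
   [[0, 1, 2, 3],
    [0, 1, 2, 0],
    [0, 1, 2, 1],
    [0, 0, 2, 0],
    [0, 1, 1, 0],
    [0, 0, 0, 0]]⟩

theorem rep17 : IsConLattice (maskRel (6, 35175714495)) :=
  Small.isConLattice_of_check (C := cert17) (by decide +kernel)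

def cert18 : Small.Cert :=
  ⟨5, [[3, 4, 3, 2, 4]],
   [[0, 1, 2, 3, 4],
    [0, 1, 0, 3, 4],
    [0, 1, 2, 2, 4],
    [0, 1, 2, 3, 1],
    [0, 1, 0, 0, 4],
    [0, 1, 0, 3, 1],
    [0, 1, 2, 2, 1],
    [0, 1, 2, 2, 2],
    [0, 0, 2, 2, 2],
    [0, 1, 0, 0, 0],
    [0, 1, 0, 0, 1],
    [0, 1, 1, 1, 1],
    [0, 0, 0, 0, 0]]⟩

theorem base18 : IsConLattice (maskRel (13, 374212934015709631287304934947796975670934423101439)) :=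
  Small.isConLattice_of_check (C := cert18) (by decide +kernel)

theorem rep18 : IsConLattice (maskRel (6, 35175714751)) :=
  isConLattice_sub base18 10 8 [0, 2, 7, 8, 10, 12] (by decide +kernel)

def cert19 : Small.Cert :=
  ⟨5, [[1, 1, 2, 3, 4],
    [4, 2, 0, 1, 0]],
   [[0, 1, 2, 3, 4],
    [0, 1, 2, 3, 2],
    [0, 0, 2, 3, 2],
    [0, 0, 0, 3, 0],
    [0, 0, 2, 2, 2],
    [0, 0, 0, 0, 0]]⟩

theorem rep19 : IsConLattice (maskRel (6, 35175780287)) :=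
  Small.isConLattice_of_check (C := cert19) (by decide +kernel)

def cert20 : Small.Cert :=
  ⟨4, [[0, 0, 2, 3],
    [0, 3, 2, 3],
    [2, 1, 2, 2]],
   [[0, 1, 2, 3],
    [0, 1, 0, 3],
    [0, 1, 2, 0],
    [0, 1, 2, 2],
    [0, 1, 0, 0],
    [0, 0, 0, 0]]⟩

theorem rep20 : IsConLattice (maskRel (6, 35179941055)) :=
  Small.isConLattice_of_check (C := cert20) (by decide +kernel)

def cert21 : Small.Cert :=
  ⟨5, [[1, 0, 2, 4, 3],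
    [3, 4, 0, 4, 3]],
   [[0, 1, 2, 3, 4],
    [0, 1, 2, 3, 3],
    [0, 0, 2, 3, 3],
    [0, 1, 2, 1, 0],
    [0, 0, 2, 0, 0],
    [0, 0, 0, 0, 0]]⟩

theorem rep21 : IsConLattice (maskRel (6, 35179941311)) :=
  Small.isConLattice_of_check (C := cert21) (by decide +kernel)

def cert22 : Small.Cert :=
  ⟨5, [[0, 1, 0, 2, 1],
    [1, 1, 1, 2, 4],
    [4, 1, 1, 1, 4]],
   [[0, 1, 2, 3, 4],
    [0, 1, 2, 3, 1],
    [0, 0, 2, 3, 0],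
    [0, 1, 0, 3, 1],
    [0, 0, 0, 3, 0],
    [0, 0, 0, 0, 0]]⟩

theorem rep22 : IsConLattice (maskRel (6, 35179941823)) :=
  Small.isConLattice_of_check (C := cert22) (by decide +kernel)

def cert23 : Small.Cert :=
  ⟨5, [[1, 1, 2, 4, 4],
    [3, 1, 2, 0, 2]],
   [[0, 1, 2, 3, 4],
    [0, 1, 1, 3, 4],
    [0, 1, 2, 3, 2],
    [0, 1, 1, 3, 1],
    [0, 1, 1, 0, 1],
    [0, 0, 0, 0, 0]]⟩

theorem rep23 : IsConLattice (maskRel (6, 35179974335)) :=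
  Small.isConLattice_of_check (C := cert23) (by decide +kernel)

def cert24 : Small.Cert :=
  ⟨6, [[0, 1, 2, 3, 0, 5],
    [2, 3, 0, 4, 5, 5]],
   [[0, 1, 2, 3, 4, 5],
    [0, 1, 0, 3, 4, 5],
    [0, 1, 0, 3, 4, 0],
    [0, 1, 0, 3, 0, 0],
    [0, 1, 0, 0, 0, 0],
    [0, 0, 0, 0, 0, 0]]⟩

theorem rep24 : IsConLattice (maskRel (6, 35179974591)) :=
  Small.isConLattice_of_check (C := cert24) (by decide +kernel)

def cert25 : Small.Cert :=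
  ⟨16, [[1, 0, 3, 2, 5, 4, 7, 6, 9, 8, 11, 10, 13, 12, 15, 14],
    [1, 2, 0, 3, 9, 10, 8, 11, 13, 14, 12, 15, 5, 6, 4, 7],
    [2, 3, 0, 1, 6, 7, 4, 5, 10, 11, 8, 9, 14, 15, 12, 13],
    [4, 5, 6, 7, 0, 1, 2, 3, 12, 13, 14, 15, 8, 9, 10, 11],
    [8, 9, 10, 11, 12, 13, 14, 15, 0, 1, 2, 3, 4, 5, 6, 7]],
   [[0, 1, 2, 3, 4, 5, 6, 7, 8, 9, 10, 11, 12, 13, 14, 15],
    [0, 0, 0, 0, 4, 4, 4, 4, 8, 8, 8, 8, 12, 12, 12, 12],
    [0, 1, 2, 3, 0, 1, 2, 3, 0, 1, 2, 3, 0, 1, 2, 3],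
    [0, 1, 2, 3, 1, 0, 3, 2, 3, 2, 1, 0, 2, 3, 0, 1],
    [0, 1, 2, 3, 2, 3, 0, 1, 1, 0, 3, 2, 3, 2, 1, 0],
    [0, 1, 2, 3, 3, 2, 1, 0, 2, 3, 0, 1, 1, 0, 3, 2],
    [0, 0, 0, 0, 0, 0, 0, 0, 0, 0, 0, 0, 0, 0, 0, 0]]⟩

theorem rep25 : IsConLattice (maskRel (7, 284795138548095)) :=
  Small.isConLattice_of_check (C := cert25) (by decide +kernel)

def cert29 : Small.Cert :=
  ⟨7, [[4, 2, 1, 5, 0, 3, 4],
    [5, 3, 4, 1, 2, 0, 5]],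
   [[0, 1, 2, 3, 4, 5, 6],
    [0, 1, 2, 3, 4, 5, 0],
    [0, 0, 2, 3, 2, 3, 6],
    [0, 1, 1, 3, 3, 0, 6],
    [0, 1, 2, 1, 0, 2, 6],
    [0, 0, 2, 3, 2, 3, 0],
    [0, 1, 0, 0, 1, 1, 6],
    [0, 1, 1, 3, 3, 0, 0],
    [0, 1, 2, 1, 0, 2, 0],
    [0, 0, 0, 0, 0, 0, 6],
    [0, 1, 0, 0, 1, 1, 0],
    [0, 0, 0, 0, 0, 0, 0]]⟩

theorem base29 : IsConLattice (maskRel (12, 11154456818618443991525632736798139781623807)) :=
  Small.isConLattice_of_check (C := cert29) (by decide +kernel)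

theorem rep29 : IsConLattice (maskRel (7, 284795138555775)) :=
  isConLattice_sub base29 1 0 [0, 1, 5, 7, 8, 10, 11] (by decide +kernel)

def cert30 : Small.Cert :=
  ⟨4, [[3, 2, 1, 0]],
   [[0, 1, 2, 3],
    [0, 1, 1, 3],
    [0, 1, 2, 0],
    [0, 1, 1, 0],
    [0, 0, 2, 2],
    [0, 1, 0, 1],
    [0, 0, 0, 0]]⟩

theorem rep30 : IsConLattice (maskRel (7, 284795138680191)) :=
  Small.isConLattice_of_check (C := cert30) (by decide +kernel)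

def cert36 : Small.Cert :=
  ⟨4, [[2, 1, 1, 2]],
   [[0, 1, 2, 3],
    [0, 1, 1, 3],
    [0, 1, 2, 0],
    [0, 1, 1, 0],
    [0, 0, 0, 3],
    [0, 1, 1, 1],
    [0, 0, 0, 0]]⟩

theorem rep36 : IsConLattice (maskRel (7, 284795138686335)) :=
  Small.isConLattice_of_check (C := cert36) (by decide +kernel)

def cert39 : Small.Cert :=
  ⟨4, [[0, 2, 2, 0],
    [0, 3, 0, 3]],
   [[0, 1, 2, 3],
    [0, 1, 0, 3],
    [0, 1, 2, 0],
    [0, 1, 0, 0],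
    [0, 1, 1, 0],
    [0, 1, 0, 1],
    [0, 0, 0, 0]]⟩

theorem rep39 : IsConLattice (maskRel (7, 284795138946431)) :=
  Small.isConLattice_of_check (C := cert39) (by decide +kernel)

def cert41 : Small.Cert :=
  ⟨5, [[0, 1, 2, 3, 4],
    [0, 3, 0, 1, 1],
    [0, 3, 3, 3, 0]],
   [[0, 1, 2, 3, 4],
    [0, 1, 2, 1, 4],
    [0, 0, 2, 0, 4],
    [0, 0, 0, 0, 4],
    [0, 0, 2, 0, 0],
    [0, 0, 2, 0, 2],
    [0, 0, 0, 0, 0]]⟩

theorem rep41 : IsConLattice (maskRel (7, 284795139473279)) :=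
  Small.isConLattice_of_check (C := cert41) (by decide +kernel)

def cert42 : Small.Cert :=
  ⟨9, [[2, 8, 3, 0, 6, 1, 7, 4, 5],
    [4, 4, 8, 4, 4, 4, 8, 4, 8]],
   [[0, 1, 2, 3, 4, 5, 6, 7, 8],
    [0, 0, 2, 3, 4, 3, 6, 7, 2],
    [0, 1, 2, 3, 0, 5, 2, 3, 8],
    [0, 1, 2, 3, 1, 5, 6, 5, 6],
    [0, 1, 2, 3, 4, 5, 5, 1, 4],
    [0, 1, 0, 0, 4, 5, 5, 1, 4],
    [0, 1, 2, 3, 1, 1, 1, 1, 1],
    [0, 0, 2, 3, 0, 3, 2, 3, 2],
    [0, 0, 2, 3, 2, 3, 3, 0, 2],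
    [0, 1, 1, 3, 3, 0, 0, 1, 3],
    [0, 1, 2, 1, 0, 2, 2, 1, 0],
    [0, 1, 0, 0, 1, 1, 1, 1, 1],
    [0, 0, 0, 0, 0, 0, 0, 0, 0]]⟩

theorem base42 : IsConLattice (maskRel (13, 374212934015709631280332547199321632609328929202175)) :=
  Small.isConLattice_of_check (C := cert42) (by decide +kernel)

theorem rep42 : IsConLattice (maskRel (7, 284795172366719)) :=
  isConLattice_sub base42 9 7 [0, 1, 2, 3, 7, 9, 12] (by decide +kernel)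

def cert44 : Small.Cert :=
  ⟨6, [[1, 1, 5, 5, 2, 2],
    [3, 3, 4, 4, 0, 0]],
   [[0, 1, 2, 3, 4, 5],
    [0, 0, 2, 3, 4, 5],
    [0, 1, 2, 2, 4, 5],
    [0, 1, 2, 3, 4, 4],
    [0, 0, 2, 2, 4, 5],
    [0, 0, 2, 3, 4, 4],
    [0, 1, 2, 2, 4, 4],
    [0, 0, 2, 2, 4, 4],
    [0, 1, 1, 0, 0, 1],
    [0, 0, 0, 0, 0, 0]]⟩

theorem base44 : IsConLattice (maskRel (10, 634754511534630061157630266367)) :=
  Small.isConLattice_of_check (C := cert44) (by decide +kernel)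

theorem rep44 : IsConLattice (maskRel (7, 284795172368255)) :=
  isConLattice_sub base44 1 8 [0, 1, 4, 5, 7, 8, 9] (by decide +kernel)

end Vale.Agent.P183.Reps
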