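import Vale.Agent.P183.Small
import Vale.Agent.P183.Sub

/-! Small unary algebras representing small lattices, part 3. Generated. -/

set_option maxRecDepth 100000

namespace Vale.Agent.P183.Reps

def cert45 : Small.Cert :=
  ⟨8, [[0, 0, 0, 0, 7, 7, 7, 7],
    [1, 0, 3, 2, 5, 4, 7, 6],
    [4, 3, 4, 3, 4, 3, 4, 3]],
   [[0, 1, 2, 3, 4, 5, 6, 7],
    [0, 1, 0, 1, 4, 5, 6, 7],
    [0, 1, 2, 3, 4, 5, 4, 5],
    [0, 1, 0, 1, 4, 5, 4, 5],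
    [0, 1, 2, 3, 3, 2, 1, 0],
    [0, 0, 2, 3, 3, 2, 0, 0],
    [0, 1, 2, 2, 2, 2, 1, 0],
    [0, 0, 2, 2, 2, 2, 0, 0],
    [0, 1, 0, 1, 1, 0, 1, 0],
    [0, 1, 1, 0, 0, 1, 1, 0],
    [0, 0, 0, 0, 0, 0, 0, 0]]⟩

theorem base45 : IsConLattice (maskRel (11, 1330201947760878810087379682231605247)) :=
  Small.isConLattice_of_check (C := cert45) (by decide +kernel)

theorem rep45 : IsConLattice (maskRel (7, 284795172368767)) :=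
  isConLattice_sub base45 5 3 [0, 5, 1, 2, 3, 7, 10] (by decide +kernel)

def cert46 : Small.Cert :=
  ⟨4, [[0, 0, 2, 3],
    [0, 2, 2, 3]],
   [[0, 1, 2, 3],
    [0, 1, 0, 3],
    [0, 1, 2, 0],
    [0, 1, 2, 2],
    [0, 1, 0, 0],
    [0, 0, 0, 3],
    [0, 0, 0, 0]]⟩

theorem rep46 : IsConLattice (maskRel (7, 284795172370815)) :=
  Small.isConLattice_of_check (C := cert46) (by decide +kernel)

def cert48 : Small.Cert :=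
  ⟨5, [[0, 3, 0, 3, 3],
    [0, 4, 2, 3, 1],
    [1, 2, 4, 2, 2]],
   [[0, 1, 2, 3, 4],
    [0, 1, 2, 3, 1],
    [0, 1, 0, 3, 1],
    [0, 1, 2, 1, 1],
    [0, 1, 0, 1, 1],
    [0, 1, 1, 0, 1],
    [0, 0, 0, 0, 0]]⟩

theorem rep48 : IsConLattice (maskRel (7, 284795172372351)) :=
  Small.isConLattice_of_check (C := cert48) (by decide +kernel)

def cert49 : Small.Cert :=
  ⟨6, [[3, 0, 5, 5, 3, 0],
    [3, 1, 2, 3, 2, 5],
    [5, 1, 2, 3, 1, 5]],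
   [[0, 1, 2, 3, 4, 5],
    [0, 1, 2, 2, 4, 5],
    [0, 1, 2, 3, 4, 1],
    [0, 1, 2, 0, 4, 0],
    [0, 1, 2, 2, 4, 1],
    [0, 0, 2, 0, 4, 0],
    [0, 1, 0, 0, 4, 0],
    [0, 1, 1, 0, 4, 0],
    [0, 1, 2, 2, 0, 1],
    [0, 0, 0, 0, 4, 0],
    [0, 1, 1, 0, 1, 0],
    [0, 0, 0, 0, 0, 0]]⟩

theorem base49 : IsConLattice (maskRel (12, 11154456818618473697251462603353549742354431)) :=
  Small.isConLattice_of_check (C := cert49) (by decide +kernel)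

theorem rep49 : IsConLattice (maskRel (7, 284795172498815)) :=
  isConLattice_sub base49 10 8 [0, 1, 2, 4, 8, 10, 11] (by decide +kernel)

def cert50 : Small.Cert :=
  ⟨8, [[0, 1, 2, 3, 3, 2, 1, 0],
    [0, 1, 2, 3, 5, 4, 7, 6],
    [0, 6, 0, 6, 1, 7, 1, 7]],
   [[0, 1, 2, 3, 4, 5, 6, 7],
    [0, 1, 0, 3, 4, 5, 6, 7],
    [0, 1, 2, 1, 4, 5, 6, 7],
    [0, 1, 0, 1, 4, 5, 6, 7],
    [0, 0, 2, 3, 4, 5, 0, 0],
    [0, 0, 0, 3, 4, 5, 0, 0],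
    [0, 0, 2, 0, 4, 5, 0, 0],
    [0, 0, 2, 2, 4, 5, 0, 0],
    [0, 1, 0, 1, 4, 5, 4, 5],
    [0, 0, 0, 0, 4, 5, 0, 0],
    [0, 0, 2, 2, 4, 4, 0, 0],
    [0, 0, 0, 0, 4, 4, 0, 0],
    [0, 0, 2, 2, 2, 2, 0, 0],
    [0, 0, 0, 0, 0, 0, 0, 0]]⟩

theorem base50 : IsConLattice (maskRel (14, 50221411603577715380319318615703347306091409231485229252607)) :=
  Small.isConLattice_of_check (C := cert50) (by decide +kernel)

theorem rep50 : IsConLattice (maskRel (7, 284795172499327)) :=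
  isConLattice_sub base50 8 12 [0, 4, 7, 10, 12, 8, 13] (by decide +kernel)

def cert51 : Small.Cert :=
  ⟨16, [[0, 0, 0, 0, 10, 10, 10, 10, 0, 0, 0, 0, 10, 10, 10, 10],
    [1, 0, 3, 2, 5, 4, 7, 6, 9, 8, 11, 10, 13, 12, 15, 14],
    [14, 3, 12, 1, 10, 7, 8, 5, 7, 10, 5, 8, 3, 14, 1, 12]],
   [[0, 1, 2, 3, 4, 5, 6, 7, 8, 9, 10, 11, 12, 13, 14, 15],
    [0, 1, 0, 1, 4, 5, 6, 7, 8, 9, 10, 11, 12, 13, 12, 13],
    [0, 1, 2, 3, 4, 5, 4, 5, 8, 9, 8, 9, 12, 13, 14, 15],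
    [0, 1, 0, 1, 4, 5, 4, 5, 8, 9, 8, 9, 12, 13, 12, 13],
    [0, 1, 2, 3, 2, 3, 0, 1, 3, 2, 0, 1, 0, 1, 3, 2],
    [0, 0, 2, 3, 2, 3, 0, 0, 3, 2, 0, 0, 0, 0, 3, 2],
    [0, 0, 2, 2, 2, 2, 0, 0, 2, 2, 0, 0, 0, 0, 2, 2],
    [0, 0, 0, 0, 0, 0, 0, 0, 0, 0, 0, 0, 0, 0, 0, 0]]⟩

theorem base51 : IsConLattice (maskRel (8, 9277662556070906623)) :=
  Small.isConLattice_of_check (C := cert51) (by decide +kernel)

theorem rep51 : IsConLattice (maskRel (7, 284795172499839)) :=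
  isConLattice_sub base51 1 6 [0, 1, 4, 5, 6, 3, 7] (by decide +kernel)

def cert52 : Small.Cert :=
  ⟨5, [[0, 3, 2, 0, 2],
    [2, 4, 0, 4, 3]],
   [[0, 1, 2, 3, 4],
    [0, 1, 2, 0, 2],
    [0, 1, 0, 3, 4],
    [0, 1, 0, 3, 3],
    [0, 1, 0, 0, 0],
    [0, 0, 2, 0, 2],
    [0, 0, 0, 0, 0]]⟩

theorem rep52 : IsConLattice (maskRel (7, 284795172501887)) :=
  Small.isConLattice_of_check (C := cert52) (by decide +kernel)

def cert53 : Small.Cert :=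
  ⟨5, [[0, 1, 0, 3, 1],
    [3, 0, 4, 0, 2]],
   [[0, 1, 2, 3, 4],
    [0, 1, 2, 1, 4],
    [0, 1, 2, 0, 4],
    [0, 0, 2, 0, 4],
    [0, 0, 2, 0, 2],
    [0, 1, 0, 1, 1],
    [0, 0, 0, 0, 0]]⟩

theorem rep53 : IsConLattice (maskRel (7, 284795172502911)) :=
  Small.isConLattice_of_check (C := cert53) (by decide +kernel)

def cert54 : Small.Cert :=
  ⟨7, [[1, 2, 2, 5, 5, 1, 1],
    [3, 2, 1, 0, 5, 4, 6]],
   [[0, 1, 2, 3, 4, 5, 6],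
    [0, 1, 1, 3, 4, 5, 6],
    [0, 1, 1, 3, 4, 5, 1],
    [0, 1, 2, 3, 3, 0, 6],
    [0, 1, 1, 3, 1, 1, 6],
    [0, 1, 1, 3, 3, 0, 6],
    [0, 1, 1, 0, 1, 1, 6],
    [0, 1, 1, 3, 1, 1, 1],
    [0, 1, 1, 3, 3, 0, 1],
    [0, 0, 0, 0, 0, 0, 6],
    [0, 1, 1, 0, 1, 1, 0],
    [0, 1, 1, 0, 1, 1, 1],
    [0, 0, 0, 0, 0, 0, 0]]⟩

theorem base54 : IsConLattice (maskRel (13, 374212934015709631285403613780524896036719555436543)) :=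
  Small.isConLattice_of_check (C := cert54) (by decide +kernel)

theorem rep54 : IsConLattice (maskRel (7, 284795172503423)) :=
  isConLattice_sub base54 8 10 [0, 1, 4, 6, 10, 8, 12] (by decide +kernel)

def cert55 : Small.Cert :=
  ⟨5, [[0, 4, 0, 0, 4],
    [1, 4, 1, 4, 1],
    [2, 3, 2, 3, 2]],
   [[0, 1, 2, 3, 4],
    [0, 1, 0, 3, 4],
    [0, 1, 2, 3, 0],
    [0, 1, 0, 3, 0],
    [0, 1, 2, 1, 0],
    [0, 1, 2, 2, 1],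
    [0, 0, 2, 2, 0],
    [0, 1, 0, 0, 1],
    [0, 1, 0, 1, 0],
    [0, 0, 0, 0, 0]]⟩

theorem base55 : IsConLattice (maskRel (10, 634754511387128306933982702591)) :=
  Small.isConLattice_of_check (C := cert55) (by decide +kernel)

theorem rep55 : IsConLattice (maskRel (7, 284795172632959)) :=
  isConLattice_sub base55 4 7 [0, 1, 4, 5, 7, 8, 9] (by decide +kernel)

def cert56 : Small.Cert :=
  ⟨5, [[1, 1, 3, 3, 1],
    [3, 3, 4, 0, 2]],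
   [[0, 1, 2, 3, 4],
    [0, 0, 2, 3, 4],
    [0, 0, 2, 0, 4],
    [0, 1, 2, 2, 0],
    [0, 0, 2, 2, 0],
    [0, 0, 2, 0, 2],
    [0, 0, 0, 0, 0]]⟩

theorem rep56 : IsConLattice (maskRel (7, 284795172633471)) :=
  Small.isConLattice_of_check (C := cert56) (by decide +kernel)

def cert57 : Small.Cert :=
  ⟨8, [[1, 1, 2, 6, 2, 6, 6, 6],
    [3, 1, 1, 0, 5, 4, 3, 5]],
   [[0, 1, 2, 3, 4, 5, 6, 7],
    [0, 1, 1, 3, 4, 5, 6, 7],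
    [0, 0, 2, 0, 4, 5, 0, 7],
    [0, 1, 1, 3, 0, 3, 6, 7],
    [0, 0, 0, 0, 4, 5, 0, 7],
    [0, 1, 1, 3, 0, 3, 6, 6],
    [0, 0, 0, 0, 4, 4, 0, 7],
    [0, 0, 0, 0, 4, 5, 0, 4],
    [0, 0, 0, 0, 0, 0, 0, 7],
    [0, 0, 0, 0, 4, 4, 0, 4],
    [0, 0, 0, 0, 0, 0, 0, 0]]⟩

theorem base57 : IsConLattice (maskRel (11, 1330201947838297281595295955349919743)) :=
  Small.isConLattice_of_check (C := cert57) (by decide +kernel)

theorem rep57 : IsConLattice (maskRel (7, 284795172634495)) :=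
  isConLattice_sub base57 7 5 [0, 1, 3, 7, 9, 5, 10] (by decide +kernel)

def cert58 : Small.Cert :=
  ⟨5, [[0, 0, 2, 2, 0],
    [2, 4, 0, 4, 3],
    [2, 4, 2, 3, 3]],
   [[0, 1, 2, 3, 4],
    [0, 1, 0, 3, 4],
    [0, 1, 0, 3, 3],
    [0, 1, 2, 2, 0],
    [0, 1, 0, 0, 0],
    [0, 1, 0, 1, 1],
    [0, 0, 0, 0, 0]]⟩

theorem rep58 : IsConLattice (maskRel (7, 284795172895615)) :=
  Small.isConLattice_of_check (C := cert58) (by decide +kernel)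

def cert59 : Small.Cert :=
  ⟨5, [[3, 1, 2, 3, 3],
    [3, 1, 2, 3, 4],
    [3, 3, 0, 1, 4]],
   [[0, 1, 2, 3, 4],
    [0, 1, 2, 1, 4],
    [0, 0, 2, 0, 4],
    [0, 1, 2, 1, 1],
    [0, 0, 2, 0, 0],
    [0, 0, 0, 0, 4],
    [0, 0, 0, 0, 0]]⟩

theorem rep59 : IsConLattice (maskRel (7, 284795172896639)) :=
  Small.isConLattice_of_check (C := cert59) (by decide +kernel)

def cert60 : Small.Cert :=
  ⟨6, [[0, 4, 3, 3, 0, 2],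
    [2, 5, 4, 4, 3, 1]],
   [[0, 1, 2, 3, 4, 5],
    [0, 1, 2, 2, 4, 5],
    [0, 1, 2, 2, 0, 5],
    [0, 1, 0, 0, 0, 5],
    [0, 1, 0, 0, 0, 1],
    [0, 0, 2, 2, 0, 2],
    [0, 0, 0, 0, 0, 0]]⟩

theorem rep60 : IsConLattice (maskRel (7, 284795173027711)) :=
  Small.isConLattice_of_check (C := cert60) (by decide +kernel)

def cert61 : Small.Cert :=
  ⟨5, [[0, 1, 2, 3, 0],
    [0, 1, 4, 3, 4],
    [1, 1, 4, 4, 1]],
   [[0, 1, 2, 3, 4],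
    [0, 0, 2, 3, 4],
    [0, 1, 2, 3, 0],
    [0, 0, 2, 3, 0],
    [0, 0, 0, 3, 0],
    [0, 0, 2, 0, 0],
    [0, 0, 0, 0, 0]]⟩

theorem rep61 : IsConLattice (maskRel (7, 284795240136063)) :=
  Small.isConLattice_of_check (C := cert61) (by decide +kernel)

end Vale.Agent.P183.Reps
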