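import Vale.Agent.P183.Small
import Vale.Agent.P183.Sub

/-! Small unary algebras representing small lattices, part 4. Generated. -/

set_option maxRecDepth 100000

namespace Vale.Agent.P183.Reps

def cert62 : Small.Cert :=
  ⟨6, [[0, 1, 2, 3, 2, 4],
    [1, 1, 2, 4, 1, 0],
    [2, 1, 2, 3, 0, 0]],
   [[0, 1, 2, 3, 4, 5],
    [0, 1, 1, 3, 4, 5],
    [0, 0, 0, 3, 4, 5],
    [0, 0, 0, 3, 0, 5],
    [0, 0, 0, 0, 0, 5],
    [0, 0, 0, 3, 0, 0],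
    [0, 0, 0, 0, 0, 0]]⟩

theorem rep62 : IsConLattice (maskRel (7, 284795240136575)) :=
  Small.isConLattice_of_check (C := cert62) (by decide +kernel)

def cert63 : Small.Cert :=
  ⟨7, [[2, 2, 2, 2, 2, 2, 2],
    [2, 5, 6, 3, 1, 4, 0],
    [4, 6, 5, 3, 0, 2, 1]],
   [[0, 1, 2, 3, 4, 5, 6],
    [0, 0, 2, 3, 4, 2, 4],
    [0, 1, 1, 3, 0, 5, 5],
    [0, 1, 2, 3, 2, 0, 1],
    [0, 1, 0, 3, 1, 1, 0],
    [0, 0, 0, 3, 0, 0, 0],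
    [0, 0, 0, 0, 0, 0, 0]]⟩

theorem rep63 : IsConLattice (maskRel (7, 284803796119935)) :=
  Small.isConLattice_of_check (C := cert63) (by decide +kernel)

def cert66 : Small.Cert :=
  ⟨5, [[0, 2, 2, 0, 2],
    [0, 2, 2, 4, 0],
    [2, 0, 2, 1, 2]],
   [[0, 1, 2, 3, 4],
    [0, 1, 0, 3, 4],
    [0, 0, 0, 3, 4],
    [0, 1, 0, 3, 0],
    [0, 1, 0, 3, 1],
    [0, 0, 0, 3, 0],
    [0, 0, 0, 0, 0]]⟩

theorem rep66 : IsConLattice (maskRel (7, 284803796123519)) :=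
  Small.isConLattice_of_check (C := cert66) (by decide +kernel)

def cert67 : Small.Cert :=
  ⟨5, [[0, 1, 2, 3, 3],
    [1, 0, 0, 1, 3],
    [3, 2, 1, 0, 2]],
   [[0, 1, 2, 3, 4],
    [0, 1, 1, 3, 4],
    [0, 1, 2, 0, 4],
    [0, 1, 1, 0, 4],
    [0, 0, 2, 2, 4],
    [0, 0, 0, 0, 4],
    [0, 0, 0, 0, 0]]⟩

theorem rep67 : IsConLattice (maskRel (7, 284803796252031)) :=
  Small.isConLattice_of_check (C := cert67) (by decide +kernel)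

def cert68 : Small.Cert :=
  ⟨7, [[0, 1, 1, 0, 0, 0, 0],
    [0, 1, 2, 3, 4, 5, 6],
    [1, 4, 5, 6, 4, 5, 2]],
   [[0, 1, 2, 3, 4, 5, 6],
    [0, 1, 2, 3, 4, 4, 6],
    [0, 0, 2, 3, 0, 5, 6],
    [0, 1, 1, 3, 4, 4, 6],
    [0, 0, 2, 3, 0, 0, 6],
    [0, 0, 2, 3, 0, 2, 6],
    [0, 1, 1, 3, 4, 4, 0],
    [0, 0, 0, 3, 0, 0, 6],
    [0, 0, 2, 3, 0, 2, 2],
    [0, 0, 0, 3, 0, 0, 0],
    [0, 0, 2, 2, 0, 2, 2],
    [0, 0, 0, 0, 0, 0, 0]]⟩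

theorem base68 : IsConLattice (maskRel (12, 11154456818740148347834367337189975845089279)) :=
  Small.isConLattice_of_check (C := cert68) (by decide +kernel)

theorem rep68 : IsConLattice (maskRel (7, 284803796252543)) :=
  isConLattice_sub base68 6 8 [0, 2, 5, 8, 6, 9, 11] (by decide +kernel)

def cert69 : Small.Cert :=
  ⟨7, [[2, 1, 2, 1, 6, 1, 1],
    [3, 6, 3, 6, 5, 0, 0]],
   [[0, 1, 2, 3, 4, 5, 6],
    [0, 1, 0, 3, 4, 5, 6],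
    [0, 1, 2, 1, 4, 5, 6],
    [0, 1, 2, 3, 4, 5, 5],
    [0, 1, 0, 1, 4, 5, 6],
    [0, 1, 0, 3, 4, 5, 5],
    [0, 1, 2, 1, 4, 5, 5],
    [0, 1, 0, 1, 4, 5, 5],
    [0, 1, 1, 0, 4, 5, 0],
    [0, 0, 0, 0, 4, 5, 0],
    [0, 1, 1, 0, 4, 0, 0],
    [0, 1, 1, 0, 4, 1, 0],
    [0, 0, 0, 0, 4, 0, 0],
    [0, 0, 0, 0, 0, 0, 0]]⟩

theorem base69 : IsConLattice (maskRel (14, 50221411697110965848376141028588351398233602396806594740223)) :=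
  Small.isConLattice_of_check (C := cert69) (by decide +kernel)

theorem rep69 : IsConLattice (maskRel (7, 284803796253055)) :=
  isConLattice_sub base69 5 11 [0, 5, 8, 11, 7, 12, 13] (by decide +kernel)

def cert70 : Small.Cert :=
  ⟨5, [[0, 0, 2, 1, 1],
    [2, 0, 2, 4, 3]],
   [[0, 1, 2, 3, 4],
    [0, 1, 0, 3, 4],
    [0, 1, 2, 3, 3],
    [0, 1, 0, 3, 3],
    [0, 0, 0, 3, 4],
    [0, 0, 0, 3, 3],
    [0, 0, 0, 0, 0]]⟩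

theorem rep70 : IsConLattice (maskRel (7, 284803796254079)) :=
  Small.isConLattice_of_check (C := cert70) (by decide +kernel)

def cert71 : Small.Cert :=
  ⟨6, [[5, 2, 2, 5, 1, 2],
    [5, 3, 0, 1, 3, 0],
    [5, 5, 0, 0, 5, 0]],
   [[0, 1, 2, 3, 4, 5],
    [0, 1, 2, 3, 4, 2],
    [0, 1, 0, 3, 4, 0],
    [0, 1, 0, 1, 4, 0],
    [0, 0, 2, 2, 4, 2],
    [0, 0, 0, 0, 4, 0],
    [0, 0, 0, 0, 0, 0]]⟩

theorem rep71 : IsConLattice (maskRel (7, 284803796254591)) :=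
  Small.isConLattice_of_check (C := cert71) (by decide +kernel)

def cert72 : Small.Cert :=
  ⟨6, [[1, 1, 1, 4, 4, 1],
    [4, 3, 3, 1, 2, 0]],
   [[0, 1, 2, 3, 4, 5],
    [0, 1, 1, 3, 4, 5],
    [0, 1, 1, 3, 3, 5],
    [0, 0, 0, 3, 3, 5],
    [0, 1, 1, 1, 1, 5],
    [0, 0, 0, 0, 0, 5],
    [0, 0, 0, 0, 0, 0]]⟩

theorem rep72 : IsConLattice (maskRel (7, 284803796516735)) :=
  Small.isConLattice_of_check (C := cert72) (by decide +kernel)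

def cert73 : Small.Cert :=
  ⟨5, [[0, 1, 3, 1, 1],
    [0, 1, 4, 3, 4],
    [0, 2, 1, 2, 2]],
   [[0, 1, 2, 3, 4],
    [0, 1, 2, 1, 4],
    [0, 1, 2, 3, 1],
    [0, 1, 2, 3, 3],
    [0, 1, 2, 1, 1],
    [0, 1, 1, 1, 1],
    [0, 0, 0, 0, 0]]⟩

theorem rep73 : IsConLattice (maskRel (7, 284803829938559)) :=
  Small.isConLattice_of_check (C := cert73) (by decide +kernel)

def cert74 : Small.Cert :=
  ⟨6, [[3, 2, 1, 3, 5, 4],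
    [3, 5, 4, 2, 4, 5]],
   [[0, 1, 2, 3, 4, 5],
    [0, 1, 2, 3, 4, 4],
    [0, 1, 1, 3, 4, 4],
    [0, 1, 2, 3, 2, 1],
    [0, 1, 1, 3, 1, 1],
    [0, 1, 1, 1, 1, 1],
    [0, 0, 0, 0, 0, 0]]⟩

theorem rep74 : IsConLattice (maskRel (7, 284803829939071)) :=
  Small.isConLattice_of_check (C := cert74) (by decide +kernel)

def cert75 : Small.Cert :=
  ⟨6, [[0, 3, 0, 3, 4, 0],
    [3, 1, 4, 1, 5, 1]],
   [[0, 1, 2, 3, 4, 5],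
    [0, 1, 2, 1, 4, 5],
    [0, 0, 2, 0, 4, 5],
    [0, 1, 2, 1, 4, 0],
    [0, 0, 2, 0, 4, 0],
    [0, 0, 2, 0, 0, 0],
    [0, 0, 0, 0, 0, 0]]⟩

theorem rep75 : IsConLattice (maskRel (7, 284803829940095)) :=
  Small.isConLattice_of_check (C := cert75) (by decide +kernel)

def cert76 : Small.Cert :=
  ⟨6, [[0, 2, 2, 3, 4, 5],
    [3, 1, 4, 2, 2, 0],
    [3, 5, 2, 3, 4, 5]],
   [[0, 1, 2, 3, 4, 5],
    [0, 1, 2, 3, 2, 5],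
    [0, 1, 2, 3, 3, 5],
    [0, 1, 2, 2, 2, 5],
    [0, 1, 0, 0, 0, 5],
    [0, 1, 0, 0, 0, 0],
    [0, 0, 0, 0, 0, 0]]⟩

theorem rep76 : IsConLattice (maskRel (7, 284803830070655)) :=
  Small.isConLattice_of_check (C := cert76) (by decide +kernel)

def cert77 : Small.Cert :=
  ⟨7, [[5, 1, 5, 3, 5, 4, 4],
    [5, 5, 5, 5, 5, 5, 5],
    [6, 0, 4, 2, 5, 4, 3]],
   [[0, 1, 2, 3, 4, 5, 6],
    [0, 1, 2, 3, 4, 4, 6],
    [0, 1, 2, 3, 2, 2, 6],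
    [0, 1, 2, 2, 2, 2, 6],
    [0, 1, 2, 2, 2, 2, 2],
    [0, 1, 0, 0, 0, 0, 0],
    [0, 0, 0, 0, 0, 0, 0]]⟩

theorem rep77 : IsConLattice (maskRel (7, 284803830071167)) :=
  Small.isConLattice_of_check (C := cert77) (by decide +kernel)

end Vale.Agent.P183.Reps
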