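import Vale.Agent.P183.Prod
import Vale.Agent.P183.Sub
import Vale.Agent.P183.Reps1

/-! Lattices cut out of products of congruence lattices. Generated. -/

set_option maxRecDepth 100000

namespace Vale.Agent.P183.Reps

theorem prod12 : IsConLattice (maskRel (12, 11154456818618458848619492971841574259060735)) :=
  IsConLattice.congr
    (R := fun p q : Fin 2 × Fin 6 => maskRel (2, 11) p.1 q.1 ∧ maskRel (6, 35175680959) p.2 q.2)
    ((finProdFinEquiv (m := 2) (n := 6)).symm : Fin 12 ≃ Fin 2 × Fin 6) (by unfold maskRel; decide +kernel) (rep1.prod rep12)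

theorem rep40 : IsConLattice (maskRel (7, 284795138948991)) :=
  isConLattice_sub prod12 6 0 [0, 6, 7, 8, 9, 10, 11] (by decide +kernel)

theorem rep65 : IsConLattice (maskRel (7, 284803796121471)) :=
  isConLattice_sub prod12 5 5 [0, 1, 2, 3, 4, 5, 11] (by decide +kernel)

end Vale.Agent.P183.Reps
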