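import Vale.Agent.P183.Defs

/-! A certified computation of the congruence lattice of a small unary algebra. -/

namespace Vale.Agent.P183.Small

def lk (l : List ℕ) (x : ℕ) : ℕ := l.getD x 0

/-- Evaluate a number before passing it on. -/
def strict {α : Type} (n : ℕ) (k : ℕ → α) : α :=
  match n with
  | 0 => k 0
  | m + 1 => k (m + 1)

theorem strict_eq {α : Type} (n : ℕ) (k : ℕ → α) : strict n k = k n := by
  cases n <;> rfl

/-- Evaluate every entry of a mapped list before passing it on. -/
def strictMap {α : Type} (f : ℕ → ℕ) : List ℕ → (List ℕ → α) → α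
  | [], k => k []
  | v :: t, k => strict (f v) fun u => strictMap f t fun t' => k (u :: t')

theorem strictMap_eq {α : Type} (f : ℕ → ℕ) :
    ∀ (l : List ℕ) (k : List ℕ → α), strictMap f l k = k (l.map f) := by
  intro l
  induction l with
  | nil => intro k; rfl
  | cons v t ih => intro k; rw [strictMap, strict_eq, ih]; rfl

def cg (ops : List (List ℕ)) : ℕ → List (ℕ × ℕ) → List ℕ → List ℕ
  | 0, _, r => r
  | _ + 1, [], r => r
  | f + 1, (a₀, b₀) :: w, r =>
    strict a₀ fun a => strict b₀ fun b => strict (lk r a) fun la => strict (lk r b) fun lb =>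
    if la = lb then cg ops f w r
    else strictMap (fun v => if v = lb then la else v) r fun r' =>
      cg ops f (ops.map (fun g => (lk g a, lk g b)) ++ w) r'

/-- Data: the size of the algebra, its operation tables and its congruences as label lists. -/
structure Cert where
  N : ℕ
  ops : List (List ℕ)
  labs : List (List ℕ)

namespace Cert

variable (C : Cert)

def fuel : ℕ := (C.ops.length + 2) * (2 * C.N + 2)

def gen (w : List (ℕ × ℕ)) : List ℕ := cg C.ops C.fuel w (List.range C.N)

def edges (k : ℕ) : List (ℕ × ℕ) :=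
  (List.range C.N).map fun x => (x, lk (C.labs.getD k []) x)

def below (k : ℕ) (r : List ℕ) : Bool :=
  (List.range C.N).all fun x => lk r x == lk r (lk (C.labs.getD k []) x)

def le (i j : ℕ) : Bool := C.below i (C.labs.getD j [])

def wf : Bool :=
  decide (0 < C.N) &&
  (C.ops.all fun g => g.length == C.N && g.all fun v => decide (v < C.N)) &&
  (C.labs.all fun l => l.length == C.N && (l.all fun v => decide (v < C.N)) &&
    ((List.range C.N).all fun x => lk l (lk l x) == lk l x) &&
    C.ops.all fun g => (List.range C.N).all fun x => lk l (lk g x) == lk l (lk g (lk l x))) &&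
  C.labs.any fun l => l == List.range C.N

def joins : Bool :=
  (List.range C.labs.length).all fun i => (List.range C.labs.length).all fun j =>
    strictMap id (C.gen (C.edges i ++ C.edges j)) fun r =>
      (List.range C.labs.length).any fun l => C.le i l && C.le j l && C.below l r

def pairs : Bool :=
  (List.range C.N).all fun a =>
    (C.ops.any fun g => decide (lk g a < a) &&
      C.ops.any fun g' => (List.range C.N).all fun x => lk g' (lk g x) == x) ||
    (List.range C.N).all fun b => (a == b) ||
      strictMap id (C.gen [(a, b)]) fun r => (List.range C.labs.length).any fun k =>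
        (lk (C.labs.getD k []) a == lk (C.labs.getD k []) b) && C.below k r

def order (c : ℕ × ℕ) : Bool :=
  (C.labs.length == c.1) && (List.range c.1).all fun i => (List.range c.1).all fun j =>
    (C.le i j == c.2.testBit (c.1 * i + j)) &&
      ((i == j) || !(c.2.testBit (c.1 * i + j) && c.2.testBit (c.1 * j + i)))

def check (c : ℕ × ℕ) : Bool := C.wf && C.joins && C.pairs && C.order c

end Cert

theorem lk_lt {l : List ℕ} {N x : ℕ} (h : ∀ v ∈ l, v < N) (hN : 0 < N) : lk l x < N := by
  unfold lk
  by_cases hx : x < l.length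
  · rw [List.getD_eq_getElem _ _ hx]; exact h _ (List.getElem_mem hx)
  · rw [List.getD_eq_default _ _ (by omega)]; exact hN

theorem isConLattice_of_check {C : Cert} {c : ℕ × ℕ} (h : C.check c = true) :
    IsConLattice (maskRel c) := by
  simp only [Cert.check, Bool.and_eq_true] at h
  obtain ⟨⟨⟨hwf, hj⟩, hp⟩, ho⟩ := h
  simp only [Cert.wf, Bool.and_eq_true, decide_eq_true_eq, List.all_eq_true, List.any_eq_true,
    beq_iff_eq] at hwf
  obtain ⟨⟨⟨hN, hops⟩, hlabs⟩, l0, hl0, hl0e⟩ := hwf
  set m := C.ops.length
  have opmem : ∀ k : Fin m, C.ops[k.val] ∈ C.ops := fun k => List.getElem_mem k.isLt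
  let f : Fin m → Fin C.N → Fin C.N := fun k x =>
    ⟨lk C.ops[k.val] x, lk_lt (hops _ (opmem k)).2 hN⟩
  let op : ∀ _ : Fin m, (Fin 1 → Fin C.N) → Fin C.N := fun k a => f k (a 0)
  let Con := {θ : Setoid (Fin C.N) // ∀ k a b, (∀ l, θ (a l) (b l)) → θ (op k a) (op k b)}
  simp only [Cert.order, Bool.and_eq_true, List.all_eq_true, List.mem_range, beq_iff_eq,
    Bool.or_eq_true, Bool.not_eq_true', Bool.and_eq_false_iff] at ho
  obtain ⟨hlen, ho⟩ := ho
  let lab : ℕ → List ℕ := fun k => C.labs.getD k []
  have labmem : ∀ {k}, k < C.labs.length → lab k ∈ C.labs := fun {k} hk => by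
    simp only [lab]; rw [List.getD_eq_getElem _ _ hk]; exact List.getElem_mem hk
  have lablt : ∀ {k x}, k < C.labs.length → lk (lab k) x < C.N := fun {k x} hk =>
    lk_lt (hlabs _ (labmem hk)).1.1.2 hN
  let th : Fin c.1 → Con := fun i =>
    ⟨Setoid.ker (fun x : Fin C.N => lk (lab i.val) x.val), fun k a b hab => by
      have hi : i.val < C.labs.length := by omega
      have hh := (hlabs _ (labmem hi)).2 _ (opmem k)
      have h0 : lk (lab i.val) (a 0).val = lk (lab i.val) (b 0).val := hab 0
      change lk (lab i.val) (lk _ _) = lk (lab i.val) (lk _ _)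
      rw [hh _ (List.mem_range.2 (a 0).isLt), hh _ (List.mem_range.2 (b 0).isLt), h0]⟩
  have key : ∀ (θ : Con) (n : ℕ) (w : List (ℕ × ℕ)) (r : List ℕ),
      (∀ p ∈ w, ∃ ha hb, θ.1 ⟨p.1, ha⟩ ⟨p.2, hb⟩) →
      (r.length = C.N ∧ ∀ x : Fin C.N, ∃ hr, θ.1 x ⟨lk r x, hr⟩) →
      ∀ x : Fin C.N, ∃ hr, θ.1 x ⟨lk (cg C.ops n w r) x, hr⟩ := by
    intro θ n
    induction n with
    | zero => intro w r _ hr; simpa [cg] using hr.2
    | succ n ih =>
      intro w r hw hr
      match w with
      | [] => simpa [cg] using hr.2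
      | (a, b) :: w =>
        rw [cg]
        simp only [strict_eq, strictMap_eq]
        have hw' : ∀ p ∈ w, ∃ ha hb, θ.1 ⟨p.1, ha⟩ ⟨p.2, hb⟩ :=
          fun p hp => hw p (List.mem_cons_of_mem _ hp)
        split
        · exact ih _ _ hw' hr
        · obtain ⟨ha, hb, hab⟩ := hw (a, b) List.mem_cons_self
          apply ih
          · intro p hp
            rcases List.mem_append.1 hp with hp | hp
            · obtain ⟨g, hg, rfl⟩ := List.mem_map.1 hp
              obtain ⟨k, hk, rfl⟩ := List.getElem_of_mem hg
              exact ⟨_, _, θ.2 ⟨k, hk⟩ (fun _ => ⟨a, ha⟩) (fun _ => ⟨b, hb⟩) (fun _ => hab)⟩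
            · exact hw' p hp
          · refine ⟨by rw [List.length_map]; exact hr.1, fun x => ?_⟩
            obtain ⟨hx, hxr⟩ := hr.2 x
            obtain ⟨hla, hla'⟩ := hr.2 ⟨a, ha⟩
            obtain ⟨hlb, hlb'⟩ := hr.2 ⟨b, hb⟩
            have e : lk (r.map fun v => if v = lk r b then lk r a else v) x =
                if lk r x = lk r b then lk r a else lk r x := by
              have hxl : x.val < r.length := by rw [hr.1]; exact x.isLt
              have h1 : lk (r.map fun v => if v = lk r b then lk r a else v) x =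
                  (r.map fun v => if v = lk r b then lk r a else v)[x.val]'(by
                    rw [List.length_map]; exact hxl) := List.getD_eq_getElem _ _ _
              have h2 : lk r x = r[x.val]'hxl := List.getD_eq_getElem _ _ _
              rw [h1, List.getElem_map, ← h2]
            by_cases hc : lk r x = lk r b
            · refine ⟨by rw [e, if_pos hc]; exact hla, ?_⟩
              have e2 : (⟨lk r x, hx⟩ : Fin C.N) = ⟨lk r b, hlb⟩ := Fin.ext hc
              simp only [e, if_pos hc]
              exact θ.1.trans (θ.1.trans hxr (e2 ▸ θ.1.symm hlb'))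
                (θ.1.trans (θ.1.symm hab) hla')
            · refine ⟨by rw [e, if_neg hc]; exact hx, ?_⟩
              simp only [e, if_neg hc]
              exact hxr
  have gen_below : ∀ (θ : Con) (w : List (ℕ × ℕ)) (i : Fin c.1),
      (∀ p ∈ w, ∃ ha hb, θ.1 ⟨p.1, ha⟩ ⟨p.2, hb⟩) → C.below i.val (C.gen w) = true →
      (th i).1 ≤ θ.1 := by
    intro θ w i hw hb
    have hi : i.val < C.labs.length := by omega
    have hk := key θ C.fuel w (List.range C.N) hw ⟨List.length_range, fun x =>
      ⟨by simp [lk, x.isLt], by simp [lk, x.isLt]⟩⟩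
    simp only [Cert.below, List.all_eq_true, List.mem_range, beq_iff_eq] at hb
    have one : ∀ x : Fin C.N, θ.1 x ⟨lk (lab i.val) x, lablt hi⟩ := by
      intro x
      obtain ⟨h1, h1'⟩ := hk x
      obtain ⟨h2, h2'⟩ := hk ⟨lk (lab i.val) x, lablt hi⟩
      have e : (⟨_, h1⟩ : Fin C.N) = ⟨_, h2⟩ := Fin.ext (hb x x.isLt)
      exact θ.1.trans h1' (e ▸ θ.1.symm h2')
    intro x y hxy
    have e : (⟨lk (lab i.val) x, lablt hi⟩ : Fin C.N) = ⟨lk (lab i.val) y, lablt hi⟩ := Fin.ext hxy
    exact θ.1.trans (one x) (e ▸ θ.1.symm (one y))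
  have le_iff : ∀ i j : Fin c.1, (th i).1 ≤ (th j).1 ↔ C.le i.val j.val = true := by
    intro i j
    simp only [Cert.le, Cert.below, List.all_eq_true, List.mem_range, beq_iff_eq]
    constructor
    · intro hle x hx
      have hi : i.val < C.labs.length := by omega
      exact @hle ⟨x, hx⟩ ⟨_, lablt hi⟩ ((hlabs _ (labmem hi)).1.2 x (List.mem_range.2 hx)).symm
    · intro hle x y hxy
      have h1 := hle x.val x.isLt
      have h2 := hle y.val y.isLt
      change lk (lab j.val) x = lk (lab j.val) y
      have hxy' : lk (lab i.val) x = lk (lab i.val) y := hxy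
      exact h1.trans ((congrArg (lk (lab j.val)) hxy').trans h2.symm)
  have ord : ∀ i j : Fin c.1, (th i).1 ≤ (th j).1 ↔ maskRel c i j := by
    intro i j
    rw [le_iff, (ho i.val i.isLt j.val j.isLt).1]
    rfl
  have bot : ∀ θ : Con, ∃ k, (th k).1 ≤ θ.1 := by
    intro θ
    obtain ⟨k, hk, rfl⟩ := List.getElem_of_mem hl0
    refine ⟨⟨k, by omega⟩, fun x y hxy => ?_⟩
    have e : lab k = List.range C.N := by
      simp only [lab]; rw [List.getD_eq_getElem _ _ hk, hl0e]
    have hxy' : lk (lab k) x = lk (lab k) y := hxy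
    rw [e] at hxy'
    simp [lk, x.isLt, y.isLt] at hxy'
    rw [Fin.ext hxy']
  have surj : Function.Surjective th := by
    intro θ
    simp only [Cert.joins, strictMap_eq, List.map_id, List.all_eq_true, List.any_eq_true, List.mem_range,
      Bool.and_eq_true] at hj
    simp only [Cert.pairs, strictMap_eq, List.map_id] at hp
    have sup : ∀ L : List (Fin c.1),
        ∃ l, (th l).1 ≤ θ.1 ∧ ∀ i ∈ L, (th i).1 ≤ θ.1 → (th i).1 ≤ (th l).1 := by
      intro L
      induction L with
      | nil => exact (bot θ).imp fun l hl => ⟨hl, by simp⟩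
      | cons i L ih =>
        obtain ⟨l, hl, hL⟩ := ih
        by_cases hi : (th i).1 ≤ θ.1
        · obtain ⟨q, hq, ⟨hiq, hlq⟩, hb⟩ := hj i.val (by omega) l.val (by omega)
          let q' : Fin c.1 := ⟨q, by omega⟩
          have hed : ∀ (k : Fin c.1), (th k).1 ≤ θ.1 →
              ∀ p ∈ C.edges k.val, ∃ ha hb, θ.1 ⟨p.1, ha⟩ ⟨p.2, hb⟩ := by
            intro k hk p hpe
            obtain ⟨x, hx, rfl⟩ := List.mem_map.1 hpe
            have hkl : k.val < C.labs.length := by omega
            exact ⟨List.mem_range.1 hx, lablt hkl,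
              hk ((hlabs _ (labmem hkl)).1.2 x hx).symm⟩
          refine ⟨q', gen_below θ _ q' (fun p hpe => ?_) hb, fun j hjm hjθ => ?_⟩
          · rcases List.mem_append.1 hpe with hpe | hpe
            · exact hed i hi p hpe
            · exact hed l hl p hpe
          · rcases List.mem_cons.1 hjm with rfl | hjm
            · exact (le_iff j q').2 hiq
            · exact (hL j hjm hjθ).trans ((le_iff l q').2 hlq)
        · refine ⟨l, hl, fun j hjm hjθ => ?_⟩
          rcases List.mem_cons.1 hjm with rfl | hjm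
          · exact absurd hjθ hi
          · exact hL j hjm hjθ
    obtain ⟨l, hl, hL⟩ := sup (List.finRange c.1)
    refine ⟨l, Subtype.ext (le_antisymm hl ?_)⟩
    have main : ∀ (n : ℕ) (a b : Fin C.N), a.val = n → θ.1 a b → (th l).1 a b := by
      intro n
      induction n using Nat.strong_induction_on with
      | _ n ih =>
        intro a b han hab
        simp only [Bool.or_eq_true, List.all_eq_true, List.any_eq_true, List.mem_range,
          Bool.and_eq_true, decide_eq_true_eq, beq_iff_eq] at hp
        rcases hp a.val a.isLt with ⟨g, hg, hlt, g', hg', hinv⟩ | hdir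
        · obtain ⟨k, hk, rfl⟩ := List.getElem_of_mem hg
          obtain ⟨k', hk', rfl⟩ := List.getElem_of_mem hg'
          have h1 := θ.2 ⟨k, hk⟩ (fun _ => a) (fun _ => b) (fun _ => hab)
          have h2 : (th l).1 (f ⟨k, hk⟩ a) (f ⟨k, hk⟩ b) := ih _ (han ▸ hlt) _ _ rfl h1
          have h3 := (th l).2 ⟨k', hk'⟩ (fun _ => f ⟨k, hk⟩ a) (fun _ => f ⟨k, hk⟩ b) (fun _ => h2)
          have e : ∀ x, f ⟨k', hk'⟩ (f ⟨k, hk⟩ x) = x := fun x => Fin.ext (hinv x.val x.isLt)
          rw [← e a, ← e b]
          exact h3
        · rcases hdir b.val b.isLt with heq | ⟨k, hk, hkab, hkb⟩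
          · rw [Fin.ext heq]
          · let k' : Fin c.1 := ⟨k, by omega⟩
            have hle : (th k').1 ≤ θ.1 := gen_below θ _ k' (fun p hpe => by
              rw [List.mem_singleton] at hpe; subst hpe; exact ⟨a.isLt, b.isLt, hab⟩) hkb
            exact hL k' (List.mem_finRange k') hle hkab
    intro a b hab
    exact main a.val a b rfl hab
  have inj : Function.Injective th := by
    intro i j hij
    by_contra hne
    have h1 : maskRel c i j := (ord i j).1 (by rw [hij])
    have h2 : maskRel c j i := (ord j i).1 (by rw [hij])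
    have := (ho i.val i.isLt j.val j.isLt).2
    simp only [maskRel] at h1 h2
    simp [h1, h2, Fin.val_ne_of_ne hne] at this
  exact ⟨Fin C.N, ⟨⟨0, hN⟩⟩, inferInstance, m, fun _ => 1, op, Equiv.ofBijective th ⟨inj, surj⟩,
    fun i j => (ord i j).symm⟩

end Vale.Agent.P183.Small
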