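import Vale.Agent.P183.Defs

/-! The lattices with at most seven elements, one of each isomorphism type, as bit masks. -/

namespace Vale.Agent.P183

/-- One coded order per isomorphism type of lattice with at most seven elements. -/
def small78 : List (ℕ × ℕ) := [
  (1, 1), (2, 11), (3, 311), (4, 36015), (4, 36079),
  (5, 17584735), (5, 17584863), (5, 17585119), (5, 17593183), (5, 17593311),
  (6, 35175680191), (6, 35175680447), (6, 35175680959), (6, 35175681983), (6, 35175713471),
  (6, 35175713727), (6, 35175713983), (6, 35175714495), (6, 35175714751), (6, 35175780287),
  (6, 35179941055), (6, 35179941311), (6, 35179941823), (6, 35179974335), (6, 35179974591),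
  (7, 284795138548095), (7, 284795138548607), (7, 284795138549631), (7, 284795138551679), (7, 284795138555775),
  (7, 284795138680191), (7, 284795138680703), (7, 284795138681215), (7, 284795138682239), (7, 284795138682751),
  (7, 284795138685311), (7, 284795138686335), (7, 284795138686847), (7, 284795138944895), (7, 284795138946431),
  (7, 284795138948991), (7, 284795139473279), (7, 284795172366719), (7, 284795172367231), (7, 284795172368255),
  (7, 284795172368767), (7, 284795172370815), (7, 284795172371327), (7, 284795172372351), (7, 284795172498815),
  (7, 284795172499327), (7, 284795172499839), (7, 284795172501887), (7, 284795172502911), (7, 284795172503423),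
  (7, 284795172632959), (7, 284795172633471), (7, 284795172634495), (7, 284795172895615), (7, 284795172896639),
  (7, 284795173027711), (7, 284795240136063), (7, 284795240136575), (7, 284803796119935), (7, 284803796120447),
  (7, 284803796121471), (7, 284803796123519), (7, 284803796252031), (7, 284803796252543), (7, 284803796253055),
  (7, 284803796254079), (7, 284803796254591), (7, 284803796516735), (7, 284803829938559), (7, 284803829939071),
  (7, 284803829940095), (7, 284803830070655), (7, 284803830071167)
]

end Vale.Agent.P183
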