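import Vale.Agent.P183.Defs

/-! A certified computation of the congruence lattice of a transitive unary algebra.
Tables are packed in natural numbers, eight bits per entry.  A congruence is determined by the
class of 0, so certificates only derive members of this class. -/

namespace Vale.Agent.P183.Trans

def lk (t x : ℕ) : ℕ := (t >>> (8 * x)) &&& 255

/-- Data: size, operation tables, congruence label tables, classes of 0 as bit masks,
for each point the indices of an operation moving it down and of an inverse of that operation,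
derivations for each class, for each point and for each pair of congruences. -/
structure Cert where
  N : ℕ
  ops : List ℕ
  labs : List ℕ
  cls : List ℕ
  down : List (ℕ × ℕ)
  base : List (List (ℕ × List ℕ))
  pr : List (ℕ × List (ℕ × List ℕ))
  js : List (ℕ × List (ℕ × List ℕ))

namespace Cert

variable (C : Cert)

def ap (j x : ℕ) : ℕ := lk (C.ops.getD j 0) x

def word (w : List ℕ) (x : ℕ) : ℕ := w.foldl (fun x j => C.ap j x) x

def run (s : List (ℕ × List ℕ)) (r : ℕ) : ℕ :=
  s.foldl (fun r p =>
    if r.testBit p.1 && r.testBit (C.word p.2 0) then r ||| 1 <<< C.word p.2 p.1 else r) r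

def cl (k : ℕ) : ℕ := C.cls.getD k 0

def lab (k : ℕ) : ℕ := C.labs.getD k 0

def le (i j : ℕ) : Bool := C.cl i &&& C.cl j == C.cl i

def wf (n : ℕ) : Bool :=
  decide (0 < C.N) && decide (0 < C.ops.length) &&
  ((List.range C.ops.length).all fun j => (List.range C.N).all fun x => decide (C.ap j x < C.N)) &&
  (List.range n).all fun k => decide (lk (C.lab k) 0 = 0) && decide (C.cl k < 2 ^ C.N) &&
    (List.range C.N).all fun x => decide (lk (C.lab k) x < C.N) &&
      ((C.cl k).testBit x == (lk (C.lab k) x == 0)) &&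
      (lk (C.lab k) (lk (C.lab k) x) == lk (C.lab k) x) &&
      (List.range C.ops.length).all fun j =>
        lk (C.lab k) (C.ap j x) == lk (C.lab k) (C.ap j (lk (C.lab k) x))

def desc : Bool :=
  (List.range C.N).all fun a => a == 0 ||
    let d := C.down.getD a (0, 0)
    decide (d.1 < C.ops.length) && decide (d.2 < C.ops.length) && decide (C.ap d.1 a < a) &&
      (List.range C.N).all fun x => C.ap d.2 (C.ap d.1 x) == x

def pairs (n : ℕ) : Bool :=
  (List.range C.N).all fun b =>
    let d := C.pr.getD b (0, [])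
    decide (d.1 < n) && (C.cl d.1).testBit b &&
      (C.run (d.2 ++ C.base.getD d.1 []) (1 ||| 1 <<< b) &&& C.cl d.1 == C.cl d.1)

def joins (n : ℕ) : Bool :=
  (List.range n).all fun i => (List.range n).all fun j =>
    let d := C.js.getD (n * i + j) (0, [])
    decide (d.1 < n) && C.le i d.1 && C.le j d.1 &&
      (C.run d.2 (C.cl i ||| C.cl j) &&& C.cl d.1 == C.cl d.1)

def order (c : ℕ × ℕ) : Bool :=
  (List.range c.1).all fun i => (List.range c.1).all fun j =>
    (C.le i j == c.2.testBit (c.1 * i + j)) &&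
      ((i == j) || !(c.2.testBit (c.1 * i + j) && c.2.testBit (c.1 * j + i)))

def check (c : ℕ × ℕ) : Bool :=
  C.wf c.1 && C.desc && C.pairs c.1 && C.joins c.1 && C.order c

end Cert

theorem testBit_of_and_eq {r s z : ℕ} (h : r &&& s = s) (hz : s.testBit z = true) :
    r.testBit z = true := by
  rw [← h, Nat.testBit_and, Bool.and_eq_true] at hz
  exact hz.1

theorem isConLattice_of_check {C : Cert} {c : ℕ × ℕ} (h : C.check c = true) :
    IsConLattice (maskRel c) := by
  simp only [Cert.check, Bool.and_eq_true] at h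
  obtain ⟨⟨⟨⟨hwf, hd⟩, hp⟩, hj⟩, ho⟩ := h
  simp only [Cert.wf, Bool.and_eq_true, decide_eq_true_eq, List.all_eq_true, List.mem_range,
    beq_iff_eq] at hwf
  obtain ⟨⟨⟨hN, hm⟩, hops⟩, hlabs⟩ := hwf
  simp only [Cert.desc, List.all_eq_true, List.mem_range, Bool.or_eq_true, beq_iff_eq,
    Bool.and_eq_true, decide_eq_true_eq] at hd
  simp only [Cert.pairs, List.all_eq_true, List.mem_range, Bool.and_eq_true, decide_eq_true_eq,
    beq_iff_eq] at hp
  simp only [Cert.joins, List.all_eq_true, List.mem_range, Bool.and_eq_true, decide_eq_true_eq,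
    beq_iff_eq] at hj
  simp only [Cert.order, List.all_eq_true, List.mem_range, Bool.and_eq_true, beq_iff_eq,
    Bool.or_eq_true, Bool.not_eq_true', Bool.and_eq_false_iff] at ho
  let f : Fin C.ops.length → Fin C.N → Fin C.N := fun k x =>
    ⟨C.ap k.val x.val, hops _ k.isLt _ x.isLt⟩
  let op : ∀ _ : Fin C.ops.length, (Fin 1 → Fin C.N) → Fin C.N := fun k a => f k (a 0)
  let Con := {θ : Setoid (Fin C.N) // ∀ k a b, (∀ l, θ (a l) (b l)) → θ (op k a) (op k b)}
  let th : Fin c.1 → Con := fun i =>
    ⟨Setoid.ker (fun x : Fin C.N => lk (C.lab i.val) x.val), fun k a b hab => by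
      have h1 := ((hlabs _ i.isLt).2 _ (a 0).isLt).2 _ k.isLt
      have h2 := ((hlabs _ i.isLt).2 _ (b 0).isLt).2 _ k.isLt
      have h0 : lk (C.lab i.val) (a 0).val = lk (C.lab i.val) (b 0).val := hab 0
      change lk (C.lab i.val) (C.ap _ _) = lk (C.lab i.val) (C.ap _ _)
      rw [h1, h2, h0]⟩
  let z0 : Fin C.N := ⟨0, hN⟩
  have th0 : ∀ (i : Fin c.1) (x : Fin C.N),
      (th i).1 z0 x ↔ (C.cl i.val).testBit x.val = true := by
    intro i x
    rw [((hlabs _ i.isLt).2 _ x.isLt).1.1.2]
    change lk (C.lab i.val) 0 = lk (C.lab i.val) x.val ↔ _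
    rw [(hlabs _ i.isLt).1.1, beq_iff_eq]
    exact eq_comm
  have hcl : ∀ (i : Fin c.1) (z : ℕ), ¬ z < C.N → (C.cl i.val).testBit z = false := fun i z hz =>
    Nat.testBit_lt_two_pow (lt_of_lt_of_le (hlabs _ i.isLt).1.2
      (Nat.pow_le_pow_right (by omega) (Nat.le_of_not_lt hz)))
  have main : ∀ θ φ : Con, (∀ z, θ.1 z0 z → φ.1 z0 z) → θ.1 ≤ φ.1 := by
    intro θ φ hθφ
    suffices ∀ (n : ℕ) (a b : Fin C.N), a.val = n → θ.1 a b → φ.1 a b from
      fun a b hab => this a.val a b rfl hab
    intro n
    induction n using Nat.strong_induction_on with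
    | _ n ih =>
      intro a b han hab
      rcases hd a.val a.isLt with h0 | ⟨⟨⟨hg, hg'⟩, hlt⟩, hinv⟩
      · have e : a = z0 := Fin.ext h0
        subst e
        exact hθφ b hab
      · let g : Fin C.ops.length := ⟨_, hg⟩
        let g' : Fin C.ops.length := ⟨_, hg'⟩
        have h1 := θ.2 g (fun _ => a) (fun _ => b) (fun _ => hab)
        have h2 : φ.1 (f g a) (f g b) := ih _ (han ▸ hlt) _ _ rfl h1
        have h3 := φ.2 g' (fun _ => f g a) (fun _ => f g b) (fun _ => h2)
        have e : ∀ x, f g' (f g x) = x := fun x => Fin.ext (hinv x.val x.isLt)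
        rw [← e a, ← e b]
        exact h3
  have wordOK : ∀ (θ : Con) (w : List ℕ) (x y : Fin C.N), θ.1 x y →
      ∃ hx hy, θ.1 ⟨C.word w x.val, hx⟩ ⟨C.word w y.val, hy⟩ := by
    intro θ w
    induction w with
    | nil => intro x y h; exact ⟨x.isLt, y.isLt, h⟩
    | cons j w ih =>
      intro x y h
      by_cases hjl : j < C.ops.length
      · exact ih _ _ (θ.2 ⟨j, hjl⟩ (fun _ => x) (fun _ => y) (fun _ => h))
      · have e : ∀ v, C.ap j v = 0 := fun v => by
          simp [Cert.ap, List.getElem?_eq_none (Nat.le_of_not_lt hjl), lk]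
        have h2 := ih z0 z0 (θ.1.refl z0)
        simpa [Cert.word, e] using h2
  let B : Con → ℕ → Prop := fun θ z => ∀ hz : z < C.N, θ.1 z0 ⟨z, hz⟩
  let Good : Con → ℕ → Prop := fun θ r => ∀ z, r.testBit z = true → B θ z
  have runOK : ∀ (θ : Con) (s : List (ℕ × List ℕ)) (r : ℕ),
      (∀ z, r.testBit z = true → z < C.N) → Good θ r → Good θ (C.run s r) := by
    intro θ s
    induction s with
    | nil => intro r _ hr; simpa [Cert.run] using hr
    | cons p s ih =>
      intro r hlt hr
      have e : C.run (p :: s) r = C.run s (if r.testBit p.1 && r.testBit (C.word p.2 0)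
          then r ||| 1 <<< C.word p.2 p.1 else r) := rfl
      rw [e]
      split
      · next hc =>
        rw [Bool.and_eq_true] at hc
        have hp1 := hlt _ hc.1
        obtain ⟨hx, hy, hxy⟩ := wordOK θ p.2 z0 ⟨p.1, hp1⟩ (hr _ hc.1 hp1)
        have hw : θ.1 z0 ⟨C.word p.2 p.1, hy⟩ := θ.1.trans (hr _ hc.2 hx) hxy
        apply ih
        · intro z hz
          rw [Nat.testBit_or, Bool.or_eq_true] at hz
          rcases hz with hz | hz
          · exact hlt z hz
          · rw [Nat.one_shiftLeft, Nat.testBit_two_pow] at hz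
            simp at hz
            exact hz ▸ hy
        · intro z hz hzN
          rw [Nat.testBit_or, Bool.or_eq_true] at hz
          rcases hz with hz | hz
          · exact hr z hz hzN
          · rw [Nat.one_shiftLeft, Nat.testBit_two_pow] at hz
            simp at hz
            subst hz
            exact hw
      · exact ih r hlt hr
  have le_of : ∀ (θ : Con) (i : Fin c.1) (r : ℕ), Good θ r → r &&& C.cl i.val = C.cl i.val →
      (th i).1 ≤ θ.1 := by
    intro θ i r hr he
    exact main (th i) θ fun z hz => hr _ (testBit_of_and_eq he ((th0 i z).1 hz)) z.isLt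
  have le_iff : ∀ i j : Fin c.1, (th i).1 ≤ (th j).1 ↔ C.le i.val j.val = true := by
    intro i j
    simp only [Cert.le, beq_iff_eq]
    constructor
    · intro hle
      apply Nat.eq_of_testBit_eq
      intro z
      rw [Nat.testBit_and]
      by_cases hz : z < C.N
      · by_cases hi : (C.cl i.val).testBit z = true
        · have h2 := (th0 j ⟨z, hz⟩).1 (hle ((th0 i ⟨z, hz⟩).2 hi))
          simp [hi, h2]
        · simp [hi]
      · simp [hcl i z hz]
    · intro he
      exact main _ _ fun z hz => (th0 j z).2 (testBit_of_and_eq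
        (by rw [Nat.and_comm]; exact he) ((th0 i z).1 hz))
  have ord : ∀ i j : Fin c.1, (th i).1 ≤ (th j).1 ↔ maskRel c i j := by
    intro i j
    rw [le_iff, (ho i.val i.isLt j.val j.isLt).1]
    rfl
  have start : ∀ (θ : Con) (b : Fin C.N), θ.1 z0 b → ∃ k : Fin c.1,
      (th k).1 ≤ θ.1 ∧ (th k).1 z0 b := by
    intro θ b hb
    obtain ⟨⟨hk, hkb⟩, he⟩ := hp b.val b.isLt
    refine ⟨⟨_, hk⟩, le_of θ _ _ (runOK θ _ _ ?_ ?_) he, (th0 _ b).2 hkb⟩
    · intro z hz
      rw [Nat.testBit_or, Bool.or_eq_true, Nat.one_shiftLeft, Nat.testBit_two_pow,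
        Nat.testBit_one_eq_true_iff_self_eq_zero] at hz
      simp at hz
      omega
    · intro z hz hzN
      rw [Nat.testBit_or, Bool.or_eq_true, Nat.one_shiftLeft, Nat.testBit_two_pow,
        Nat.testBit_one_eq_true_iff_self_eq_zero] at hz
      simp at hz
      rcases hz with rfl | rfl
      · exact θ.1.refl z0
      · exact hb
  have surj : Function.Surjective th := by
    intro θ
    have sup : ∀ L : List (Fin c.1),
        ∃ l, (th l).1 ≤ θ.1 ∧ ∀ i ∈ L, (th i).1 ≤ θ.1 → (th i).1 ≤ (th l).1 := by
      intro L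
      induction L with
      | nil => exact (start θ z0 (θ.1.refl z0)).imp fun l hl => ⟨hl.1, by simp⟩
      | cons i L ih =>
        obtain ⟨l, hl, hL⟩ := ih
        by_cases hi : (th i).1 ≤ θ.1
        · obtain ⟨⟨⟨hq, hiq⟩, hlq⟩, he⟩ := hj i.val i.isLt l.val l.isLt
          have hg : Good θ (C.cl i.val ||| C.cl l.val) := by
            intro z hz hzN
            rw [Nat.testBit_or, Bool.or_eq_true] at hz
            rcases hz with hz | hz
            · exact hi ((th0 i ⟨z, hzN⟩).2 hz)
            · exact hl ((th0 l ⟨z, hzN⟩).2 hz)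
          refine ⟨⟨_, hq⟩, le_of θ _ _ (runOK θ _ _ ?_ hg) he, fun j hjm hjθ => ?_⟩
          · intro z hz
            rw [Nat.testBit_or, Bool.or_eq_true] at hz
            by_contra hzN
            rcases hz with hz | hz
            · rw [hcl i z hzN] at hz; simp at hz
            · rw [hcl l z hzN] at hz; simp at hz
          · rcases List.mem_cons.1 hjm with rfl | hjm
            · exact (le_iff j ⟨_, hq⟩).2 hiq
            · exact (hL j hjm hjθ).trans ((le_iff l ⟨_, hq⟩).2 hlq)
        · refine ⟨l, hl, fun j hjm hjθ => ?_⟩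
          rcases List.mem_cons.1 hjm with rfl | hjm
          · exact absurd hjθ hi
          · exact hL j hjm hjθ
    obtain ⟨l, hl, hL⟩ := sup (List.finRange c.1)
    refine ⟨l, Subtype.ext (le_antisymm hl (main θ (th l) fun z hz => ?_))⟩
    obtain ⟨k, hk, hkz⟩ := start θ z hz
    exact hL k (List.mem_finRange k) hk hkz
  have inj : Function.Injective th := by
    intro i j hij
    by_contra hne
    have h1 : maskRel c i j := (ord i j).1 (by rw [hij])
    have h2 : maskRel c j i := (ord j i).1 (by rw [hij])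
    have := (ho i.val i.isLt j.val j.isLt).2
    simp only [maskRel] at h1 h2
    simp [h1, h2, Fin.val_ne_of_ne hne] at this
  exact ⟨Fin C.N, ⟨z0⟩, inferInstance, C.ops.length, fun _ => 1, op,
    Equiv.ofBijective th ⟨inj, surj⟩, fun i j => (ord i j).symm⟩

end Vale.Agent.P183.Trans
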